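import Vale.Agent.P205.Algebra

/-
P205: evaluation of rapidly decaying coefficient families as smooth periodic functions.
-/

namespace Vale.Agent.P205.Fourier

open Vale.Agent.P229 (P2 dp dy)
open scoped ENNReal ContDiff ComplexConjugate

/-- The exponent of one term of a series, as a linear map. -/
noncomputable def freq (v1 v2 : P2) (n : Z2) : P2 →L[ℝ] ℂ :=
  (ContinuousLinearMap.fst ℝ ℝ ℝ).smulRight (m1 v1 v2 n)
    + (ContinuousLinearMap.snd ℝ ℝ ℝ).smulRight (m2 v1 v2 n)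

lemma freq_apply (v1 v2 : P2) (n : Z2) (y : P2) :
    freq v1 v2 n y = (y.1 : ℂ) * m1 v1 v2 n + (y.2 : ℂ) * m2 v1 v2 n := by
  simp [freq]

lemma ev_eq (v1 v2 : P2) (c : Cf) (y : P2) :
    ev v1 v2 c y = ∑' n, c n * Complex.exp (freq v1 v2 n y) := by
  unfold ev
  refine tsum_congr fun n => ?_
  rw [freq_apply, m1, m2]
  push_cast
  ring_nf

lemma norm_exp_freq (v1 v2 : P2) (n : Z2) (y : P2) : ‖Complex.exp (freq v1 v2 n y)‖ = 1 := by
  rw [Complex.norm_exp, freq_apply, m1, m2]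
  simp

lemma norm_term (v1 v2 : P2) (c : Cf) (n : Z2) (y : P2) :
    ‖c n * Complex.exp (freq v1 v2 n y)‖ = ‖c n‖ := by
  rw [norm_mul, norm_exp_freq, mul_one]

lemma summable_of_N {k : ℕ} {c : Cf} (h : N k c ≠ ⊤) :
    Summable fun n => (w n : ℝ) ^ k * ‖c n‖ := by
  have e : N k c = ∑' n, (((w n : NNReal) ^ k * ‖c n‖₊ : NNReal) : ℝ≥0∞) := by
    unfold N
    refine tsum_congr fun n => ?_
    rw [ENNReal.coe_mul, ENNReal.coe_pow, ENNReal.coe_natCast, enorm_eq_nnnorm]
  rw [e, ENNReal.tsum_coe_ne_top_iff_summable] at h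
  simpa using NNReal.summable_coe.2 h

lemma N_ne_top_of_summable {k : ℕ} {c : Cf} (h : Summable fun n => (w n : ℝ) ^ k * ‖c n‖) :
    N k c ≠ ⊤ := by
  have e : N k c = ∑' n, (((w n : NNReal) ^ k * ‖c n‖₊ : NNReal) : ℝ≥0∞) := by
    unfold N
    refine tsum_congr fun n => ?_
    rw [ENNReal.coe_mul, ENNReal.coe_pow, ENNReal.coe_natCast, enorm_eq_nnnorm]
  rw [e, ENNReal.tsum_coe_ne_top_iff_summable, ← NNReal.summable_coe]
  simpa using h

lemma summable_term {v1 v2 : P2} {c : Cf} (h : N 0 c ≠ ⊤) (y : P2) :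
    Summable fun n => c n * Complex.exp (freq v1 v2 n y) :=
  .of_norm ((summable_norm_of_N h).congr fun n => (norm_term v1 v2 c n y).symm)

lemma abs_l1_le (v1 v2 : P2) (n : Z2) :
    |l1 v1 v2 n| ≤ (|v2.2| + |v1.2|) / |det2 v1 v2| * (w n : ℝ) := by
  unfold l1 w
  rw [abs_div, div_mul_eq_mul_div]
  refine div_le_div_of_nonneg_right ?_ (abs_nonneg _)
  push_cast [Nat.cast_natAbs]
  refine (abs_sub _ _).trans ?_
  rw [abs_mul, abs_mul]
  nlinarith [abs_nonneg v2.2, abs_nonneg v1.2, abs_nonneg (n.1 : ℝ), abs_nonneg (n.2 : ℝ)]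

lemma abs_l2_le (v1 v2 : P2) (n : Z2) :
    |l2 v1 v2 n| ≤ (|v1.1| + |v2.1|) / |det2 v1 v2| * (w n : ℝ) := by
  unfold l2 w
  rw [abs_div, div_mul_eq_mul_div]
  refine div_le_div_of_nonneg_right ?_ (abs_nonneg _)
  push_cast [Nat.cast_natAbs]
  refine (abs_sub _ _).trans ?_
  rw [abs_mul, abs_mul]
  nlinarith [abs_nonneg v1.1, abs_nonneg v2.1, abs_nonneg (n.1 : ℝ), abs_nonneg (n.2 : ℝ)]

lemma norm_m1_le (v1 v2 : P2) (n : Z2) :
    ‖m1 v1 v2 n‖ ≤ 2 * Real.pi * ((|v2.2| + |v1.2|) / |det2 v1 v2|) * (w n : ℝ) := by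
  rw [m1, norm_mul, Complex.norm_I, mul_one, Complex.norm_real, Real.norm_eq_abs, abs_mul,
    abs_of_pos Real.two_pi_pos, mul_assoc (2 * Real.pi)]
  exact mul_le_mul_of_nonneg_left (abs_l1_le v1 v2 n) Real.two_pi_pos.le

lemma norm_m2_le (v1 v2 : P2) (n : Z2) :
    ‖m2 v1 v2 n‖ ≤ 2 * Real.pi * ((|v1.1| + |v2.1|) / |det2 v1 v2|) * (w n : ℝ) := by
  rw [m2, norm_mul, Complex.norm_I, mul_one, Complex.norm_real, Real.norm_eq_abs, abs_mul,
    abs_of_pos Real.two_pi_pos, mul_assoc (2 * Real.pi)]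
  exact mul_le_mul_of_nonneg_left (abs_l2_le v1 v2 n) Real.two_pi_pos.le

lemma N_D1_ne_top {k : ℕ} {v1 v2 : P2} {c : Cf} (h : N (k + 1) c ≠ ⊤) :
    N k (D1 v1 v2 c) ≠ ⊤ := by
  refine N_ne_top_of_summable (((summable_of_N h).mul_left
    (2 * Real.pi * ((|v2.2| + |v1.2|) / |det2 v1 v2|))).of_nonneg_of_le (fun n => by positivity)
    fun n => ?_)
  rw [D1, norm_mul, pow_succ]
  refine (mul_le_mul_of_nonneg_left (mul_le_mul_of_nonneg_right (norm_m1_le v1 v2 n)
    (norm_nonneg _)) (by positivity)).trans_eq ?_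
  ring

lemma N_D2_ne_top {k : ℕ} {v1 v2 : P2} {c : Cf} (h : N (k + 1) c ≠ ⊤) :
    N k (D2 v1 v2 c) ≠ ⊤ := by
  refine N_ne_top_of_summable (((summable_of_N h).mul_left
    (2 * Real.pi * ((|v1.1| + |v2.1|) / |det2 v1 v2|))).of_nonneg_of_le (fun n => by positivity)
    fun n => ?_)
  rw [D2, norm_mul, pow_succ]
  refine (mul_le_mul_of_nonneg_left (mul_le_mul_of_nonneg_right (norm_m2_le v1 v2 n)
    (norm_nonneg _)) (by positivity)).trans_eq ?_
  ring

/-- The derivative of a series. -/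
lemma hasFDerivAt_ev {v1 v2 : P2} {c : Cf} (h : N 1 c ≠ ⊤) (y : P2) :
    HasFDerivAt (ev v1 v2 c)
      ((ContinuousLinearMap.fst ℝ ℝ ℝ).smulRight (ev v1 v2 (D1 v1 v2 c) y)
        + (ContinuousLinearMap.snd ℝ ℝ ℝ).smulRight (ev v1 v2 (D2 v1 v2 c) y)) y := by
  have h0 : N 0 c ≠ ⊤ := ne_top_of_le_ne_top h (N_mono (Nat.zero_le 1) c)
  have s1 := N_D1_ne_top (k := 0) (v1 := v1) (v2 := v2) h
  have s2 := N_D2_ne_top (k := 0) (v1 := v1) (v2 := v2) h
  obtain ⟨u, hu, hfb⟩ : ∃ u : Z2 → ℝ, Summable u ∧ ∀ n z,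
      ‖c n • (Complex.exp (freq v1 v2 n z) • freq v1 v2 n)‖ ≤ u n := by
    refine ⟨fun n => ‖D1 v1 v2 c n‖ + ‖D2 v1 v2 c n‖,
      (summable_norm_of_N s1).add (summable_norm_of_N s2), fun n z => ?_⟩
    simp only [D1, D2]
    rw [norm_smul, norm_smul, norm_exp_freq, one_mul, norm_mul, norm_mul, ← add_mul,
      mul_comm _ ‖c n‖]
    refine mul_le_mul_of_nonneg_left ?_ (norm_nonneg _)
    refine ContinuousLinearMap.opNorm_le_bound _ (by positivity) fun v => ?_
    rw [freq_apply]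
    refine (norm_add_le _ _).trans ?_
    rw [norm_mul, norm_mul, Complex.norm_real, Complex.norm_real, add_mul]
    rw [mul_comm ‖v.1‖, mul_comm ‖v.2‖]
    exact add_le_add (mul_le_mul_of_nonneg_left (norm_fst_le v) (norm_nonneg _))
      (mul_le_mul_of_nonneg_left (norm_snd_le v) (norm_nonneg _))
  have hd : ∀ n z, HasFDerivAt (fun z => c n * Complex.exp (freq v1 v2 n z))
      (c n • (Complex.exp (freq v1 v2 n z) • freq v1 v2 n)) z := fun n z =>
    ((freq v1 v2 n).hasFDerivAt.cexp).const_mul (c n)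
  have H := hasFDerivAt_tsum hu hd hfb (summable_term (v1 := v1) (v2 := v2) h0 0) y
  have he : (fun z => ∑' n, c n * Complex.exp (freq v1 v2 n z)) = ev v1 v2 c :=
    funext fun z => (ev_eq v1 v2 c z).symm
  rw [he] at H
  refine H.congr_fderiv ?_
  apply ContinuousLinearMap.ext
  intro v
  have hsum : Summable fun n => c n • (Complex.exp (freq v1 v2 n y) • freq v1 v2 n) :=
    .of_norm_bounded hu fun n => hfb n y
  have hap : (∑' n, c n • (Complex.exp (freq v1 v2 n y) • freq v1 v2 n)) v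
      = ∑' n, (c n • (Complex.exp (freq v1 v2 n y) • freq v1 v2 n)) v :=
    (ContinuousLinearMap.apply ℝ ℂ v).map_tsum hsum
  rw [hap]
  have a1 := (summable_term (v1 := v1) (v2 := v2) s1 y).mul_left (v.1 : ℂ)
  have a2 := (summable_term (v1 := v1) (v2 := v2) s2 y).mul_left (v.2 : ℂ)
  simp only [ev_eq, ContinuousLinearMap.smulRight_apply,
    ContinuousLinearMap.coe_fst', ContinuousLinearMap.coe_snd', add_apply,
    Complex.real_smul, smul_eq_mul, ← tsum_mul_left, FunLike.coe_smul, Pi.smul_apply]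
  rw [← a1.tsum_add a2]
  refine tsum_congr fun n => ?_
  simp only [freq_apply, D1, D2]
  ring

/-- The real series is differentiable, with the expected derivative. -/
lemma hasFDerivAt_evR {v1 v2 : P2} {c : Cf} (h : N 1 c ≠ ⊤) (y : P2) :
    HasFDerivAt (evR v1 v2 c)
      ((ContinuousLinearMap.fst ℝ ℝ ℝ).smulRight (evR v1 v2 (D1 v1 v2 c) y)
        + (ContinuousLinearMap.snd ℝ ℝ ℝ).smulRight (evR v1 v2 (D2 v1 v2 c) y)) y := by
  have H := Complex.reCLM.hasFDerivAt.comp y (hasFDerivAt_ev (v1 := v1) (v2 := v2) h y)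
  refine H.congr_fderiv (ContinuousLinearMap.ext fun v => ?_)
  simp [evR]

theorem dp_evR {v1 v2 : P2} {c : Cf} (h : N 1 c ≠ ⊤) :
    dp (evR v1 v2 c) = evR v1 v2 (D1 v1 v2 c) := by
  funext y
  unfold dp
  rw [(hasFDerivAt_evR h y).fderiv]
  simp

theorem dy_evR {v1 v2 : P2} {c : Cf} (h : N 1 c ≠ ⊤) :
    dy (evR v1 v2 c) = evR v1 v2 (D2 v1 v2 c) := by
  funext y
  unfold dy
  rw [(hasFDerivAt_evR h y).fderiv]
  simp

lemma continuous_ev {v1 v2 : P2} {c : Cf} (h : N 0 c ≠ ⊤) : Continuous (ev v1 v2 c) := by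
  rw [funext fun z => ev_eq v1 v2 c z]
  exact continuous_tsum (fun n => by fun_prop) (summable_norm_of_N h)
    fun n z => (norm_term v1 v2 c n z).le

theorem fderiv_ev {v1 v2 : P2} {c : Cf} (h : N 1 c ≠ ⊤) (y : P2) :
    fderiv ℝ (ev v1 v2 c) y (1, 0) = ev v1 v2 (D1 v1 v2 c) y ∧
      fderiv ℝ (ev v1 v2 c) y (0, 1) = ev v1 v2 (D2 v1 v2 c) y := by
  rw [(hasFDerivAt_ev h y).fderiv]
  constructor <;> simp

lemma contDiff_ev_nat (v1 v2 : P2) :
    ∀ (k : ℕ) (c : Cf), N k c ≠ ⊤ → ContDiff ℝ (k : WithTop ℕ∞) (ev v1 v2 c) := by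
  intro k
  induction k with
  | zero =>
    intro c h
    rw [Nat.cast_zero, contDiff_zero]
    exact continuous_ev h
  | succ k ih =>
    intro c h
    have h1 : N 1 c ≠ ⊤ := ne_top_of_le_ne_top h (N_mono (by omega) c)
    rw [Nat.cast_succ, contDiff_succ_iff_fderiv]
    refine ⟨fun y => (hasFDerivAt_ev h1 y).differentiableAt, by simp, ?_⟩
    have e : fderiv ℝ (ev v1 v2 c) = fun y =>
        (ContinuousLinearMap.smulRightL ℝ P2 ℂ (ContinuousLinearMap.fst ℝ ℝ ℝ)
          (ev v1 v2 (D1 v1 v2 c) y))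
        + (ContinuousLinearMap.smulRightL ℝ P2 ℂ (ContinuousLinearMap.snd ℝ ℝ ℝ)
          (ev v1 v2 (D2 v1 v2 c) y)) :=
      funext fun y => (hasFDerivAt_ev h1 y).fderiv
    rw [e]
    exact ((ContinuousLinearMap.contDiff _).comp (ih _ (N_D1_ne_top h))).add
      ((ContinuousLinearMap.contDiff _).comp (ih _ (N_D2_ne_top h)))

theorem contDiff_ev {v1 v2 : P2} {c : Cf} (h : Rapid c) : ContDiff ℝ ∞ (ev v1 v2 c) :=
  contDiff_infty.2 fun k => contDiff_ev_nat v1 v2 k c (h k)

theorem contDiff_evR {v1 v2 : P2} {c : Cf} (h : Rapid c) : ContDiff ℝ ∞ (evR v1 v2 c) :=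
  Complex.reCLM.contDiff.comp (contDiff_ev h)

lemma freq_period {v1 v2 : P2} (h : det2 v1 v2 ≠ 0) (n : Z2) :
    freq v1 v2 n v1 = (n.1 : ℂ) * (2 * Real.pi * Complex.I) ∧
      freq v1 v2 n v2 = (n.2 : ℂ) * (2 * Real.pi * Complex.I) := by
  have e1 : v1.1 * l1 v1 v2 n + v1.2 * l2 v1 v2 n = (n.1 : ℝ) := by
    unfold l1 l2
    field_simp
    simp only [det2]
    ring
  have e2 : v2.1 * l1 v1 v2 n + v2.2 * l2 v1 v2 n = (n.2 : ℝ) := by
    unfold l1 l2
    field_simp
    simp only [det2]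
    ring
  constructor
  · rw [freq_apply, m1, m2, ← Complex.ofReal_intCast n.1, ← e1]
    push_cast
    ring
  · rw [freq_apply, m1, m2, ← Complex.ofReal_intCast n.2, ← e2]
    push_cast
    ring

theorem ev_periodic {v1 v2 : P2} (h : det2 v1 v2 ≠ 0) (c : Cf) :
    Periodic2 v1 v2 (ev v1 v2 c) := by
  intro y
  constructor <;>
  · simp only [ev_eq, map_add, Complex.exp_add, (freq_period h _).1, (freq_period h _).2,
      Complex.exp_int_mul_two_pi_mul_I, mul_one]

theorem evR_periodic {v1 v2 : P2} (h : det2 v1 v2 ≠ 0) (c : Cf) :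
    Periodic2 v1 v2 (evR v1 v2 c) := fun y =>
  ⟨congrArg Complex.re (ev_periodic h c y).1, congrArg Complex.re (ev_periodic h c y).2⟩

theorem abs_evR_le {v1 v2 : P2} {c : Cf} (h : N 0 c ≠ ⊤) (y : P2) :
    |evR v1 v2 c y| ≤ (N 0 c).toReal := by
  have hs := summable_norm_of_N h
  have e : (N 0 c).toReal = ∑' n, ‖c n‖ := by
    unfold N
    rw [ENNReal.tsum_toReal_eq fun n => by simp]
    simp
  rw [e]
  refine (Complex.abs_re_le_norm _).trans ?_
  rw [ev_eq]
  refine (norm_tsum_le_tsum_norm (hs.congr fun n => (norm_term v1 v2 c n y).symm)).trans_eq ?_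
  exact tsum_congr fun n => norm_term v1 v2 c n y

theorem evR_add {v1 v2 : P2} {c d : Cf} (hc : N 0 c ≠ ⊤) (hd : N 0 d ≠ ⊤) (y : P2) :
    evR v1 v2 (c + d) y = evR v1 v2 c y + evR v1 v2 d y := by
  simp only [evR, ← Complex.add_re, ev_eq, ← (summable_term hc y).tsum_add (summable_term hd y)]
  congr 1
  exact tsum_congr fun n => by simp [add_mul]

theorem ev_add {v1 v2 : P2} {c d : Cf} (hc : N 0 c ≠ ⊤) (hd : N 0 d ≠ ⊤) (y : P2) :
    ev v1 v2 (c + d) y = ev v1 v2 c y + ev v1 v2 d y := by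
  simp only [ev_eq, ← (summable_term hc y).tsum_add (summable_term hd y)]
  exact tsum_congr fun n => by simp [add_mul]

theorem evR_sub {v1 v2 : P2} {c d : Cf} (hc : N 0 c ≠ ⊤) (hd : N 0 d ≠ ⊤) (y : P2) :
    evR v1 v2 (c - d) y = evR v1 v2 c y - evR v1 v2 d y := by
  simp only [evR, ← Complex.sub_re, ev_eq, ← (summable_term hc y).tsum_sub (summable_term hd y)]
  congr 1
  exact tsum_congr fun n => by simp [sub_mul]

theorem evR_smul {v1 v2 : P2} (t : ℝ) (c : Cf) (y : P2) :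
    evR v1 v2 ((t : ℂ) • c) y = t * evR v1 v2 c y := by
  simp only [evR, ev_eq, Pi.smul_apply, smul_eq_mul, mul_assoc, tsum_mul_left,
    Complex.re_ofReal_mul]

theorem ev_smul {v1 v2 : P2} (a : ℂ) (c : Cf) (y : P2) :
    ev v1 v2 (a • c) y = a * ev v1 v2 c y := by
  simp only [ev_eq, Pi.smul_apply, smul_eq_mul, mul_assoc, tsum_mul_left]

theorem ev_single0 {v1 v2 : P2} {c : Cf} (h : ∀ n, n ≠ 0 → c n = 0) (y : P2) :
    ev v1 v2 c y = c 0 := by
  rw [ev_eq, tsum_eq_single 0 fun n hn => by rw [h n hn, zero_mul]]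
  simp [freq_apply, m1, m2, l1, l2]

theorem evR_single0 {v1 v2 : P2} {c : Cf} (h : ∀ n, n ≠ 0 → c n = 0) (y : P2) :
    evR v1 v2 c y = (c 0).re := by
  rw [evR, ev_eq, tsum_eq_single 0 fun n hn => by rw [h n hn, zero_mul]]
  simp [freq_apply, m1, m2, l1, l2]

theorem evR_one {v1 v2 : P2} (y : P2) : evR v1 v2 one y = 1 := by
  rw [evR_single0 (c := one) fun n hn => by simp [one, hn]]
  simp [one]

theorem evR_zero {v1 v2 : P2} (y : P2) : evR v1 v2 (0 : Cf) y = 0 := by
  rw [evR_single0 (c := (0 : Cf)) fun n _ => rfl]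
  simp

lemma ev_eq_evR {v1 v2 : P2} {c : Cf} (hc : Sym c) (y : P2) :
    ev v1 v2 c y = (evR v1 v2 c y : ℂ) := by
  refine (Complex.conj_eq_iff_re.1 ?_).symm
  rw [ev_eq, Complex.conj_tsum, ← (Equiv.neg Z2).tsum_eq]
  refine tsum_congr fun n => ?_
  rw [Equiv.neg_apply, hc n, map_mul, Complex.conj_conj, ← Complex.exp_conj]
  congr 2
  simp [freq_apply, m1, m2, l1, l2, Complex.conj_ofReal, map_ofNat]
  ring

lemma m1_add (v1 v2 : P2) (a b : Z2) : m1 v1 v2 (a + b) = m1 v1 v2 a + m1 v1 v2 b := by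
  simp [m1, l1]
  ring

lemma m2_add (v1 v2 : P2) (a b : Z2) : m2 v1 v2 (a + b) = m2 v1 v2 a + m2 v1 v2 b := by
  simp [m2, l2]
  ring

theorem ev_conv {v1 v2 : P2} {c d : Cf} (hc0 : N 0 c ≠ ⊤) (hd0 : N 0 d ≠ ⊤) (y : P2) :
    ev v1 v2 (conv c d) y = ev v1 v2 c y * ev v1 v2 d y := by
  set e : Z2 → ℂ := fun n => Complex.exp (freq v1 v2 n y) with he
  have hna : Summable fun n => ‖c n * e n‖ :=
    (summable_norm_of_N hc0).congr fun n => (norm_term v1 v2 c n y).symm
  have hnb : Summable fun n => ‖d n * e n‖ :=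
    (summable_norm_of_N hd0).congr fun n => (norm_term v1 v2 d n y).symm
  have hmul : HasSum (fun p : Z2 × Z2 => (c p.1 * e p.1) * (d p.2 * e p.2))
      (ev v1 v2 c y * ev v1 v2 d y) := by
    rw [ev_eq, ev_eq]
    have a := (summable_term (v1 := v1) (v2 := v2) hc0 y).hasSum
    have b := (summable_term (v1 := v1) (v2 := v2) hd0 y).hasSum
    have s : Summable fun p : Z2 × Z2 => (c p.1 * e p.1) * (d p.2 * e p.2) :=
      summable_mul_of_summable_norm (f := fun n => c n * e n) (g := fun n => d n * e n) hna hnb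
    exact HasSum.mul (f := fun n => c n * e n) (g := fun n => d n * e n) a b s
  let σ : Z2 × Z2 ≃ Z2 × Z2 :=
    { toFun := fun p => (p.2, p.1 - p.2)
      invFun := fun p => (p.1 + p.2, p.1)
      left_inv := fun p => by simp
      right_inv := fun p => by simp }
  have hadd : ∀ m n : Z2, e m * e (n - m) = e n := by
    intro m n
    rw [he]
    simp only [← Complex.exp_add, freq_apply]
    congr 1
    conv_rhs => rw [show n = m + (n - m) by abel, m1_add, m2_add]
    ring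
  have hsh : HasSum (fun p : Z2 × Z2 => c p.2 * d (p.1 - p.2) * e p.1)
      (ev v1 v2 c y * ev v1 v2 d y) := by
    refine ((σ.hasSum_iff (f := fun p : Z2 × Z2 => (c p.1 * e p.1) * (d p.2 * e p.2))).2
      hmul).congr_fun fun p => ?_
    simp only [Function.comp_apply, σ, Equiv.coe_fn_mk]
    rw [← hadd p.2 p.1]
    ring
  have hout := hsh.prod_fiberwise fun n => (hsh.summable.prod_factor n).hasSum
  rw [ev_eq, ← hout.tsum_eq]
  refine tsum_congr fun n => ?_
  rw [conv, ← tsum_mul_right]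

theorem evR_conv {v1 v2 : P2} {c d : Cf} (hc : Sym c) (hd : Sym d) (hc0 : N 0 c ≠ ⊤)
    (hd0 : N 0 d ≠ ⊤) (y : P2) :
    evR v1 v2 (conv c d) y = evR v1 v2 c y * evR v1 v2 d y := by
  rw [evR, ev_conv hc0 hd0, ev_eq_evR hc, ev_eq_evR hd, ← Complex.ofReal_mul, Complex.ofReal_re]

section Expansion

open MeasureTheory UnitAddTorus

/-- The two-dimensional torus. -/
abbrev T2 := UnitAddTorus (Fin 2)

/-- Its invariant probability measure. -/
noncomputable def torMeas : Measure T2 := Measure.pi fun _ : Fin 2 => AddCircle.haarAddCircle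

instance : IsProbabilityMeasure torMeas := by unfold torMeas; infer_instance

instance : Measure.IsAddHaarMeasure torMeas := by unfold torMeas; infer_instance

/-- The covering map. -/
def proj (x : Fin 2 → ℝ) : T2 := fun i => (x i : UnitAddCircle)

/-- The representatives in the unit square. -/
noncomputable def rep (t : T2) : Fin 2 → ℝ := fun i => (AddCircle.equivIco 1 0 (t i)).1

lemma proj_rep (t : T2) : proj (rep t) = t :=
  funext fun i => (AddCircle.equivIco 1 0).symm_apply_apply (t i)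

lemma proj_add (x z : Fin 2 → ℝ) : proj (x + z) = proj x + proj z := rfl

/-- Functions with period one in both coordinates. -/
def IntPeriodic (g : (Fin 2 → ℝ) → ℝ) : Prop :=
  ∀ (x : Fin 2 → ℝ) (k : Fin 2 → ℤ), g (x + fun i => (k i : ℝ)) = g x

/-- The function on the torus given by a periodic function. -/
noncomputable def tor (g : (Fin 2 → ℝ) → ℝ) (t : T2) : ℂ := (g (rep t) : ℂ)

lemma tor_proj {g : (Fin 2 → ℝ) → ℝ} (hg : IntPeriodic g) (x : Fin 2 → ℝ) :
    tor g (proj x) = (g x : ℂ) := by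
  unfold tor
  have h : ∀ i, ∃ k : ℤ, rep (proj x) i = x i + k := by
    intro i
    have e : ((rep (proj x) i - x i : ℝ) : UnitAddCircle) = 0 := by
      have := congr_fun (proj_rep (proj x)) i
      rw [AddCircle.coe_sub]
      exact sub_eq_zero.2 this
    obtain ⟨k, hk⟩ := (AddCircle.coe_eq_zero_iff 1).1 e
    refine ⟨k, ?_⟩
    rw [zsmul_eq_mul, mul_one] at hk
    linarith
  choose k hk using h
  rw [show rep (proj x) = x + fun i => (k i : ℝ) from funext hk, hg]

lemma continuous_tor {g : (Fin 2 → ℝ) → ℝ} (hc : Continuous g) (hg : IntPeriodic g) :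
    Continuous (tor g) := by
  have q : IsOpenQuotientMap proj :=
    IsOpenQuotientMap.piMap fun _ : Fin 2 => QuotientAddGroup.isOpenQuotientMap_mk
  rw [← q.continuous_comp_iff]
  exact (Complex.continuous_ofReal.comp hc).congr fun x => (tor_proj hg x).symm

/-- The Fourier coefficients. -/
noncomputable def coef (g : (Fin 2 → ℝ) → ℝ) (k : Fin 2 → ℤ) : ℂ :=
  ∫ t, mFourier (-k) t * tor g t ∂torMeas

lemma coef_eq (g : (Fin 2 → ℝ) → ℝ) (k : Fin 2 → ℤ) :
    coef g k = mFourierCoeff (tor g) k := rfl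

lemma exists_norm_coef_le {g : (Fin 2 → ℝ) → ℝ} (hc : Continuous g) (hg : IntPeriodic g) :
    ∃ C, ∀ k, ‖coef g k‖ ≤ C := by
  obtain ⟨C, hC⟩ := isCompact_univ.exists_bound_of_continuousOn
    (continuous_tor hc hg).continuousOn
  refine ⟨C, fun k => ?_⟩
  refine (norm_integral_le_of_norm_le_const (C := C) (ae_of_all _ fun t => ?_)).trans_eq (by simp)
  rw [norm_mul]
  calc _ ≤ 1 * C := mul_le_mul (((mFourier (-k)).norm_coe_le_norm t).trans_eq mFourier_norm)
        (hC t trivial) (norm_nonneg _) zero_le_one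
    _ = C := one_mul C

lemma mFourier_proj (k : Fin 2 → ℤ) (x : Fin 2 → ℝ) :
    mFourier k (proj x)
      = Complex.exp (2 * Real.pi * Complex.I * ((k 0 : ℂ) * x 0 + (k 1 : ℂ) * x 1)) := by
  simp only [mFourier, ContinuousMap.coe_mk, Fin.prod_univ_two, proj, fourier_coe_apply,
    ← Complex.exp_add]
  congr 1
  push_cast
  ring

lemma mFourier_mul_proj (k : Fin 2 → ℤ) (t : T2) (x : Fin 2 → ℝ) :
    mFourier k (t + proj x) = mFourier k t * mFourier k (proj x) := by
  conv_lhs => rw [← proj_rep t, ← proj_add, mFourier_proj]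
  conv_rhs => rw [← proj_rep t, mFourier_proj, mFourier_proj, ← Complex.exp_add]
  congr 1
  simp only [Pi.add_apply]
  push_cast
  ring

/-- The derivative of a periodic function along a coordinate. -/
noncomputable def pd (i : Fin 2) (g : (Fin 2 → ℝ) → ℝ) (x : Fin 2 → ℝ) : ℝ :=
  fderiv ℝ g x (Pi.single i 1)

lemma contDiff_pd {g : (Fin 2 → ℝ) → ℝ} (hs : ContDiff ℝ ∞ g) (i : Fin 2) :
    ContDiff ℝ ∞ (pd i g) :=
  (hs.fderiv_right (m := ∞) (by simp)).clm_apply contDiff_const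

lemma intPeriodic_pd {g : (Fin 2 → ℝ) → ℝ} (hg : IntPeriodic g) (i : Fin 2) :
    IntPeriodic (pd i g) := by
  intro x k
  unfold pd
  conv_rhs => rw [← funext fun y => hg y k]
  rw [fderiv_comp_add_right]

lemma coef_pd {g : (Fin 2 → ℝ) → ℝ} (hs : ContDiff ℝ ∞ g) (hg : IntPeriodic g) (i : Fin 2)
    (k : Fin 2 → ℤ) : coef (pd i g) k = 2 * Real.pi * Complex.I * k i * coef g k := by
  have hcF := continuous_tor hs.continuous hg
  have hcG := continuous_tor (contDiff_pd hs i).continuous (intPeriodic_pd hg i)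
  obtain ⟨C, hC⟩ := isCompact_univ.exists_bound_of_continuousOn hcG.continuousOn
  set z : ℝ → T2 := fun h => proj (h • (Pi.single i 1 : Fin 2 → ℝ)) with hz
  set e : T2 → ℂ := fun t => mFourier (-k) t with he
  have hder : ∀ t h, HasDerivAt (fun h => e t * tor g (t + z h))
      (e t * tor (pd i g) (t + z h)) h := by
    intro t h
    have e1 : ∀ s, t + z s = proj (rep t + s • (Pi.single i 1 : Fin 2 → ℝ)) := fun s => by
      rw [proj_add, proj_rep]
    simp only [e1, tor_proj hg, tor_proj (intPeriodic_pd hg i)]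
    have a1 : HasDerivAt (fun s : ℝ => rep t + s • (Pi.single i 1 : Fin 2 → ℝ))
        (Pi.single i 1) h := by
      simpa using ((hasDerivAt_id h).smul_const (Pi.single i (1 : ℝ) : Fin 2 → ℝ)).const_add (rep t)
    have a2 := ((hs.differentiable (by simp)) _).hasFDerivAt.comp_hasDerivAt h a1
    exact a2.ofReal_comp.const_mul (e t)
  have cF : ∀ h, Continuous fun t => e t * tor g (t + z h) := fun h =>
    (mFourier (-k)).continuous.mul (hcF.comp (continuous_id.add continuous_const))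
  have H := (hasDerivAt_integral_of_dominated_loc_of_deriv_le (μ := torMeas)
    (F := fun h t => e t * tor g (t + z h)) (F' := fun h t => e t * tor (pd i g) (t + z h))
    (x₀ := (0 : ℝ)) (bound := fun _ => C) (s := Set.univ) Filter.univ_mem
    (.of_forall fun h => (cF h).aestronglyMeasurable)
    ((cF 0).integrable_of_hasCompactSupport (HasCompactSupport.of_compactSpace _))
    ((mFourier (-k)).continuous.mul
      (hcG.comp (continuous_id.add continuous_const))).aestronglyMeasurable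
    (ae_of_all _ fun t h _ => by
      rw [norm_mul]
      calc _ ≤ 1 * C := mul_le_mul (((mFourier (-k)).norm_coe_le_norm t).trans_eq mFourier_norm)
            (hC _ trivial) (norm_nonneg _) zero_le_one
        _ = C := one_mul C)
    (integrable_const C) (ae_of_all _ fun t h _ => hder t h)).2
  have hz0 : z 0 = 0 := by
    ext j
    simp [hz, proj]
  have htr : (fun h => ∫ t, e t * tor g (t + z h) ∂torMeas)
      = fun h : ℝ => Complex.exp ((h : ℂ) * (2 * Real.pi * Complex.I * k i)) * coef g k := by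
    funext h
    have e2 : ∀ t, e t * tor g (t + z h) = (fun u => e (u + -z h) * tor g u) (t + z h) := by
      intro t
      simp
    simp_rw [e2]
    rw [integral_add_right_eq_self (μ := torMeas) (fun u => e (u + -z h) * tor g u) (z h), coef,
      ← integral_const_mul]
    refine integral_congr_ae (ae_of_all _ fun u => ?_)
    have e3 : -z h = proj (-(h • (Pi.single i 1 : Fin 2 → ℝ))) := rfl
    simp only [he]
    have e4 : mFourier (-k) (proj (-(h • (Pi.single i 1 : Fin 2 → ℝ))))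
        = Complex.exp ((h : ℂ) * (2 * Real.pi * Complex.I * k i)) := by
      rw [mFourier_proj]
      congr 1
      fin_cases i <;> simp <;> ring
    rw [e3, mFourier_mul_proj, e4]
    ring
  simp only [htr, hz0, add_zero] at H
  have H2 : HasDerivAt
      (fun h : ℝ => Complex.exp ((h : ℂ) * (2 * Real.pi * Complex.I * k i)) * coef g k)
      (2 * Real.pi * Complex.I * k i * coef g k) 0 := by
    simpa using (((hasDerivAt_id (0 : ℝ)).ofReal_comp.mul_const
      (2 * Real.pi * Complex.I * k i)).cexp).mul_const (coef g k)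
  exact H.unique H2

lemma exists_coef_pow_le (i : Fin 2) : ∀ (j : ℕ) (g : (Fin 2 → ℝ) → ℝ), ContDiff ℝ ∞ g →
    IntPeriodic g → ∃ C, ∀ k, |(k i : ℝ)| ^ j * ‖coef g k‖ ≤ C := by
  intro j
  induction j with
  | zero =>
    intro g hs hg
    simpa using exists_norm_coef_le hs.continuous hg
  | succ j ih =>
    intro g hs hg
    obtain ⟨C, hC⟩ := ih (pd i g) (contDiff_pd hs i) (intPeriodic_pd hg i)
    refine ⟨C, fun k => le_trans ?_ (hC k)⟩
    rw [coef_pd hs hg, norm_mul, pow_succ, mul_assoc]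
    refine mul_le_mul_of_nonneg_left (mul_le_mul_of_nonneg_right ?_ (norm_nonneg _))
      (by positivity)
    simp [abs_of_pos Real.pi_pos]
    exact le_mul_of_one_le_left (abs_nonneg _) (by linarith [Real.two_le_pi])

lemma summable_inv_w_pow : Summable fun n : Z2 => 1 / (w n : ℝ) ^ 4 := by
  have ha : Summable fun m : ℤ => 1 / (1 + (m.natAbs : ℝ)) ^ 2 := by
    have hn : Summable fun m : ℕ => 1 / (1 + (m : ℝ)) ^ 2 := by
      have := (summable_nat_add_iff 1).2 (Real.summable_one_div_nat_pow.2 one_lt_two)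
      simpa [add_comm] using this
    exact summable_int_iff_summable_nat_and_neg.2 ⟨by simpa using hn, by simpa using hn⟩
  refine (ha.mul_of_nonneg ha (fun m => by positivity) (fun m => by positivity)).of_nonneg_of_le
    (fun n => by positivity) fun n => ?_
  rw [div_mul_div_comm, one_mul]
  refine one_div_le_one_div_of_le (by positivity) ?_
  have h1 : (1 + (n.1.natAbs : ℝ)) ≤ w n := by simp [w]
  have h2 : (1 + (n.2.natAbs : ℝ)) ≤ w n := by simp [w]
  calc (1 + (n.1.natAbs : ℝ)) ^ 2 * (1 + (n.2.natAbs : ℝ)) ^ 2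
      ≤ (w n : ℝ) ^ 2 * (w n : ℝ) ^ 2 :=
        mul_le_mul (pow_le_pow_left₀ (by positivity) h1 2) (pow_le_pow_left₀ (by positivity) h2 2)
          (by positivity) (by positivity)
    _ = _ := by ring

lemma w_pow_le (n : Z2) (p : ℕ) :
    (w n : ℝ) ^ p ≤ 3 ^ p * (1 + (n.1.natAbs : ℝ) ^ p + (n.2.natAbs : ℝ) ^ p) := by
  obtain h | h | h : w n ≤ 3 ∨ w n ≤ 3 * n.1.natAbs ∨ w n ≤ 3 * n.2.natAbs := by
    unfold w; omega
  · refine (pow_le_pow_left₀ (b := (3 : ℝ)) (by positivity) (by exact_mod_cast h) p).trans ?_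
    refine le_mul_of_one_le_right (by positivity) ?_
    have : 0 ≤ (n.1.natAbs : ℝ) ^ p + (n.2.natAbs : ℝ) ^ p := by positivity
    linarith
  · refine (pow_le_pow_left₀ (b := 3 * (n.1.natAbs : ℝ)) (by positivity) (by exact_mod_cast h)
      p).trans ?_
    rw [mul_pow]
    refine mul_le_mul_of_nonneg_left ?_ (by positivity)
    have : 0 ≤ (n.2.natAbs : ℝ) ^ p := by positivity
    linarith
  · refine (pow_le_pow_left₀ (b := 3 * (n.2.natAbs : ℝ)) (by positivity) (by exact_mod_cast h)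
      p).trans ?_
    rw [mul_pow]
    refine mul_le_mul_of_nonneg_left ?_ (by positivity)
    have : 0 ≤ (n.1.natAbs : ℝ) ^ p := by positivity
    linarith

lemma rapid_coef {g : (Fin 2 → ℝ) → ℝ} (hs : ContDiff ℝ ∞ g) (hg : IntPeriodic g) :
    Rapid fun n => coef g ![n.1, n.2] := by
  intro k
  obtain ⟨C0, hC0⟩ := exists_norm_coef_le hs.continuous hg
  obtain ⟨C1, hC1⟩ := exists_coef_pow_le 0 (k + 4) g hs hg
  obtain ⟨C2, hC2⟩ := exists_coef_pow_le 1 (k + 4) g hs hg
  refine N_ne_top_of_summable ((summable_inv_w_pow.mul_left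
    (3 ^ (k + 4) * (C0 + C1 + C2))).of_nonneg_of_le (fun n => by positivity) fun n => ?_)
  have hw : (0 : ℝ) < (w n : ℝ) ^ 4 := pow_pos (by exact_mod_cast one_le_w n) 4
  rw [mul_one_div, le_div_iff₀ hw, mul_right_comm, ← pow_add]
  refine (mul_le_mul_of_nonneg_right (w_pow_le n (k + 4)) (norm_nonneg _)).trans ?_
  rw [mul_assoc]
  refine mul_le_mul_of_nonneg_left ?_ (by positivity)
  have a0 := hC0 ![n.1, n.2]
  have a1 := hC1 ![n.1, n.2]
  have a2 := hC2 ![n.1, n.2]
  simp only [Matrix.cons_val_zero, Matrix.cons_val_one, ← Int.cast_abs, ← Nat.cast_natAbs] at a1 a2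
  rw [add_mul, add_mul, one_mul]
  linarith

lemma sym_coef (g : (Fin 2 → ℝ) → ℝ) : Sym fun n => coef g ![n.1, n.2] := by
  intro n
  simp only [Prod.fst_neg, Prod.snd_neg, coef]
  rw [← integral_conj, show -(![-n.1, -n.2] : Fin 2 → ℤ) = ![n.1, n.2] by
    ext j; fin_cases j <;> simp]
  refine integral_congr_ae (ae_of_all _ fun t => ?_)
  simp only [tor, map_mul, Complex.conj_ofReal, ← mFourier_neg, neg_neg]

/-- Every smooth periodic function is the series of a rapidly decaying family. -/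
theorem exists_coeff {v1 v2 : P2} (h : det2 v1 v2 ≠ 0) {f : P2 → ℝ} (hf : ContDiff ℝ ∞ f)
    (hp : Periodic2 v1 v2 f) : ∃ c, Rapid c ∧ Sym c ∧ evR v1 v2 c = f := by
  set g : (Fin 2 → ℝ) → ℝ := fun x => f (x 0 • v1 + x 1 • v2) with hgdef
  have hs : ContDiff ℝ ∞ g :=
    hf.comp (((contDiff_apply ℝ ℝ 0).smul contDiff_const).add
      ((contDiff_apply ℝ ℝ 1).smul contDiff_const))
  have hg : IntPeriodic g := by
    intro x k
    have p1 : Function.Periodic f v1 := fun y => (hp y).1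
    have p2 : Function.Periodic f v2 := fun y => (hp y).2
    simp only [hgdef, Pi.add_apply, add_smul, Int.cast_smul_eq_zsmul]
    rw [show x 0 • v1 + k 0 • v1 + (x 1 • v2 + k 1 • v2)
      = x 0 • v1 + x 1 • v2 + k 0 • v1 + k 1 • v2 by abel, p2.zsmul (k 1), p1.zsmul (k 0)]
  have hr := rapid_coef hs hg
  set Fc : C(T2, ℂ) := ⟨tor g, continuous_tor hs.continuous hg⟩
  let σ : Z2 ≃ (Fin 2 → ℤ) := (finTwoArrowEquiv ℤ).symm
  have hσ : ∀ n : Z2, mFourierCoeff Fc (σ n) = coef g ![n.1, n.2] := fun n => rfl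
  have hsum : Summable (mFourierCoeff Fc) := by
    rw [← σ.summable_iff]
    refine (Summable.of_norm (summable_norm_of_N (hr 0))).congr fun n => ?_
    exact (hσ n).symm
  refine ⟨_, hr, sym_coef g, funext fun y => ?_⟩
  set x : Fin 2 → ℝ := ![(y.1 * v2.2 - y.2 * v2.1) / det2 v1 v2,
    (v1.1 * y.2 - v1.2 * y.1) / det2 v1 v2] with hx
  have hy : x 0 • v1 + x 1 • v2 = y := by
    ext <;> simp [hx] <;> field_simp <;> simp only [det2] <;> ring
  have hser := (σ.hasSum_iff.2
    (hasSum_mFourier_series_apply_of_summable (f := Fc) hsum (proj x))).tsum_eq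
  have hval : ev v1 v2 (fun n => coef g ![n.1, n.2]) y = (f y : ℂ) := by
    have e : (Fc (proj x) : ℂ) = (f y : ℂ) := by
      rw [← hy]
      exact tor_proj hg x
    rw [← e, ← hser, ev_eq]
    refine tsum_congr fun n => ?_
    simp only [Function.comp_apply, smul_eq_mul, hσ, mFourier_proj]
    congr 2
    have e1 : y.1 * l1 v1 v2 n + y.2 * l2 v1 v2 n = n.1 * x 0 + n.2 * x 1 := by
      simp [hx, l1, l2]
      field_simp
      ring
    rw [freq_apply, m1, m2]
    have e0 : σ n 0 = n.1 ∧ σ n 1 = n.2 := ⟨rfl, rfl⟩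
    rw [e0.1, e0.2, show (n.1 : ℂ) * x 0 + (n.2 : ℂ) * x 1
      = ((n.1 * x 0 + n.2 * x 1 : ℝ) : ℂ) by push_cast; ring, ← e1]
    push_cast
    ring
  rw [evR, hval, Complex.ofReal_re]

end Expansion

end Vale.Agent.P205.Fourier
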