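import Vale.Agent.P205.BeltramiSeq
import Vale.Agent.P205.Series

/-
P205: complex series on the standard torus and the square sum bound of a multiplication.
-/

namespace Vale.Agent.P205.Beltrami

open Vale.Agent.P229 (P2)
open Vale.Agent.P205.Fourier
open MeasureTheory
open scoped ENNReal ContDiff ComplexConjugate

/-- The series of a family on the standard torus. -/
noncomputable abbrev evS (c : Cf) : P2 → ℂ := ev e1 e2 c

lemma det2_std : det2 e1 e2 ≠ 0 := by norm_num [det2]

lemma evS_add {c d : Cf} (hc : N 0 c ≠ ⊤) (hd : N 0 d ≠ ⊤) (y : P2) :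
    evS (c + d) y = evS c y + evS d y := by
  simp only [evS, ev_eq, ← (summable_term hc y).tsum_add (summable_term hd y)]
  exact tsum_congr fun n => by simp [add_mul]

lemma evS_smul (a : ℂ) (c : Cf) (y : P2) : evS (a • c) y = a * evS c y := by
  simp only [evS, ev_eq, Pi.smul_apply, smul_eq_mul, mul_assoc, tsum_mul_left]

lemma evS_one (y : P2) : evS one y = 1 := by
  rw [evS, ev_eq, tsum_eq_single 0 fun n hn => by simp [one, hn]]
  simp [one, freq_apply, m1, m2, l1, l2]

lemma contDiff_evS {c : Cf} (hc : Rapid c) : ContDiff ℝ ∞ (evS c) := by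
  have hi : Rapid ((-Complex.I) • c) := fun k => by
    rw [N_smul]; exact ENNReal.mul_ne_top enorm_ne_top (hc k)
  have e : evS c = fun y => (evR e1 e2 c y : ℂ)
      + (evR e1 e2 ((-Complex.I) • c) y : ℂ) * Complex.I := by
    funext y
    rw [show evR e1 e2 ((-Complex.I) • c) y = (-Complex.I * evS c y).re by
      rw [← evS_smul]; rfl]
    simp only [evR, neg_mul, Complex.neg_re, Complex.I_mul_re, neg_neg, Complex.re_add_im]
  rw [e]
  have h1 := Complex.ofRealCLM.contDiff.comp (contDiff_evR (v1 := e1) (v2 := e2) hc)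
  have h2 := Complex.ofRealCLM.contDiff.comp (contDiff_evR (v1 := e1) (v2 := e2) hi)
  exact h1.add (h2.mul contDiff_const)

lemma evS_periodic (c : Cf) : Periodic2 e1 e2 (evS c) := by
  intro y
  constructor <;>
  · simp only [evS, ev_eq, map_add, Complex.exp_add, (freq_period det2_std _).1,
      (freq_period det2_std _).2, Complex.exp_int_mul_two_pi_mul_I, mul_one]

lemma fderiv_evS {c : Cf} (hc : N 1 c ≠ ⊤) (y : P2) :
    fderiv ℝ (evS c) y (1, 0) = evS (D1 e1 e2 c) y ∧
      fderiv ℝ (evS c) y (0, 1) = evS (D2 e1 e2 c) y := by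
  rw [evS, (hasFDerivAt_ev hc y).fderiv]
  simp

lemma norm_evS_le {c : Cf} (h : N 0 c ≠ ⊤) (y : P2) : ‖evS c y‖ ≤ (N 0 c).toReal := by
  have hs := Fourier.summable_norm_of_N h
  have e : (N 0 c).toReal = ∑' n, ‖c n‖ := by
    rw [Fourier.N_zero_eq, ENNReal.tsum_toReal_eq fun n => by simp]
    simp
  rw [e, evS, ev_eq]
  refine (norm_tsum_le_tsum_norm (hs.congr fun n => (norm_term e1 e2 c n y).symm)).trans_eq ?_
  exact tsum_congr fun n => norm_term e1 e2 c n y

theorem evS_conv {c d : Cf} (hc0 : N 0 c ≠ ⊤) (hd0 : N 0 d ≠ ⊤) (y : P2) :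
    evS (conv c d) y = evS c y * evS d y := by
  set e : Z2 → ℂ := fun n => Complex.exp (freq e1 e2 n y) with he
  have hna : Summable fun n => ‖c n * e n‖ :=
    (Fourier.summable_norm_of_N hc0).congr fun n => (norm_term e1 e2 c n y).symm
  have hnb : Summable fun n => ‖d n * e n‖ :=
    (Fourier.summable_norm_of_N hd0).congr fun n => (norm_term e1 e2 d n y).symm
  have hmul : HasSum (fun p : Z2 × Z2 => (c p.1 * e p.1) * (d p.2 * e p.2))
      (evS c y * evS d y) := by
    rw [evS, ev_eq, evS, ev_eq]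
    have a := (summable_term (v1 := e1) (v2 := e2) hc0 y).hasSum
    have b := (summable_term (v1 := e1) (v2 := e2) hd0 y).hasSum
    have s : Summable fun p : Z2 × Z2 => (c p.1 * e p.1) * (d p.2 * e p.2) :=
      summable_mul_of_summable_norm (f := fun n => c n * e n) (g := fun n => d n * e n) hna hnb
    exact HasSum.mul (f := fun n => c n * e n) (g := fun n => d n * e n) a b s
  let σ : Z2 × Z2 ≃ Z2 × Z2 :=
    { toFun := fun p => (p.2, p.1 - p.2)
      invFun := fun p => (p.1 + p.2, p.1)
      left_inv := fun p => by simp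
      right_inv := fun p => by simp }
  have hadd : ∀ m n : Z2, e m * e (n - m) = e n := by
    intro m n
    rw [he]
    simp only [← Complex.exp_add, freq_apply]
    congr 1
    conv_rhs => rw [show n = m + (n - m) by abel, m1_add, m2_add]
    ring
  have hsh : HasSum (fun p : Z2 × Z2 => c p.2 * d (p.1 - p.2) * e p.1) (evS c y * evS d y) := by
    refine ((σ.hasSum_iff (f := fun p : Z2 × Z2 => (c p.1 * e p.1) * (d p.2 * e p.2))).2
      hmul).congr_fun fun p => ?_
    simp only [Function.comp_apply, σ, Equiv.coe_fn_mk]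
    rw [← hadd p.2 p.1]
    ring
  have hout := hsh.prod_fiberwise fun n => (hsh.summable.prod_factor n).hasSum
  rw [evS, ev_eq, ← hout.tsum_eq]
  refine tsum_congr fun n => ?_
  rw [conv, ← tsum_mul_right]

/-- The uniform measure on one period. -/
noncomputable def square : Measure P2 :=
  ((volume : Measure ℝ).restrict (Set.Ioc 0 1)).prod (volume.restrict (Set.Ioc 0 1))

noncomputable instance : IsFiniteMeasure square := by unfold square; infer_instance

lemma square_real_univ : square.real Set.univ = 1 := by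
  simp [square, Measure.real, ← Set.univ_prod_univ]

lemma integral_exp_int (a : ℤ) :
    ∫ x in Set.Ioc (0 : ℝ) 1, Complex.exp ((x : ℂ) * (2 * Real.pi * (a : ℂ) * Complex.I))
      = if a = 0 then 1 else 0 := by
  split_ifs with h
  · simp [h]
  · have hc : (2 * Real.pi * (a : ℂ) * Complex.I) ≠ 0 := by
      simp [h, Real.pi_ne_zero]
    rw [← intervalIntegral.integral_of_le zero_le_one]
    simp only [mul_comm _ (2 * (Real.pi : ℂ) * (a : ℂ) * Complex.I)]
    rw [integral_exp_mul_complex hc]
    rw [show (2 * Real.pi * (a : ℂ) * Complex.I) * ((1 : ℝ) : ℂ)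
      = (a : ℂ) * (2 * Real.pi * Complex.I) by push_cast; ring, Complex.exp_int_mul_two_pi_mul_I]
    simp

/-- The mean of a series is its zero coefficient. -/
lemma integral_evS {c : Cf} (h : N 0 c ≠ ⊤) : ∫ y, evS c y ∂square = c 0 := by
  have hs := Fourier.summable_norm_of_N h
  have hi : ∀ n, Integrable (fun y => c n * Complex.exp (freq e1 e2 n y)) square := fun n =>
    Integrable.of_bound (Continuous.aestronglyMeasurable (by fun_prop)) ‖c n‖
      (Filter.Eventually.of_forall fun y => (norm_term e1 e2 c n y).le)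
  have hint : Summable fun n => ∫ y, ‖c n * Complex.exp (freq e1 e2 n y)‖ ∂square := by
    refine hs.congr fun n => ?_
    simp only [norm_term, integral_const, square_real_univ, smul_eq_mul, one_mul]
  simp only [evS, ev_eq]
  rw [← integral_tsum_of_summable_integral_norm hi hint, tsum_eq_single 0]
  · simp [freq_apply, m1_std, m2_std, square_real_univ]
  · intro n hn
    rw [integral_const_mul]
    have e : (fun y : P2 => Complex.exp (freq e1 e2 n y)) = fun y =>
        Complex.exp ((y.1 : ℂ) * (2 * Real.pi * (n.1 : ℂ) * Complex.I))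
          * Complex.exp ((y.2 : ℂ) * (2 * Real.pi * (n.2 : ℂ) * Complex.I)) := by
      funext y
      rw [freq_apply, m1_std, m2_std, Complex.exp_add]
    rw [e, square, integral_prod_mul
      (f := fun x : ℝ => Complex.exp ((x : ℂ) * (2 * Real.pi * (n.1 : ℂ) * Complex.I)))
      (g := fun x : ℝ => Complex.exp ((x : ℂ) * (2 * Real.pi * (n.2 : ℂ) * Complex.I))),
      integral_exp_int, integral_exp_int]
    by_cases h1 : n.1 = 0
    · have h2 : n.2 ≠ 0 := fun h2 => hn (Prod.ext h1 h2)
      simp [h2]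
    · simp [h1]

/-- The family of the conjugate function. -/
noncomputable def cc (c : Cf) : Cf := fun n => conj (c (-n))

lemma N0_cc (c : Cf) : N 0 (cc c) = N 0 c := by
  simp only [Fourier.N_zero_eq, cc, ← ofReal_norm, RCLike.norm_conj]
  exact (Equiv.neg Z2).tsum_eq fun n => ENNReal.ofReal ‖c n‖

lemma evS_cc (c : Cf) (y : P2) : evS (cc c) y = conj (evS c y) := by
  simp only [evS, ev_eq, Complex.conj_tsum]
  rw [← (Equiv.neg Z2).tsum_eq]
  refine tsum_congr fun n => ?_
  simp only [cc, Equiv.neg_apply, neg_neg, map_mul, ← Complex.exp_conj]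
  congr 2
  simp [freq_apply, m1_std, m2_std, Complex.conj_ofReal, map_ofNat]

lemma summable_sq {c : Cf} (h : N 0 c ≠ ⊤) : Summable fun n => ‖c n‖ ^ 2 := by
  refine ((Fourier.summable_norm_of_N h).mul_left (N 0 c).toReal).of_nonneg_of_le
    (fun n => sq_nonneg _) fun n => ?_
  rw [sq]
  refine mul_le_mul_of_nonneg_right ?_ (norm_nonneg _)
  rw [← toReal_enorm]
  exact ENNReal.toReal_mono h (enorm_le_N 0 c n)

/-- Parseval. -/
lemma parseval {c : Cf} (h : N 0 c ≠ ⊤) :
    ∫ y, ‖evS c y‖ ^ 2 ∂square = ∑' n, ‖c n‖ ^ 2 := by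
  have h' : N 0 (cc c) ≠ ⊤ := by rwa [N0_cc]
  have hcv : N 0 (conv (cc c) c) ≠ ⊤ :=
    ne_top_of_le_ne_top (ENNReal.mul_ne_top h' h) (N0_conv_le _ _)
  apply Complex.ofReal_injective
  rw [← integral_complex_ofReal, Complex.ofReal_tsum]
  calc ∫ y, ((‖evS c y‖ ^ 2 : ℝ) : ℂ) ∂square = ∫ y, evS (conv (cc c) c) y ∂square := by
        refine integral_congr_ae (Filter.Eventually.of_forall fun y => ?_)
        simp only [evS_conv h' h, evS_cc, Complex.conj_mul', Complex.ofReal_pow]
    _ = conv (cc c) c 0 := integral_evS hcv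
    _ = _ := by
        rw [conv, ← (Equiv.neg Z2).tsum_eq]
        exact tsum_congr fun n => by simp [cc, Complex.conj_mul']

lemma L2_eq {c : Cf} (h : N 0 c ≠ ⊤) : L2 c = ENNReal.ofReal (∑' n, ‖c n‖ ^ 2) := by
  rw [ENNReal.ofReal_tsum_of_nonneg (fun n => sq_nonneg _) (summable_sq h), L2]
  simp only [← ofReal_norm, ← ENNReal.ofReal_pow (norm_nonneg _)]

/-- A multiplication by a function bounded by `M` has operator bound `M ^ 2`. -/
lemma opBound_of_le {μ : Cf} (hμ : Rapid μ) {M : ℝ} (hM : ∀ y, ‖evS μ y‖ ≤ M) :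
    OpBound μ (ENNReal.ofReal (M ^ 2)) := by
  intro u hu
  have hp : N 0 (conv μ u) ≠ ⊤ := (rapid_conv hμ hu) 0
  rw [L2_eq hp, L2_eq (hu 0), ← ENNReal.ofReal_mul (sq_nonneg _)]
  refine ENNReal.ofReal_le_ofReal ?_
  rw [← parseval hp, ← parseval (hu 0), ← integral_const_mul]
  have hi : ∀ {c : Cf}, N 0 c ≠ ⊤ → Integrable (fun y => ‖evS c y‖ ^ 2) square := fun {c} hc =>
    Integrable.of_bound ((continuous_ev hc).norm.pow 2).aestronglyMeasurable ((N 0 c).toReal ^ 2)
      (Filter.Eventually.of_forall fun y => by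
        rw [norm_pow, norm_norm]; exact pow_le_pow_left₀ (norm_nonneg _) (norm_evS_le hc y) 2)
  refine integral_mono (hi hp) ((hi (hu 0)).const_mul _) fun y => ?_
  dsimp only
  rw [evS_conv (hμ 0) (hu 0), norm_mul, mul_pow]
  exact mul_le_mul_of_nonneg_right (pow_le_pow_left₀ (norm_nonneg _) (hM y) 2) (sq_nonneg _)

lemma exists_opBound (μ : Cf) (hμ : Rapid μ) : ∃ θ, θ ≠ ⊤ ∧ OpBound μ θ :=
  ⟨_, ENNReal.ofReal_ne_top, opBound_of_le hμ (norm_evS_le (hμ 0))⟩

end Vale.Agent.P205.Beltrami
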