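import Vale.Agent.P205.Prim

/-
P205: the developing map of a flat metric `q ^ 2 I - dz ^ 2` on the torus.
-/

namespace Vale.Agent.P205

open Vale.Agent.P229 (P2 dp dy smooth_dp smooth_dy dy_dp_eq)
open MeasureTheory Set
open scoped ContDiff

/-- The hypotheses on one metric. -/
structure Flat (v1 v2 : P2) (q z : P2 → ℝ) : Prop where
  sq : ContDiff ℝ ∞ q
  sz : ContDiff ℝ ∞ z
  pq : Periodic2 v1 v2 q
  pz : Periodic2 v1 v2 z
  pos : ∀ y, 0 < q y
  slope : ∀ y, dp z y ^ 2 + dy z y ^ 2 < q y ^ 2
  closed : ∀ y, dp (fun u => omega q z u (0, 1)) y = dy (fun u => omega q z u (1, 0)) y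

variable {v1 v2 : P2} {q z : P2 → ℝ}

lemma per_fderiv {V : Type*} [NormedAddCommGroup V] [NormedSpace ℝ V] {f : P2 → V} {v : P2}
    (h : ∀ y, f (y + v) = f y) (y : P2) : fderiv ℝ f (y + v) = fderiv ℝ f y := by
  rw [← fderiv_comp_add_right v]
  exact congrArg (fun g => fderiv ℝ g y) (funext h)

/-- Coordinates in the basis of periods. -/
lemma decompose (hv : det2 v1 v2 ≠ 0) (y : P2) :
    y = (det2 y v2 / det2 v1 v2) • v1 + (det2 v1 y / det2 v1 v2) • v2 := by
  have hy1 : det2 y v2 * v1.1 + det2 v1 y * v2.1 = det2 v1 v2 * y.1 := by simp only [det2]; ring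
  have hy2 : det2 y v2 * v1.2 + det2 v1 y * v2.2 = det2 v1 v2 * y.2 := by simp only [det2]; ring
  ext
  · simp only [Prod.fst_add, Prod.smul_fst, smul_eq_mul]; field_simp; linarith
  · simp only [Prod.snd_add, Prod.smul_snd, smul_eq_mul]; field_simp; linarith

/-- A continuous periodic function attains a maximum. -/
lemma exists_max_periodic2 (hv : det2 v1 v2 ≠ 0) (r : P2 → ℝ) (hr : Continuous r)
    (h1 : ∀ u, r (u + v1) = r u) (h2 : ∀ u, r (u + v2) = r u) : ∃ u0, ∀ u, r u ≤ r u0 := by
  have hc : IsCompact ((fun p : ℝ × ℝ => p.1 • v1 + p.2 • v2) ''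
      (Icc (0 : ℝ) 1 ×ˢ Icc (0 : ℝ) 1)) :=
    (isCompact_Icc.prod isCompact_Icc).image (by fun_prop)
  obtain ⟨u0, -, hu0⟩ := hc.exists_isMaxOn
    (Set.Nonempty.image _ ⟨(0, 0), by simp⟩) hr.continuousOn
  refine ⟨u0, fun u => ?_⟩
  set s := det2 u v2 / det2 v1 v2
  set t := det2 v1 u / det2 v1 v2
  have e1 : Function.Periodic r (⌊s⌋ • v1) := Function.Periodic.zsmul h1 _
  have e2 : Function.Periodic r (⌊t⌋ • v2) := Function.Periodic.zsmul h2 _
  have hu : r u = r (Int.fract s • v1 + Int.fract t • v2) := by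
    rw [← (e1.add_period e2) (Int.fract s • v1 + Int.fract t • v2)]
    congr 1
    conv_lhs => rw [decompose hv u]
    simp only [Int.fract, sub_smul, ← Int.cast_smul_eq_zsmul ℝ, s, t]
    abel
  rw [hu]
  exact hu0 (mem_image_of_mem (fun p : ℝ × ℝ => p.1 • v1 + p.2 • v2)
    (show (Int.fract s, Int.fract t) ∈ Icc (0 : ℝ) 1 ×ˢ Icc (0 : ℝ) 1 from
      ⟨⟨Int.fract_nonneg _, (Int.fract_lt_one _).le⟩,
        ⟨Int.fract_nonneg _, (Int.fract_lt_one _).le⟩⟩))

lemma pv_per {v : P2} (hq : ∀ y, q (y + v) = q y) (hz : ∀ y, z (y + v) = z y) (y : P2) :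
    pv q z (y + v) = pv q z y := by
  simp only [pv, dp, dy, per_fderiv hz, hq]

lemma omega_per {v : P2} (hq : ∀ y, q (y + v) = q y) (hz : ∀ y, z (y + v) = z y) (y u : P2) :
    omega q z (y + v) u = omega q z y u := by
  have h := pv_per hq hz
  have h1 := per_fderiv (f := fun w => (pv q z w).1) (v := v) (fun w => by rw [h]) y
  have h2 := per_fderiv (f := fun w => (pv q z w).2) (v := v) (fun w => by rw [h]) y
  simp only [omega, cs, dp, dy, per_fderiv hq, hq, h, h1, h2]

lemma theta_per {v : P2} (hq : ∀ y, q (y + v) = q y) (hz : ∀ y, z (y + v) = z y) (y u : P2) :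
    theta q z (y + v) u = theta q z y u := by
  simp only [theta, cs, hq, pv_per hq hz]

lemma rad_pos (h : Flat v1 v2 q z) (y : P2) :
    0 < 1 - ((pv q z y).1 ^ 2 + (pv q z y).2 ^ 2) := by
  have hq := h.pos y
  have e : (pv q z y).1 ^ 2 + (pv q z y).2 ^ 2 = (dp z y ^ 2 + dy z y ^ 2) / q y ^ 2 := by
    simp only [pv]; ring
  rw [e, sub_pos, div_lt_one (by positivity)]
  exact h.slope y

lemma cs_pos (h : Flat v1 v2 q z) (y : P2) : 0 < cs q z y := Real.sqrt_pos.2 (rad_pos h y)

lemma cs_sq (h : Flat v1 v2 q z) (y : P2) :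
    cs q z y ^ 2 = 1 - ((pv q z y).1 ^ 2 + (pv q z y).2 ^ 2) := Real.sq_sqrt (rad_pos h y).le

lemma smooth_p1 (h : Flat v1 v2 q z) : ContDiff ℝ ∞ fun y => (pv q z y).1 :=
  (smooth_dp h.sz).div h.sq fun y => (h.pos y).ne'

lemma smooth_p2 (h : Flat v1 v2 q z) : ContDiff ℝ ∞ fun y => (pv q z y).2 :=
  (smooth_dy h.sz).div h.sq fun y => (h.pos y).ne'

lemma smooth_cs (h : Flat v1 v2 q z) : ContDiff ℝ ∞ (cs q z) :=
  (contDiff_const.sub (((smooth_p1 h).pow 2).add ((smooth_p2 h).pow 2))).sqrt
    fun y => (rad_pos h y).ne'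

lemma smooth_omega (h : Flat v1 v2 q z) (v : P2) : ContDiff ℝ ∞ fun y => omega q z y v := by
  have hd : ∀ {f : P2 → ℝ}, ContDiff ℝ ∞ f → ContDiff ℝ ∞ fun y => fderiv ℝ f y v := fun hf =>
    (hf.fderiv_right (by simp)).clm_apply contDiff_const
  exact (((((smooth_dy h.sq).neg).mul contDiff_const).add
      ((smooth_dp h.sq).mul contDiff_const)).div h.sq (fun y => (h.pos y).ne')).add
    ((((smooth_p1 h).mul (hd (smooth_p2 h))).sub ((smooth_p2 h).mul (hd (smooth_p1 h)))).div
      (contDiff_const.add (smooth_cs h)) fun y => by have := cs_pos h y; positivity) |>.div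
    (smooth_cs h) fun y => (cs_pos h y).ne'

lemma smooth_theta (h : Flat v1 v2 q z) (v : P2) : ContDiff ℝ ∞ fun y => theta q z y v := by
  have hk : ContDiff ℝ ∞ fun y => 1 / (1 + cs q z y) :=
    contDiff_const.div (contDiff_const.add (smooth_cs h)) fun y => by
      have := cs_pos h y; positivity
  have hp1 := smooth_p1 h
  have hp2 := smooth_p2 h
  have hs := (hp1.mul (contDiff_const (c := v.1))).add (hp2.mul (contDiff_const (c := v.2)))
  exact (h.sq.mul (contDiff_const.sub ((hk.mul hp1).mul hs))).prodMk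
    (h.sq.mul (contDiff_const.sub ((hk.mul hp2).mul hs)))

/-- The frame turns `q ^ 2 I - dz ^ 2` into the standard product. -/
lemma theta_metric (h : Flat v1 v2 q z) (y v w : P2) :
    (theta q z y v).1 * (theta q z y w).1 + (theta q z y v).2 * (theta q z y w).2
      = q y ^ 2 * (v.1 * w.1 + v.2 * w.2) - fderiv ℝ z y v * fderiv ℝ z y w := by
  have e : ∀ u : P2, fderiv ℝ z y u
      = q y * ((pv q z y).1 * u.1 + (pv q z y).2 * u.2) := by
    intro u
    have hu : u = u.1 • ((1 : ℝ), (0 : ℝ)) + u.2 • ((0 : ℝ), (1 : ℝ)) := by ext <;> simp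
    have hq := (h.pos y).ne'
    conv_lhs => rw [hu]
    simp only [map_add, map_smul, pv, dp, dy, smul_eq_mul]
    field_simp
  rw [e, e]
  simp only [theta]
  have hc := cs_sq h y
  have hc0 : 1 + cs q z y ≠ 0 := by have := cs_pos h y; positivity
  generalize cs q z y = c at hc hc0 ⊢
  generalize (pv q z y).1 = a at hc ⊢
  generalize (pv q z y).2 = b at hc ⊢
  field_simp
  grobner

lemma frame_alg {q q1 q2 a b a1 a2 b1 b2 C C1 C2 : ℝ} (hq : q ≠ 0) (hC : C ≠ 0) (hk : 1 + C ≠ 0)
    (hC2 : C ^ 2 = 1 - (a ^ 2 + b ^ 2))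
    (h1 : C * C1 = -(a * a1 + b * b1)) (h2 : C * C2 = -(a * a2 + b * b2))
    (hcl : q1 * b + q * b1 = q2 * a + q * a2) :
    (-(q1 * (1 / (1 + C)) * a * b + q * (-C1 / (1 + C) ^ 2) * a * b + q * (1 / (1 + C)) * a1 * b
        + q * (1 / (1 + C)) * a * b1))
      - (q2 * (1 - 1 / (1 + C) * a * a) - q * (-C2 / (1 + C) ^ 2 * a * a + 2 * (1 / (1 + C)) * a * a2))
      = (-q2 / q + (a * b1 - b * a1) / (1 + C)) / C * (q * (1 - 1 / (1 + C) * b * b))
        - (q1 / q + (a * b2 - b * a2) / (1 + C)) / C * (-(q * (1 / (1 + C)) * a * b)) ∧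
    (q1 * (1 - 1 / (1 + C) * b * b) - q * (-C1 / (1 + C) ^ 2 * b * b + 2 * (1 / (1 + C)) * b * b1))
      - (-(q2 * (1 / (1 + C)) * a * b + q * (-C2 / (1 + C) ^ 2) * a * b + q * (1 / (1 + C)) * a2 * b
        + q * (1 / (1 + C)) * a * b2))
      = (q1 / q + (a * b2 - b * a2) / (1 + C)) / C * (q * (1 - 1 / (1 + C) * a * a))
        - (-q2 / q + (a * b1 - b * a1) / (1 + C)) / C * (-(q * (1 / (1 + C)) * a * b)) := by
  have e1 : C1 = -(a * a1 + b * b1) / C := by field_simp; linarith
  have e2 : C2 = -(a * a2 + b * b2) / C := by field_simp; linarith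
  have e3 : b1 = (q2 * a + q * a2 - q1 * b) / q := by field_simp; linarith
  constructor <;>
  · simp only [e1, e2, e3]
    field_simp
    grobner

/-- The structure equations of the frame. -/
lemma frame_eq (h : Flat v1 v2 q z) (y : P2) :
    dp (fun u => (theta q z u (0, 1)).1) y - dy (fun u => (theta q z u (1, 0)).1) y
        = omega q z y (1, 0) * (theta q z y (0, 1)).2
          - omega q z y (0, 1) * (theta q z y (1, 0)).2 ∧
    dp (fun u => (theta q z u (0, 1)).2) y - dy (fun u => (theta q z u (1, 0)).2) y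
        = omega q z y (0, 1) * (theta q z y (1, 0)).1
          - omega q z y (1, 0) * (theta q z y (0, 1)).1 := by
  have hq := (h.pos y).ne'
  have hC := (cs_pos h y).ne'
  have hk : 1 + cs q z y ≠ 0 := by have := cs_pos h y; positivity
  have Dq := ((h.sq.differentiable (by simp)) y).hasFDerivAt
  have Da := (((smooth_p1 h).differentiable (by simp)) y).hasFDerivAt
  have Db := (((smooth_p2 h).differentiable (by simp)) y).hasFDerivAt
  have DC := (((smooth_cs h).differentiable (by simp)) y).hasFDerivAt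
  set q' := fderiv ℝ q y with hq'
  set a' := fderiv ℝ (fun u => (pv q z u).1) y with ha'
  set b' := fderiv ℝ (fun u => (pv q z u).2) y with hb'
  set C' := fderiv ℝ (cs q z) y with hC'
  have hsq : ∀ e : P2, cs q z y * C' e = -((pv q z y).1 * a' e + (pv q z y).2 * b' e) := by
    intro e
    have l := (DC.mul DC).fderiv
    have r := (((Da.mul Da).add (Db.mul Db)).const_sub 1).fderiv
    have eqf : (fun u => cs q z u * cs q z u)
        = fun u => 1 - ((pv q z u).1 * (pv q z u).1 + (pv q z u).2 * (pv q z u).2) := by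
      funext u; linear_combination cs_sq h u
    have := congrArg (fun L : P2 →L[ℝ] ℝ => L e)
      (l.symm.trans ((congrArg (fun g => fderiv ℝ g y) eqf).trans r))
    simp only [ContinuousLinearMap.neg_apply, add_apply, ContinuousLinearMap.smul_apply,
      smul_eq_mul] at this
    linarith
  have hcl : q' (1, 0) * (pv q z y).2 + q y * b' (1, 0)
      = q' (0, 1) * (pv q z y).1 + q y * a' (0, 1) := by
    have ea : (fun u => q u * (pv q z u).1) = dp z := by
      funext u; have := (h.pos u).ne'; simp only [pv]; field_simp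
    have eb : (fun u => q u * (pv q z u).2) = dy z := by
      funext u; have := (h.pos u).ne'; simp only [pv]; field_simp
    have la : HasFDerivAt (fun u => q u * (pv q z u).1) _ y := Dq.mul Da
    have lb : HasFDerivAt (fun u => q u * (pv q z u).2) _ y := Dq.mul Db
    rw [ea] at la
    rw [eb] at lb
    have l : fderiv ℝ (dp z) y (0, 1) = _ := congrArg (fun L : P2 →L[ℝ] ℝ => L (0, 1)) la.fderiv
    have r : fderiv ℝ (dy z) y (1, 0) = _ := congrArg (fun L : P2 →L[ℝ] ℝ => L (1, 0)) lb.fderiv
    simp only [add_apply, ContinuousLinearMap.smul_apply, smul_eq_mul] at l r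
    have := dy_dp_eq (h.sz.of_le (by norm_cast)) y
    simp only [dy, dp] at this
    linarith
  have Dk : HasFDerivAt (fun u => 1 / (1 + cs q z u))
      ((-(1 / (1 + cs q z y) ^ 2)) • C') y := by
    simp only [one_div]
    exact (hasDerivAt_inv hk).comp_hasFDerivAt y (DC.const_add 1)
  have D11 := Dq.mul (((Dk.mul Da).mul Da).const_sub 1)
  have D22 := Dq.mul (((Dk.mul Db).mul Db).const_sub 1)
  have D12 := (((Dq.mul Dk).mul Da).mul Db).neg
  have f11 : (fun u => (theta q z u (1, 0)).1)
      = fun u => q u * (1 - 1 / (1 + cs q z u) * (pv q z u).1 * (pv q z u).1) := by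
    funext u; simp [theta]
  have f12 : (fun u => (theta q z u (0, 1)).1)
      = fun u => -(q u * (1 / (1 + cs q z u)) * (pv q z u).1 * (pv q z u).2) := by
    funext u; simp [theta]; ring
  have f21 : (fun u => (theta q z u (1, 0)).2)
      = fun u => -(q u * (1 / (1 + cs q z u)) * (pv q z u).1 * (pv q z u).2) := by
    funext u; simp [theta]; ring
  have f22 : (fun u => (theta q z u (0, 1)).2)
      = fun u => q u * (1 - 1 / (1 + cs q z u) * (pv q z u).2 * (pv q z u).2) := by
    funext u; simp [theta]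
  have g11 := congrFun f11 y
  have g12 := congrFun f12 y
  have g21 := congrFun f21 y
  have g22 := congrFun f22 y
  have o1 : omega q z y (1, 0) = (-(q' (0, 1)) / q y + ((pv q z y).1 * b' (1, 0)
      - (pv q z y).2 * a' (1, 0)) / (1 + cs q z y)) / cs q z y := by
    simp [omega, dp, dy, hq', ha', hb']
  have o2 : omega q z y (0, 1) = (q' (1, 0) / q y + ((pv q z y).1 * b' (0, 1)
      - (pv q z y).2 * a' (0, 1)) / (1 + cs q z y)) / cs q z y := by
    simp [omega, dp, dy, hq', ha', hb']
  obtain ⟨A1, A2⟩ := frame_alg hq hC hk (cs_sq h y) (hsq (1, 0)) (hsq (0, 1)) hcl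
  have E11 : fderiv ℝ (fun u => q u * (1 - 1 / (1 + cs q z u) * (pv q z u).1 * (pv q z u).1)) y = _ :=
    D11.fderiv
  have E22 : fderiv ℝ (fun u => q u * (1 - 1 / (1 + cs q z u) * (pv q z u).2 * (pv q z u).2)) y = _ :=
    D22.fderiv
  have E12 : fderiv ℝ
      (fun u => -(q u * (1 / (1 + cs q z u)) * (pv q z u).1 * (pv q z u).2)) y = _ := D12.fderiv
  simp only [dp, dy, f11, f12, f21, f22, g11, g12, g21, g22, o1, o2, E11, E22,
    E12, add_apply, ContinuousLinearMap.neg_apply, ContinuousLinearMap.smul_apply,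
    smul_eq_mul, Pi.mul_apply, Pi.add_apply, Pi.neg_apply, Pi.sub_apply]
  constructor
  · refine Eq.trans ?_ (A1.trans ?_) <;> ring
  · refine Eq.trans ?_ (A2.trans ?_) <;> ring

/-- The rotation angle of the developing map. -/
noncomputable def angle (q z : P2 → ℝ) : P2 → ℝ :=
  prim (fun u => omega q z u (1, 0)) (fun u => omega q z u (0, 1))

/-- The rotated frame, as a complex number. -/
noncomputable def frameC (q z : P2 → ℝ) (v y : P2) : ℂ :=
  Complex.exp (angle q z y * Complex.I)
    * ((theta q z y v).1 + (theta q z y v).2 * Complex.I)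

/-- The developing map in complex notation. -/
noncomputable def devC (q z : P2 → ℝ) : P2 → ℂ :=
  prim (frameC q z (1, 0)) (frameC q z (0, 1))

lemma angle_spec (h : Flat v1 v2 q z) (y : P2) : HasFDerivAt (angle q z)
    (form (fun u => omega q z u (1, 0)) (fun u => omega q z u (0, 1)) y) y :=
  hasFDerivAt_prim (smooth_omega h _) (smooth_omega h _) h.closed y

lemma smooth_frameC (h : Flat v1 v2 q z) (v : P2) : ContDiff ℝ ∞ (frameC q z v) := by
  have ha : ContDiff ℝ ∞ (angle q z) :=
    smooth_prim (smooth_omega h _) (smooth_omega h _) h.closed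
  have ho : ∀ {f : P2 → ℝ}, ContDiff ℝ ∞ f → ContDiff ℝ ∞ fun y => (f y : ℂ) := fun hf =>
    Complex.ofRealCLM.contDiff.comp hf
  exact (((ho ha).mul contDiff_const).cexp).mul
    ((ho (contDiff_fst.comp (smooth_theta h v))).add
      ((ho (contDiff_snd.comp (smooth_theta h v))).mul contDiff_const))

lemma frameC_closed (h : Flat v1 v2 q z) (y : P2) :
    fderiv ℝ (frameC q z (0, 1)) y (1, 0) = fderiv ℝ (frameC q z (1, 0)) y (0, 1) := by
  have key : ∀ v e : P2, fderiv ℝ (frameC q z v) y e = Complex.exp (angle q z y * Complex.I)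
      * (((fderiv ℝ (fun u => (theta q z u v).1) y e : ℝ) : ℂ)
        + ((fderiv ℝ (fun u => (theta q z u v).2) y e : ℝ) : ℂ) * Complex.I
        + ((form (fun u => omega q z u (1, 0)) (fun u => omega q z u (0, 1)) y e : ℝ) : ℂ)
          * Complex.I * ((theta q z y v).1 + (theta q z y v).2 * Complex.I)) := by
    intro v e
    have hl := angle_spec h y
    have h1 := (((contDiff_fst.comp (smooth_theta h v)).differentiable (by simp)) y).hasFDerivAt
    have h2 := (((contDiff_snd.comp (smooth_theta h v)).differentiable (by simp)) y).hasFDerivAt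
    have c0 := (Complex.ofRealCLM.hasFDerivAt.comp y hl).mul_const Complex.I
    have c1 := Complex.ofRealCLM.hasFDerivAt.comp y h1
    have c2 := (Complex.ofRealCLM.hasFDerivAt.comp y h2).mul_const Complex.I
    have := c0.cexp.mul (c1.add c2)
    have heq : HasFDerivAt (frameC q z v) _ y := this
    rw [heq.fderiv]
    simp [form, Function.comp_def]
    ring
  obtain ⟨e1, e2⟩ := frame_eq h y
  have e1' := congrArg (fun r : ℝ => (r : ℂ)) e1
  have e2' := congrArg (fun r : ℝ => (r : ℂ)) e2
  simp only [dp, dy] at e1' e2'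
  push_cast at e1' e2'
  rw [key, key]
  congr 1
  simp only [form_apply, smul_eq_mul, one_mul, zero_mul, add_zero, zero_add]
  linear_combination e1' + Complex.I * e2'
    + ((omega q z y (1, 0) : ℂ) * ((theta q z y (0, 1)).2 : ℂ)
      - (omega q z y (0, 1) : ℂ) * ((theta q z y (1, 0)).2 : ℂ)) * Complex.I_mul_I

lemma devC_spec (h : Flat v1 v2 q z) (y : P2) : HasFDerivAt (devC q z)
    (form (frameC q z (1, 0)) (frameC q z (0, 1)) y) y :=
  hasFDerivAt_prim (smooth_frameC h _) (smooth_frameC h _) (frameC_closed h) y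

lemma devC_form (q z : P2 → ℝ) (y v : P2) :
    form (frameC q z (1, 0)) (frameC q z (0, 1)) y v = frameC q z v y := by
  simp only [form_apply, frameC, theta]
  apply Complex.ext <;> simp <;> ring

/-- The developing map has translations as periods. -/
lemma devC_per (hv2 : det2 v1 v2 ≠ 0) (h : Flat v1 v2 q z) (v : P2) (hv : v = v1 ∨ v = v2) (y : P2) :
    devC q z (y + v) = devC q z y + devC q z v := by
  have hq : ∀ u, ∀ w, (w = v1 ∨ w = v2) → q (u + w) = q u := fun u w hw => by
    rcases hw with rfl | rfl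
    · exact (h.pq u).1
    · exact (h.pq u).2
  have hz : ∀ u, ∀ w, (w = v1 ∨ w = v2) → z (u + w) = z u := fun u w hw => by
    rcases hw with rfl | rfl
    · exact (h.pz u).1
    · exact (h.pz u).2
  -- Periodic derivatives give additive constants.
  have hang : ∀ w, (w = v1 ∨ w = v2) → ∀ u, angle q z (u + w) = angle q z u + angle q z w := by
    intro w hw
    have hs := smooth_prim (smooth_omega h (1, 0)) (smooth_omega h (0, 1)) h.closed
    have hd := hs.differentiable (by simp)
    have hd' : Differentiable ℝ fun u => angle q z (u + w) := hd.comp (differentiable_id.add_const w)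
    have := is_const_of_fderiv_eq_zero (hd'.sub hd) fun u => by
      rw [fderiv_sub (hd' u) (hd u), fderiv_comp_add_right]
      rw [show fderiv ℝ (angle q z) (u + w) = _ from (angle_spec h _).fderiv,
        show fderiv ℝ (prim _ _) u = _ from (angle_spec h u).fderiv]
      refine sub_eq_zero.2 (ContinuousLinearMap.ext fun e => ?_)
      simp [omega_per (fun u => hq u w hw) (fun u => hz u w hw)]
    intro u
    have e := this u 0
    simp only [Pi.sub_apply, zero_add, angle, prim_zero] at e ⊢
    linarith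
  set R : P2 → ℂ := fun w => Complex.exp (angle q z w * Complex.I) with hR
  have hdev : ∀ w, (w = v1 ∨ w = v2) → ∀ u,
      devC q z (u + w) = R w * devC q z u + devC q z w := by
    intro w hw
    have hs := smooth_prim (smooth_frameC h (1, 0)) (smooth_frameC h (0, 1)) (frameC_closed h)
    have hd := hs.differentiable (by simp)
    have hd' : Differentiable ℝ fun u => devC q z (u + w) := hd.comp (differentiable_id.add_const w)
    have := is_const_of_fderiv_eq_zero (hd'.sub (hd.const_mul (R w))) fun u => by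
      rw [fderiv_sub (hd' u) ((hd u).const_mul _), fderiv_comp_add_right,
        show fderiv ℝ (devC q z) (u + w) = _ from (devC_spec h _).fderiv, fderiv_const_mul (hd u),
        show fderiv ℝ (prim _ _) u = _ from (devC_spec h u).fderiv]
      refine sub_eq_zero.2 (ContinuousLinearMap.ext fun e => ?_)
      rw [ContinuousLinearMap.smul_apply, smul_eq_mul, devC_form, devC_form]
      simp only [frameC, hR, theta_per (fun u => hq u w hw) (fun u => hz u w hw), hang w hw]
      push_cast
      rw [add_mul, Complex.exp_add]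
      ring
    intro u
    have e := this u 0
    simp only [Pi.sub_apply, zero_add, devC, prim_zero, mul_zero, sub_zero] at e ⊢
    linear_combination e
  suffices hone : R v = 1 by rw [hdev v hv, hone, one_mul]
  by_contra hne
  set z0 := devC q z v / (1 - R v) with hz0
  have h1 : (1 - R v) ≠ 0 := sub_ne_zero.2 (Ne.symm hne)
  have fixv : R v * z0 + devC q z v = z0 := by rw [hz0]; field_simp; ring
  have fixw : ∀ w, (w = v1 ∨ w = v2) → R w * z0 + devC q z w = z0 := by
    intro w hw
    have c := hdev w hw v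
    have c' := hdev v hv w
    rw [add_comm w v] at c'
    have : (1 - R v) * (R w * z0 + devC q z w - z0) = 0 := by
      linear_combination (1 - R w) * fixv + c.symm.trans c'
    exact sub_eq_zero.1 ((mul_eq_zero.1 this).resolve_left h1)
  set r : P2 → ℝ := fun u => Complex.normSq (devC q z u - z0) with hr
  have hper : ∀ w, (w = v1 ∨ w = v2) → ∀ u, r (u + w) = r u := by
    intro w hw u
    have : devC q z (u + w) - z0 = R w * (devC q z u - z0) := by
      rw [hdev w hw]; linear_combination fixw w hw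
    simp only [hr, this, map_mul]
    rw [Complex.normSq_eq_norm_sq (R w), hR, Complex.norm_exp_ofReal_mul_I]
    ring
  obtain ⟨u0, hu0⟩ := exists_max_periodic2 hv2 r
    (Complex.continuous_normSq.comp
      (((smooth_prim (smooth_frameC h (1, 0)) (smooth_frameC h (0, 1))
        (frameC_closed h)).continuous).sub continuous_const))
    (hper v1 (Or.inl rfl)) (hper v2 (Or.inr rfl))
  have hD := devC_spec h u0
  set w0 := devC q z u0 - z0 with hw0
  have hd : HasFDerivAt r
      (((2 * w0.re) • Complex.reCLM + (2 * w0.im) • Complex.imCLM).comp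
        (form (frameC q z (1, 0)) (frameC q z (0, 1)) u0)) u0 := by
    have hs : HasFDerivAt (fun w : ℂ => Complex.normSq w)
        ((2 * w0.re) • Complex.reCLM + (2 * w0.im) • Complex.imCLM) w0 := by
      have a := (Complex.reCLM.hasFDerivAt (x := w0))
      have b := (Complex.imCLM.hasFDerivAt (x := w0))
      refine ((a.mul a).add (b.mul b)).congr_of_eventuallyEq ?_ |>.congr_fderiv ?_
      · filter_upwards with w using by simp [Complex.normSq_apply]
      · ext <;> simp <;> ring
    exact hs.comp u0 (hD.sub_const z0)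
  have hzero := IsLocalMax.hasFDerivAt_eq_zero (Filter.Eventually.of_forall hu0) hd
  set E := Complex.exp (angle q z u0 * Complex.I) with hE
  set G := form (frameC q z (1, 0)) (frameC q z (0, 1)) u0 with hG
  -- The derivative is onto.
  have honto : Function.Surjective G := by
    have hinj : Function.Injective G := by
      refine (injective_iff_map_eq_zero G).2 fun e he => ?_
      rw [hG, devC_form, frameC] at he
      have hth := (mul_eq_zero.1 he).resolve_left (Complex.exp_ne_zero _)
      have ha : (theta q z u0 e).1 = 0 := by simpa using congrArg Complex.re hth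
      have hb : (theta q z u0 e).2 = 0 := by simpa using congrArg Complex.im hth
      have hm := theta_metric h u0 e e
      rw [ha, hb] at hm
      have hs := h.slope u0
      have hfd : fderiv ℝ z u0 e = dp z u0 * e.1 + dy z u0 * e.2 := by
        conv_lhs => rw [show e = e.1 • ((1 : ℝ), (0 : ℝ)) + e.2 • ((0 : ℝ), (1 : ℝ)) by ext <;> simp]
        simp only [map_add, map_smul, smul_eq_mul, dp, dy]; ring
      rw [hfd] at hm
      have hzero2 : (q u0 ^ 2 - (dp z u0 ^ 2 + dy z u0 ^ 2)) * (e.1 ^ 2 + e.2 ^ 2) ≤ 0 := by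
        nlinarith [sq_nonneg (dp z u0 * e.2 - dy z u0 * e.1)]
      have he0 : e.1 ^ 2 + e.2 ^ 2 = 0 :=
        le_antisymm (nonpos_of_mul_nonpos_right hzero2 (sub_pos.2 hs)) (by positivity)
      have := (add_eq_zero_iff_of_nonneg (sq_nonneg _) (sq_nonneg _)).1 he0
      exact Prod.ext (pow_eq_zero_iff two_ne_zero |>.1 this.1) (pow_eq_zero_iff two_ne_zero |>.1 this.2)
    have hdim : Module.finrank ℝ P2 = Module.finrank ℝ ℂ := by
      simp [Complex.finrank_real_complex]
    exact (LinearMap.injective_iff_surjective_of_finrank_eq_finrank (f := (G : P2 →ₗ[ℝ] ℂ)) hdim).1 hinj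
  obtain ⟨e, he⟩ := honto w0
  have := congrArg (fun L : P2 →L[ℝ] ℝ => L e) hzero
  simp [he] at this
  have hw : Complex.normSq w0 = 0 := by
    rw [Complex.normSq_apply]; linarith
  have hall : ∀ u, devC q z u = z0 := fun u => by
    have h2 : r u ≤ 0 := (hu0 u).trans_eq hw
    exact sub_eq_zero.1 (Complex.normSq_eq_zero.1 (le_antisymm h2 (Complex.normSq_nonneg _)))
  have hG0 : G = 0 := (hD.congr_of_eventuallyEq
    (Filter.Eventually.of_forall fun u => (hall u).symm)).unique (hasFDerivAt_const z0 u0)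
  obtain ⟨e1, he1⟩ := honto 1
  rw [hG0] at he1
  simp at he1

lemma continuousOn_devC {T : Set ℝ} {q z : ℝ → P2 → ℝ}
    (hth : ∀ v, ContinuousOn (fun p : ℝ × P2 => theta (q p.1) (z p.1) p.2 v) (T ×ˢ univ))
    (hom : ∀ v, ContinuousOn (fun p : ℝ × P2 => omega (q p.1) (z p.1) p.2 v) (T ×ˢ univ)) :
    ContinuousOn (fun p : ℝ × P2 => devC (q p.1) (z p.1) p.2) (T ×ˢ univ) := by
  have ha : ContinuousOn (fun p : ℝ × P2 => angle (q p.1) (z p.1) p.2) (T ×ˢ univ) :=
    continuousOn_prim (A := fun t u => omega (q t) (z t) u (1, 0))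
      (B := fun t u => omega (q t) (z t) u (0, 1)) (hom _) (hom _)
  have hF : ∀ v, ContinuousOn (fun p : ℝ × P2 => frameC (q p.1) (z p.1) v p.2) (T ×ˢ univ) :=
    fun v => (((Complex.continuous_ofReal.comp_continuousOn ha).mul continuousOn_const).cexp).mul
      ((Complex.continuous_ofReal.comp_continuousOn (continuous_fst.comp_continuousOn (hth v))).add
        ((Complex.continuous_ofReal.comp_continuousOn
          (continuous_snd.comp_continuousOn (hth v))).mul continuousOn_const))
  exact continuousOn_prim (A := fun t => frameC (q t) (z t) (1, 0))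
    (B := fun t => frameC (q t) (z t) (0, 1)) (hF _) (hF _)

lemma devC_base (y : P2) : devC (fun _ => 1) (fun _ => 0) y = (y.1 : ℂ) + y.2 * Complex.I := by
  have hp : ∀ u, pv (fun _ => (1 : ℝ)) (fun _ => 0) u = (0, 0) := fun u => by simp [pv, dp, dy]
  have ho : ∀ u v, omega (fun _ => (1 : ℝ)) (fun _ => 0) u v = 0 := fun u v => by
    simp [omega, dp, dy, hp]
  have hth : ∀ u v, theta (fun _ => (1 : ℝ)) (fun _ => 0) u v = v := fun u v => by
    simp [theta, hp]
  have hf : ∀ v, frameC (fun _ => (1 : ℝ)) (fun _ => 0) v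
      = fun _ => (v.1 : ℂ) + v.2 * Complex.I := fun v => by
    funext u
    simp [frameC, angle, prim, ho, hth]
  simp [devC, prim, hf, Complex.real_smul]

/-- The developing maps. -/
theorem develop : DevelopSpec := by
  intro v1 v2 hv t0 q z ht0 hq0 hz0 hgood hth hom
  have hflat : ∀ t ∈ Icc 0 t0, Flat v1 v2 (q t) (z t) := fun t ht => by
    obtain ⟨a, b, c, d, e, f, g⟩ := hgood t ht
    exact ⟨a, b, c, d, e, f, g⟩
  set P := Complex.equivRealProdCLM with hP
  have hcont := continuousOn_devC hth hom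
  have hw : ∀ v, ContinuousOn (fun t => P (devC (q t) (z t) v)) (Icc 0 t0) := fun v =>
    P.continuous.comp_continuousOn (hcont.comp (f := fun t => ((t, v) : ℝ × P2))
      (continuous_id.prodMk continuous_const).continuousOn fun t ht => ⟨ht, mem_univ _⟩)
  have hb : ∀ v, P (devC (q 0) (z 0) v) = v := fun v => by
    rw [hq0, hz0, devC_base]
    ext <;> simp [hP]
  refine ⟨fun t y => P (devC (q t) (z t) y), fun t => P (devC (q t) (z t) v1),
    fun t => P (devC (q t) (z t) v2), hw v1, hw v2, hb v1, hb v2, fun t ht => ?_⟩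
  have h := hflat t ht
  refine ⟨P.contDiff.comp (smooth_prim (smooth_frameC h _) (smooth_frameC h _) (frameC_closed h)),
    fun y => ⟨?_, ?_⟩, fun y v w => ?_⟩
  · show P _ = P _ + P _; rw [devC_per hv h v1 (Or.inl rfl), map_add]
  · show P _ = P _ + P _; rw [devC_per hv h v2 (Or.inr rfl), map_add]
  · have hd := (P.hasFDerivAt.comp y (devC_spec h y)).fderiv
    rw [show fderiv ℝ (fun u => P (devC (q t) (z t) u)) y = _ from hd, ← theta_metric h y v w]
    simp only [ContinuousLinearMap.comp_apply, devC_form, frameC]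
    simp only [hP, ContinuousLinearEquiv.coe_coe, Complex.equivRealProdCLM_apply, Complex.mul_re,
      Complex.mul_im, Complex.exp_ofReal_mul_I_re, Complex.exp_ofReal_mul_I_im, Complex.add_re,
      Complex.add_im, Complex.ofReal_re, Complex.ofReal_im, Complex.I_re, Complex.I_im]
    have := Real.sin_sq_add_cos_sq (angle (q t) (z t) y)
    linear_combination ((theta (q t) (z t) y v).1 * (theta (q t) (z t) y w).1
      + (theta (q t) (z t) y v).2 * (theta (q t) (z t) y w).2) * this

end Vale.Agent.P205
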