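import Vale.Agent.P205.Defs

/-
P205: uniformisation of torus metrics, statements.

Beltrami step: f = exp s, s = p + c conj z - conj c z with p periodic, w = dbar p + c.
Then dbar f = d (mu f) becomes w = mu (S w - conj (mean w)) + d mu, where S = d dbar^(-1) on the
mean zero part. On L^2 the real linear map w -> S w - conj (mean w) is an isometry, so this is a
contraction with factor sup |mu|; differentiating gives the same factor at every order.
-/

namespace Vale.Agent.P205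

open Vale.Agent.P229 (P2)
open scoped ContDiff

/-- An integrating factor for a Beltrami coefficient with periodic modulus. -/
def BeltramiSpec : Prop :=
  ∀ μ : P2 → ℂ, ContDiff ℝ ∞ μ → Periodic2 (1, 0) (0, 1) μ → (∀ x, ‖μ x‖ < 1) →
    ∃ s : P2 → ℂ, ContDiff ℝ ∞ s ∧ Periodic2 (1, 0) (0, 1) (fun x => (s x).re) ∧
      ∀ x, fderiv ℝ (fun u => Complex.I * Complex.exp (s u) * (1 - μ u)) x (1, 0)
        = fderiv ℝ (fun u => Complex.exp (s u) * (1 + μ u)) x (0, 1)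

/-- Every metric on the standard torus is conformally flat. -/
def UniformSpec : Prop :=
  ∀ g11 g12 g22 : P2 → ℝ, ContDiff ℝ ∞ g11 → ContDiff ℝ ∞ g12 → ContDiff ℝ ∞ g22 →
    Periodic2 (1, 0) (0, 1) g11 → Periodic2 (1, 0) (0, 1) g12 → Periodic2 (1, 0) (0, 1) g22 →
    (∀ x, 0 < g11 x ∧ g12 x ^ 2 < g11 x * g22 x) →
    ∃ (v1 v2 : P2) (E : P2 → ℝ) (Ψ : P2 → P2), det2 v1 v2 ≠ 0 ∧ ContDiff ℝ ∞ E ∧ (∀ y, 0 < E y) ∧
      Periodic2 v1 v2 E ∧ ContDiff ℝ ∞ Ψ ∧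
      (∀ x, Ψ (x + (1, 0)) = Ψ x + v1 ∧ Ψ (x + (0, 1)) = Ψ x + v2) ∧
      ∀ x v w, g11 x * v.1 * w.1 + g12 x * (v.1 * w.2 + v.2 * w.1) + g22 x * v.2 * w.2
        = E (Ψ x) * ((fderiv ℝ Ψ x v).1 * (fderiv ℝ Ψ x w).1
          + (fderiv ℝ Ψ x v).2 * (fderiv ℝ Ψ x w).2)

end Vale.Agent.P205
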