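import Vale.Agent.P205.BeltramiEv
import Vale.Agent.P205.Develop
import Vale.Agent.P205.UniformDefs

/-
P205: integrating factor of a periodic Beltrami coefficient.

With `W = dbar s` solving `W = d mu / 2 + mu T W`, where `T` is `bT`, the function `s` built from
`W` has `s_x = W + T W` and `s_y = -I (W - T W)`, and its real part is periodic.
-/

namespace Vale.Agent.P205.Beltrami

open Vale.Agent.P229 (P2)
open Vale.Agent.P205.Fourier
open scoped ENNReal ContDiff ComplexConjugate

lemma rapid_add {c d : Cf} (hc : Rapid c) (hd : Rapid d) : Rapid (c + d) := fun k =>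
  ne_top_of_le_ne_top (ENNReal.add_ne_top.2 ⟨hc k, hd k⟩) (N_add_le k c d)

lemma rapid_smul (a : ℂ) {c : Cf} (hc : Rapid c) : Rapid (a • c) := fun k => by
  rw [N_smul]; exact ENNReal.mul_ne_top enorm_ne_top (hc k)

lemma rapid_one : Rapid one := fun k => by
  rw [N, tsum_eq_single 0 fun n hn => by simp [one, hn]]
  simp [one, w]

/-- A smooth periodic complex function is a series. -/
lemma exists_coeff_complex {μ : P2 → ℂ} (hμ : ContDiff ℝ ∞ μ) (hp : Periodic2 e1 e2 μ) :
    ∃ c, Rapid c ∧ evS c = μ := by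
  obtain ⟨cr, hr, sr, er⟩ := exists_coeff det2_std (Complex.reCLM.contDiff.comp hμ)
    (fun y => ⟨congrArg Complex.re (hp y).1, congrArg Complex.re (hp y).2⟩)
  obtain ⟨ci, hi, si, ei⟩ := exists_coeff det2_std (Complex.imCLM.contDiff.comp hμ)
    (fun y => ⟨congrArg Complex.im (hp y).1, congrArg Complex.im (hp y).2⟩)
  refine ⟨cr + Complex.I • ci, rapid_add hr (rapid_smul _ hi), funext fun y => ?_⟩
  rw [evS_add (hr 0) (rapid_smul _ hi 0), evS_smul, evS, evS, ev_eq_evR sr, ev_eq_evR si, er, ei]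
  simp only [Function.comp_apply, Complex.reCLM_apply, Complex.imCLM_apply]
  rw [mul_comm Complex.I]
  exact Complex.re_add_im (μ y)

/-- The periodic part of the exponent. -/
noncomputable def prim (W : Cf) : Cf := fun n =>
  if n = 0 then 0 else 2 / (m1 e1 e2 n + Complex.I * m2 e1 e2 n) * W n

lemma den_eq (n : Z2) : m1 e1 e2 n + Complex.I * m2 e1 e2 n
    = 2 * Real.pi * Complex.I * ((n.1 : ℂ) + (n.2 : ℂ) * Complex.I) := by
  rw [m1_std, m2_std]; ring

lemma one_le_norm_lattice {n : Z2} (hn : n ≠ 0) :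
    1 ≤ ‖(n.1 : ℂ) + (n.2 : ℂ) * Complex.I‖ := by
  have key : ∀ a : ℤ, a ≠ 0 → (1 : ℝ) ≤ |(a : ℝ)| := fun a ha => by
    rw [← Int.cast_abs]
    exact_mod_cast Int.one_le_abs ha
  by_cases h1 : n.1 = 0
  · have h2 : n.2 ≠ 0 := fun h2 => hn (Prod.ext h1 h2)
    refine (key n.2 h2).trans ?_
    simpa using Complex.abs_im_le_norm ((n.1 : ℂ) + (n.2 : ℂ) * Complex.I)
  · refine (key n.1 h1).trans ?_
    simpa using Complex.abs_re_le_norm ((n.1 : ℂ) + (n.2 : ℂ) * Complex.I)

lemma norm_prim_le (W : Cf) (n : Z2) : ‖prim W n‖ ≤ ‖W n‖ := by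
  unfold prim
  split_ifs with h
  · simp
  · rw [norm_mul, norm_div, den_eq, norm_mul]
    refine mul_le_of_le_one_left (norm_nonneg _) ?_
    have h2 : (2 : ℝ) ≤ ‖(2 * Real.pi * Complex.I : ℂ)‖ := by
      rw [norm_mul, norm_mul, Complex.norm_two, Complex.norm_real, Complex.norm_I,
        Real.norm_eq_abs, abs_of_pos Real.pi_pos]
      linarith [Real.two_le_pi]
    rw [Complex.norm_two, div_le_one (by nlinarith [one_le_norm_lattice h])]
    nlinarith [one_le_norm_lattice h]

lemma rapid_prim {W : Cf} (hW : Rapid W) : Rapid (prim W) := fun k => by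
  refine ne_top_of_le_ne_top (hW k) (ENNReal.tsum_le_tsum fun n => mul_le_mul' le_rfl ?_)
  rw [← ofReal_norm, ← ofReal_norm]
  exact ENNReal.ofReal_le_ofReal (norm_prim_le W n)

lemma lattice_ne_zero {n : Z2} (hn : n ≠ 0) : (n.1 : ℂ) + (n.2 : ℂ) * Complex.I ≠ 0 := fun h => by
  have := one_le_norm_lattice hn
  rw [h, norm_zero] at this
  linarith

lemma D1_prim (W : Cf) :
    D1 e1 e2 (prim W) = W + bT W + (conj (W 0) - W 0) • one := by
  funext n
  simp only [D1, prim, bT, Pi.add_apply, Pi.smul_apply, smul_eq_mul, one]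
  by_cases h : n = 0
  · subst h; simp; ring
  · rw [if_neg h, if_neg h, den_eq, m1_std, Pi.single_eq_of_ne h, mul_zero, add_zero]
    have := lattice_ne_zero h
    have : (n.1 : ℂ) + Complex.I * (n.2 : ℂ) ≠ 0 := by rwa [mul_comm Complex.I]
    have := Complex.I_ne_zero
    have : (Real.pi : ℂ) ≠ 0 := by exact_mod_cast Real.pi_ne_zero
    field_simp
    ring

lemma D2_prim (W : Cf) :
    D2 e1 e2 (prim W) = (-Complex.I) • W + Complex.I • bT W
      + (Complex.I * (W 0 + conj (W 0))) • one := by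
  funext n
  simp only [D2, prim, bT, Pi.add_apply, Pi.smul_apply, smul_eq_mul, one]
  by_cases h : n = 0
  · subst h; simp; ring
  · rw [if_neg h, if_neg h, den_eq, m2_std, Pi.single_eq_of_ne h, mul_zero, add_zero]
    have := lattice_ne_zero h
    have : (n.1 : ℂ) + Complex.I * (n.2 : ℂ) ≠ 0 := by rwa [mul_comm Complex.I]
    have := Complex.I_ne_zero
    have : (Real.pi : ℂ) ≠ 0 := by exact_mod_cast Real.pi_ne_zero
    field_simp
    linear_combination (2 * (n.2 : ℂ)) * W n * Complex.I_sq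

/-- The integrating factor. -/
theorem beltrami : BeltramiSpec := by
  intro μ hμ hp hlt
  obtain ⟨cm, hcm, hev⟩ := exists_coeff_complex hμ hp
  obtain ⟨u0, hu0⟩ := exists_max_periodic2 det2_std (fun u => ‖μ u‖) hμ.continuous.norm
    (fun u => congrArg norm (hp u).1) (fun u => congrArg norm (hp u).2)
  have hop : OpBound cm (ENNReal.ofReal (‖μ u0‖ ^ 2)) :=
    opBound_of_le hcm fun y => by rw [hev]; exact hu0 y
  have hD1 : Rapid (D1 e1 e2 cm) := rapid_mult isDeriv_m1 hcm
  have hD2 : Rapid (D2 e1 e2 cm) := rapid_mult isDeriv_m2 hcm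
  set g : Cf := (1 / 2 : ℂ) • (D1 e1 e2 cm + (-Complex.I) • D2 e1 e2 cm) with hg
  have hgr : Rapid g := rapid_smul _ (rapid_add hD1 (rapid_smul _ hD2))
  obtain ⟨W, hW, hWeq⟩ := exists_solution exists_opBound hcm hgr (sq_nonneg _)
    (pow_lt_one₀ (norm_nonneg _) (hlt u0) two_ne_zero) hop
  have hT := rapid_bT hW
  have hp' := rapid_prim hW
  set a : ℂ := W 0 - conj (W 0) with ha
  set b : ℂ := -Complex.I * (W 0 + conj (W 0)) with hb
  set s : P2 → ℂ := fun x => evS (prim W) x + (x.1 : ℂ) * a + (x.2 : ℂ) * b with hs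
  have hss : ContDiff ℝ ∞ s :=
    ((contDiff_evS hp').add ((Complex.ofRealCLM.contDiff.comp contDiff_fst).mul contDiff_const)).add
      ((Complex.ofRealCLM.contDiff.comp contDiff_snd).mul contDiff_const)
  refine ⟨s, hss, fun x => ?_, fun x => ?_⟩
  · have hre : ∀ y : P2, (s y).re = (evS (prim W) y).re := fun y => by
      simp [hs, ha, hb]
    simp only [hre]
    exact ⟨congrArg Complex.re (evS_periodic _ x).1, congrArg Complex.re (evS_periodic _ x).2⟩
  -- derivatives of the exponent
  have e0 : N 0 one ≠ ⊤ := rapid_one 0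
  have hsd : HasFDerivAt s (fderiv ℝ (evS (prim W)) x
      + ((ContinuousLinearMap.fst ℝ ℝ ℝ).smulRight a)
      + ((ContinuousLinearMap.snd ℝ ℝ ℝ).smulRight b)) x := by
    refine ((((contDiff_evS hp').differentiable (by simp)).differentiableAt.hasFDerivAt).add
      ?_).add ?_
    · exact ((ContinuousLinearMap.fst ℝ ℝ ℝ).smulRight a).hasFDerivAt.congr_of_eventuallyEq
        (Filter.Eventually.of_forall fun y => by simp [Complex.real_smul])
    · exact ((ContinuousLinearMap.snd ℝ ℝ ℝ).smulRight b).hasFDerivAt.congr_of_eventuallyEq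
        (Filter.Eventually.of_forall fun y => by simp [Complex.real_smul])
  have hsx : fderiv ℝ s x (1, 0) = evS W x + evS (bT W) x := by
    rw [hsd.fderiv]
    simp only [ContinuousLinearMap.add_apply, ContinuousLinearMap.smulRight_apply,
      ContinuousLinearMap.coe_fst', ContinuousLinearMap.coe_snd', one_smul, zero_smul, add_zero]
    rw [(fderiv_evS (hp' 1) x).1, D1_prim, evS_add (rapid_add hW hT 0) (rapid_smul _ rapid_one 0),
      evS_add (hW 0) (hT 0), evS_smul, evS_one, ha]
    ring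
  have hsy : fderiv ℝ s x (0, 1) = -Complex.I * (evS W x - evS (bT W) x) := by
    rw [hsd.fderiv]
    simp only [ContinuousLinearMap.add_apply, ContinuousLinearMap.smulRight_apply,
      ContinuousLinearMap.coe_fst', ContinuousLinearMap.coe_snd', one_smul, zero_smul, add_zero]
    rw [(fderiv_evS (hp' 1) x).2, D2_prim,
      evS_add (rapid_add (rapid_smul _ hW) (rapid_smul _ hT) 0) (rapid_smul _ rapid_one 0),
      evS_add (rapid_smul _ hW 0) (rapid_smul _ hT 0), evS_smul, evS_smul, evS_smul, evS_one, hb]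
    ring
  -- the equation
  have hWx : evS W x = (1 / 2 : ℂ) * (fderiv ℝ μ x (1, 0) - Complex.I * fderiv ℝ μ x (0, 1))
      + μ x * evS (bT W) x := by
    have e : W = g + conv cm (bT W) := funext hWeq
    conv_lhs => rw [e]
    rw [evS_add (hgr 0) (rapid_conv hcm hT 0), evS_conv (hcm 0) (hT 0), hg, evS_smul,
      evS_add (hD1 0) (rapid_smul _ hD2 0), evS_smul, ← (fderiv_evS (hcm 1) x).1,
      ← (fderiv_evS (hcm 1) x).2, hev]
    ring
  have hμd : HasFDerivAt μ (fderiv ℝ μ x) x :=
    ((hμ.differentiable (by simp)).differentiableAt).hasFDerivAt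
  have hsd' : HasFDerivAt s (fderiv ℝ s x) x := hsd.differentiableAt.hasFDerivAt
  have hL : HasFDerivAt (fun u => Complex.I * Complex.exp (s u) * (1 - μ u))
      ((Complex.I * Complex.exp (s x)) • (-fderiv ℝ μ x)
        + (1 - μ x) • (Complex.I • (Complex.exp (s x) • fderiv ℝ s x))) x :=
    ((hsd'.cexp).const_mul Complex.I).mul (hμd.const_sub 1)
  have hR : HasFDerivAt (fun u => Complex.exp (s u) * (1 + μ u))
      (Complex.exp (s x) • fderiv ℝ μ x + (1 + μ x) • (Complex.exp (s x) • fderiv ℝ s x)) x :=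
    (hsd'.cexp).mul (hμd.const_add 1)
  rw [hL.fderiv, hR.fderiv]
  simp only [ContinuousLinearMap.add_apply, ContinuousLinearMap.smul_apply,
    ContinuousLinearMap.neg_apply, smul_eq_mul, hsx, hsy]
  linear_combination (2 * Complex.I * Complex.exp (s x)) * hWx
    - Complex.exp (s x) * fderiv ℝ μ x (0, 1) * Complex.I_sq

end Vale.Agent.P205.Beltrami

namespace Vale.Agent.P205

theorem beltrami : BeltramiSpec := Beltrami.beltrami

end Vale.Agent.P205
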