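import Vale.Agent.P205.Seq

/-
P205: the algebra of the weighted norms.
-/

namespace Vale.Agent.P205.Fourier

open Vale.Agent.P229 (P2)
open scoped ENNReal
open Finset

lemma one_le_w (n : Z2) : 1 ≤ w n := by unfold w; omega

lemma w_le_add (n m : Z2) : w n ≤ w m + w (n - m) := by
  unfold w
  simp only [Prod.fst_sub, Prod.snd_sub]
  omega

lemma w_neg (n : Z2) : w (-n) = w n := by simp [w]

lemma one_le_wE (n : Z2) : (1 : ℝ≥0∞) ≤ (w n : ℝ≥0∞) := by exact_mod_cast one_le_w n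

lemma N_zero_eq (c : Cf) : N 0 c = ∑' n, ‖c n‖ₑ := by simp [N]

lemma N_mono {k l : ℕ} (h : k ≤ l) (c : Cf) : N k c ≤ N l c :=
  ENNReal.tsum_le_tsum fun n => mul_le_mul' (pow_le_pow_right₀ (one_le_wE n) h) le_rfl

lemma N_ne_top_of_le {k l : ℕ} (h : k ≤ l) {c : Cf} (hc : N l c ≠ ⊤) : N k c ≠ ⊤ :=
  ne_top_of_le_ne_top hc (N_mono h c)

lemma N_zero (k : ℕ) : N k (0 : Cf) = 0 := by simp [N]

lemma N_add_le (k : ℕ) (c d : Cf) : N k (c + d) ≤ N k c + N k d := by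
  simp only [N, ← ENNReal.tsum_add]
  refine ENNReal.tsum_le_tsum fun n => ?_
  rw [← mul_add]
  exact mul_le_mul' le_rfl (enorm_add_le _ _)

lemma N_sub_le (k : ℕ) (c d : Cf) : N k (c - d) ≤ N k c + N k d := by
  simp only [N, ← ENNReal.tsum_add]
  refine ENNReal.tsum_le_tsum fun n => ?_
  rw [← mul_add]
  exact mul_le_mul' le_rfl enorm_sub_le

lemma N_smul (k : ℕ) (a : ℂ) (c : Cf) : N k (a • c) = ‖a‖ₑ * N k c := by
  simp only [N, Pi.smul_apply, smul_eq_mul, enorm_mul, ← ENNReal.tsum_mul_left]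
  congr 1; funext n; ring

lemma N_one (k : ℕ) : N k one = 1 := by
  rw [N, tsum_eq_single (0 : Z2)]
  · simp [one, w]
  · intro n hn
    simp [one, hn]

lemma enorm_le_N (k : ℕ) (c : Cf) (n : Z2) : ‖c n‖ₑ ≤ N k c :=
  calc ‖c n‖ₑ ≤ N 0 c := by rw [N_zero_eq]; exact ENNReal.le_tsum n
    _ ≤ N k c := N_mono (Nat.zero_le k) c

lemma summable_norm_of_N {c : Cf} (h : N 0 c ≠ ⊤) : Summable fun n => ‖c n‖ := by
  rw [N_zero_eq] at h
  simpa using ENNReal.summable_toReal h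

lemma N_mult_le (k j : ℕ) {m : Z2 → ℂ} {C : ℝ≥0∞} (hm : ∀ n, ‖m n‖ₑ ≤ C * (w n : ℝ≥0∞) ^ j)
    (c : Cf) : N k (fun n => m n * c n) ≤ C * N (k + j) c := by
  simp only [N, ← ENNReal.tsum_mul_left]
  refine ENNReal.tsum_le_tsum fun n => ?_
  rw [enorm_mul, pow_add]
  calc (w n : ℝ≥0∞) ^ k * (‖m n‖ₑ * ‖c n‖ₑ)
      ≤ (w n : ℝ≥0∞) ^ k * (C * (w n : ℝ≥0∞) ^ j * ‖c n‖ₑ) :=
        mul_le_mul' le_rfl (mul_le_mul' (hm n) le_rfl)
    _ = _ := by ring

lemma summable_conv {c d : Cf} (hc : N 0 c ≠ ⊤) (hd : N 0 d ≠ ⊤) (n : Z2) :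
    Summable fun m => c m * d (n - m) := by
  refine Summable.of_norm_bounded ((summable_norm_of_N hc).mul_right (N 0 d).toReal) fun m => ?_
  rw [norm_mul]
  refine mul_le_mul_of_nonneg_left ?_ (norm_nonneg _)
  rw [← toReal_enorm]
  exact ENNReal.toReal_mono hd (enorm_le_N 0 d _)

lemma N_conv_le (k : ℕ) (c d : Cf) :
    N k (conv c d) ≤ ∑ j ∈ range (k + 1), (k.choose j : ℝ≥0∞) * (N j c * N (k - j) d) := by
  calc N k (conv c d)
      ≤ ∑' n, ∑' m, ∑ j ∈ range (k + 1), (k.choose j : ℝ≥0∞) *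
          (((w m : ℝ≥0∞) ^ j * ‖c m‖ₑ) * ((w (n - m) : ℝ≥0∞) ^ (k - j) * ‖d (n - m)‖ₑ)) := by
        refine ENNReal.tsum_le_tsum fun n => ?_
        calc (w n : ℝ≥0∞) ^ k * ‖conv c d n‖ₑ
            ≤ (w n : ℝ≥0∞) ^ k * ∑' m, ‖c m * d (n - m)‖ₑ :=
              mul_le_mul' le_rfl enorm_tsum_le_tsum_enorm
          _ = ∑' m, (w n : ℝ≥0∞) ^ k * ‖c m * d (n - m)‖ₑ := ENNReal.tsum_mul_left.symm
          _ ≤ _ := ENNReal.tsum_le_tsum fun m => ?_
        have h : (w n : ℝ≥0∞) ≤ (w m : ℝ≥0∞) + (w (n - m) : ℝ≥0∞) := by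
          exact_mod_cast w_le_add n m
        calc (w n : ℝ≥0∞) ^ k * ‖c m * d (n - m)‖ₑ
            ≤ ((w m : ℝ≥0∞) + (w (n - m) : ℝ≥0∞)) ^ k * ‖c m * d (n - m)‖ₑ :=
              mul_le_mul' (pow_le_pow_left' h k) le_rfl
          _ = _ := by
              rw [add_pow, Finset.sum_mul, enorm_mul]
              exact Finset.sum_congr rfl fun j _ => by ring
    _ = ∑' m, ∑' n, ∑ j ∈ range (k + 1), (k.choose j : ℝ≥0∞) *
          (((w m : ℝ≥0∞) ^ j * ‖c m‖ₑ) * ((w (n - m) : ℝ≥0∞) ^ (k - j) * ‖d (n - m)‖ₑ)) :=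
        ENNReal.tsum_comm
    _ = _ := by
        have e : ∀ m, ∑' n, ∑ j ∈ range (k + 1), (k.choose j : ℝ≥0∞) *
            (((w m : ℝ≥0∞) ^ j * ‖c m‖ₑ) * ((w (n - m) : ℝ≥0∞) ^ (k - j) * ‖d (n - m)‖ₑ))
            = ∑ j ∈ range (k + 1),
              (k.choose j : ℝ≥0∞) * (((w m : ℝ≥0∞) ^ j * ‖c m‖ₑ) * N (k - j) d) := by
          intro m
          rw [Summable.tsum_finsetSum fun _ _ => ENNReal.summable]
          refine Finset.sum_congr rfl fun j _ => ?_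
          rw [ENNReal.tsum_mul_left, ENNReal.tsum_mul_left]
          congr 2
          exact (Equiv.subRight m).tsum_eq fun n => (w n : ℝ≥0∞) ^ (k - j) * ‖d n‖ₑ
        simp only [e]
        rw [Summable.tsum_finsetSum fun _ _ => ENNReal.summable]
        refine Finset.sum_congr rfl fun j _ => ?_
        rw [ENNReal.tsum_mul_left, ENNReal.tsum_mul_right]
        rfl

lemma N0_conv_le (c d : Cf) : N 0 (conv c d) ≤ N 0 c * N 0 d := by
  simpa using N_conv_le 0 c d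

/-- The two extreme terms of the product bound separated from the middle ones. -/
lemma N_conv_le_top {k : ℕ} (hk : 1 ≤ k) (c d : Cf) :
    N k (conv c d) ≤ N k c * N 0 d + N 0 c * N k d
      + ∑ j ∈ Ico 1 k, (k.choose j : ℝ≥0∞) * (N j c * N (k - j) d) := by
  refine (N_conv_le k c d).trans (le_of_eq ?_)
  rw [Finset.sum_range_succ, Finset.range_eq_Ico, Finset.sum_eq_sum_Ico_succ_bot (by omega : 0 < k)]
  simp only [Nat.choose_zero_right, Nat.choose_self, Nat.cast_one, one_mul, Nat.sub_zero,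
    Nat.sub_self, zero_add]
  ring

lemma conv_sub {c c' d d' : Cf} (hc : N 0 c ≠ ⊤) (hc' : N 0 c' ≠ ⊤) (hd : N 0 d ≠ ⊤)
    (hd' : N 0 d' ≠ ⊤) : conv c d - conv c' d' = conv c (d - d') + conv (c - c') d' := by
  have hdd : N 0 (d - d') ≠ ⊤ :=
    ne_top_of_le_ne_top (ENNReal.add_ne_top.2 ⟨hd, hd'⟩) (N_sub_le 0 d d')
  have hcc : N 0 (c - c') ≠ ⊤ :=
    ne_top_of_le_ne_top (ENNReal.add_ne_top.2 ⟨hc, hc'⟩) (N_sub_le 0 c c')
  funext n
  simp only [Pi.sub_apply, Pi.add_apply, conv]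
  have h1 := summable_conv hc hdd n
  have h2 := summable_conv hcc hd' n
  simp only [Pi.sub_apply] at h1 h2
  rw [← (summable_conv hc hd n).tsum_sub (summable_conv hc' hd' n), ← Summable.tsum_add h1 h2]
  congr 1; funext m; ring

lemma sym_zero : Sym (0 : Cf) := fun n => by simp

lemma sym_one : Sym one := fun n => by
  by_cases h : n = 0
  · subst h; simp [one]
  · simp [one, h]

lemma Sym.add {c d : Cf} (hc : Sym c) (hd : Sym d) : Sym (c + d) := fun n => by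
  simp [hc n, hd n]

lemma Sym.sub {c d : Cf} (hc : Sym c) (hd : Sym d) : Sym (c - d) := fun n => by
  simp [hc n, hd n]

lemma Sym.smul {c : Cf} (hc : Sym c) (t : ℝ) : Sym ((t : ℂ) • c) := fun n => by
  simp [hc n]

lemma Sym.conv {c d : Cf} (hc : Sym c) (hd : Sym d) : Sym (conv c d) := fun n => by
  unfold Fourier.conv
  rw [Complex.conj_tsum, ← (Equiv.neg Z2).tsum_eq]
  refine tsum_congr fun m => ?_
  simp only [Equiv.neg_apply, map_mul]
  rw [hc m, show -n - -m = -(n - m) by abel, hd (n - m)]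

lemma Sym.mult {c : Cf} (hc : Sym c) {m : Z2 → ℂ} (hm : ∀ n, m (-n) = starRingEnd ℂ (m n)) :
    Sym fun n => m n * c n := fun n => by
  simp [hc n, hm n]

/-- Lower semicontinuity of the norms under coefficientwise convergence. -/
lemma N_le_of_tendsto {k : ℕ} {u : ℕ → Cf} {c : Cf} {M : ℝ≥0∞}
    (hu : ∀ n, Filter.Tendsto (fun i => u i n) Filter.atTop (nhds (c n)))
    (hM : ∀ᶠ i in Filter.atTop, N k (u i) ≤ M) : N k c ≤ M := by
  rw [N, ENNReal.tsum_eq_iSup_sum]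
  refine iSup_le fun s => le_of_tendsto (tendsto_finsetSum s fun n _ => ?_)
    (hM.mono fun i hi => (ENNReal.sum_le_tsum s).trans hi)
  exact ENNReal.Tendsto.const_mul ((hu n).enorm)
    (Or.inr (ENNReal.pow_ne_top (ENNReal.natCast_ne_top _)))

end Vale.Agent.P205.Fourier
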