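import Vale.Agent.P205.Develop

/-
P205: assembly of the torus theorem from its modules.
-/

namespace Vale.Agent.P205

open Vale.Agent.P229 (P2 dp dy smooth_dp smooth_dy)
open MeasureTheory Set Filter
open scoped ContDiff Topology

variable {v1 v2 : P2}

lemma per_dir {f : P2 → ℝ} (h : Periodic2 v1 v2 f) (v : P2) :
    Periodic2 v1 v2 fun y => fderiv ℝ f y v := fun y =>
  ⟨congrArg (fun L : P2 →L[ℝ] ℝ => L v) (per_fderiv (fun u => (h u).1) y),
    congrArg (fun L : P2 →L[ℝ] ℝ => L v) (per_fderiv (fun u => (h u).2) y)⟩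

/-- A periodic family, positive at the start, stays positive for a short time. -/
lemma eventually_pos (hv : det2 v1 v2 ≠ 0) {t0 : ℝ} (ht0 : 0 < t0) {G : ℝ → P2 → ℝ}
    (hc : ContinuousOn (fun p : ℝ × P2 => G p.1 p.2) (Icc 0 t0 ×ˢ univ))
    (hp : ∀ t ∈ Icc 0 t0, Periodic2 v1 v2 (G t)) (h0 : ∀ y, 0 < G 0 y) :
    ∃ t1, 0 < t1 ∧ t1 ≤ t0 ∧ ∀ t ∈ Icc 0 t1, ∀ y, 0 < G t y := by
  set K : Set P2 := (fun p : ℝ × ℝ => p.1 • v1 + p.2 • v2) '' (Icc (0 : ℝ) 1 ×ˢ Icc (0 : ℝ) 1)
  have hK : IsCompact K := (isCompact_Icc.prod isCompact_Icc).image (by fun_prop)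
  have hev : ∀ y ∈ K, ∀ᶠ p : ℝ × P2 in 𝓝 (0, y), p.1 ∈ Icc 0 t0 → 0 < G p.1 p.2 := by
    intro y _
    have h := (hc (0, y) ⟨⟨le_rfl, ht0.le⟩, mem_univ _⟩).eventually (lt_mem_nhds (h0 y))
    rw [eventually_nhdsWithin_iff] at h
    filter_upwards [h] with p hp' hmem using hp' ⟨hmem, mem_univ _⟩
  obtain ⟨r, hr, hr'⟩ := Metric.eventually_nhds_iff.1
    (hK.eventually_forall_of_forall_eventually (x₀ := (0 : ℝ))
      (P := fun t y => t ∈ Icc 0 t0 → 0 < G t y) hev)
  refine ⟨min t0 (r / 2), lt_min ht0 (by linarith), min_le_left _ _, fun t ht y => ?_⟩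
  have htmem : t ∈ Icc 0 t0 := ⟨ht.1, ht.2.trans (min_le_left _ _)⟩
  have hpos := hr' (show dist t 0 < r by
    rw [dist_zero_right, Real.norm_eq_abs, abs_of_nonneg ht.1]
    have := ht.2.trans (min_le_right _ _)
    linarith)
  set a := det2 y v2 / det2 v1 v2
  set b := det2 v1 y / det2 v1 v2
  have e1 : Function.Periodic (G t) (⌊a⌋ • v1) :=
    Function.Periodic.zsmul (fun u => ((hp t htmem) u).1) _
  have e2 : Function.Periodic (G t) (⌊b⌋ • v2) :=
    Function.Periodic.zsmul (fun u => ((hp t htmem) u).2) _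
  have hy : y = (Int.fract a • v1 + Int.fract b • v2) + (⌊a⌋ • v1 + ⌊b⌋ • v2) := by
    conv_lhs => rw [decompose hv y]
    simp only [Int.fract, sub_smul, ← Int.cast_smul_eq_zsmul ℝ, a, b]
    abel
  rw [hy, (e1.add_period e2) _]
  exact hpos _ (mem_image_of_mem (fun p : ℝ × ℝ => p.1 • v1 + p.2 • v2)
    (show (Int.fract a, Int.fract b) ∈ Icc (0 : ℝ) 1 ×ˢ Icc (0 : ℝ) 1 from
      ⟨⟨Int.fract_nonneg _, (Int.fract_lt_one _).le⟩,
        ⟨Int.fract_nonneg _, (Int.fract_lt_one _).le⟩⟩)) htmem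

/-- The height `e (l - log q)`. -/
noncomputable def height (e : ℝ) (l q : P2 → ℝ) (y : P2) : ℝ := e * (l y - Real.log (q y))

lemma dir_height {e : ℝ} {l q : P2 → ℝ} (hl : ContDiff ℝ ∞ l) (hq : ContDiff ℝ ∞ q)
    (hpos : ∀ y, 0 < q y) (v y : P2) :
    fderiv ℝ (height e l q) y v = e * (fderiv ℝ l y v - fderiv ℝ q y v / q y) := by
  have h : HasFDerivAt (height e l q) _ y :=
    (((hl.differentiable (by simp)) y).hasFDerivAt.sub
      (((hq.differentiable (by simp)) y).hasFDerivAt.log (hpos y).ne')).const_mul e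
  rw [h.fderiv]
  simp only [ContinuousLinearMap.smul_apply, sub_apply, smul_eq_mul]
  ring

lemma dir_slope {e : ℝ} {l q : P2 → ℝ} (hl : ContDiff ℝ ∞ l) (hq : ContDiff ℝ ∞ q)
    (hpos : ∀ y, 0 < q y) (u y v : P2) :
    fderiv ℝ (fun w => fderiv ℝ (height e l q) w u / q w) y v
      = e * (fderiv ℝ (fun w => fderiv ℝ l w u) y v
          - fderiv ℝ (fun w => fderiv ℝ q w u) y v / q y
          + fderiv ℝ q y u * fderiv ℝ q y v / q y ^ 2) / q y
        - e * (fderiv ℝ l y u - fderiv ℝ q y u / q y) * fderiv ℝ q y v / q y ^ 2 := by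
  simp only [dir_height hl hq hpos]
  have hlu := ((((hl.fderiv_right (m := ∞) (by simp)).clm_apply
    (contDiff_const (c := u))).differentiable (by simp)) y).hasFDerivAt
  have hqu := ((((hq.fderiv_right (m := ∞) (by simp)).clm_apply
    (contDiff_const (c := u))).differentiable (by simp)) y).hasFDerivAt
  have hq1 := ((hq.differentiable (by simp)) y).hasFDerivAt
  have hinv : HasFDerivAt (fun w => (q w)⁻¹) (-(q y ^ 2)⁻¹ • fderiv ℝ q y) y :=
    (hasDerivAt_inv (hpos y).ne').comp_hasFDerivAt y hq1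
  have h : HasFDerivAt (fun w => e * (fderiv ℝ l w u - fderiv ℝ q w u * (q w)⁻¹) * (q w)⁻¹) _ y :=
    ((hlu.sub (hqu.mul hinv)).const_mul e).mul hinv
  rw [show (fun w => e * (fderiv ℝ l w u - fderiv ℝ q w u / q w) / q w)
      = fun w => e * (fderiv ℝ l w u - fderiv ℝ q w u * (q w)⁻¹) * (q w)⁻¹ from
    funext fun w => by ring, h.fderiv]
  simp only [ContinuousLinearMap.smul_apply, add_apply, sub_apply,
    smul_eq_mul, Pi.mul_apply, Pi.sub_apply]
  ring

theorem torus (hs : SolveSpec) (hc : CurvSpec) (hd : DevelopSpec) (hh : HopfSpec) : TorusSpec := by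
  intro v1 v2 hv E hE hEp hEper
  set l : P2 → ℝ := fun y => Real.log (E y) / 2 with hldef
  have hl : ContDiff ℝ ∞ l := (hE.log fun y => (hEp y).ne').div_const 2
  have hlper : Periodic2 v1 v2 l := fun y => by simp [hldef, (hEper y).1, (hEper y).2]
  set B : Data := ⟨dp l, dy l, dp (dp l), dy (dp l), dy (dy l)⟩ with hBdef
  have hB : B.Good v1 v2 :=
    ⟨smooth_dp hl, smooth_dy hl, smooth_dp (smooth_dp hl), smooth_dy (smooth_dp hl),
      smooth_dy (smooth_dy hl), per_dir hlper _, per_dir hlper _, per_dir (per_dir hlper _) _,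
      per_dir (per_dir hlper _) _, per_dir (per_dir hlper _) _⟩
  obtain ⟨t0, ht0, q, hq0, hq, cq, cq1, cq2⟩ := hs v1 v2 hv B hB
  obtain ⟨t1, ht1, ht10, hqpos⟩ := eventually_pos hv ht0 cq (fun t ht => (hq t ht).2.1)
    (fun y => by rw [hq0]; exact one_pos)
  have m1 : Icc 0 t1 ⊆ Icc 0 t0 := Icc_subset_Icc le_rfl ht10
  have sub1 : Icc 0 t1 ×ˢ (univ : Set P2) ⊆ Icc 0 t0 ×ˢ univ := prod_mono m1 subset_rfl
  have csq : Continuous fun p : ℝ × P2 => Real.sqrt p.1 := by fun_prop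
  have cl1 : ∀ u : P2, Continuous fun p : ℝ × P2 => fderiv ℝ l p.2 u := fun u =>
    (((hl.fderiv_right (m := ∞) (by simp)).clm_apply contDiff_const).continuous).comp
      continuous_snd
  have cl2 : ∀ u v : P2, Continuous fun p : ℝ × P2 =>
      fderiv ℝ (fun w => fderiv ℝ l w u) p.2 v := fun u v =>
    (((((hl.fderiv_right (m := ∞) (by simp)).clm_apply (contDiff_const (c := u))).fderiv_right
      (m := ∞) (by simp)).clm_apply contDiff_const).continuous).comp continuous_snd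
  have cqu : ∀ u : P2, ContinuousOn (fun p : ℝ × P2 => fderiv ℝ (q p.1) p.2 u)
      (Icc 0 t1 ×ˢ univ) := fun u =>
    (cq1.mono sub1).clm_apply (continuousOn_const (c := u))
  have cquv : ∀ u v : P2, ContinuousOn
      (fun p : ℝ × P2 => fderiv ℝ (fun w => fderiv ℝ (q p.1) w u) p.2 v) (Icc 0 t1 ×ˢ univ) := by
    intro u v
    refine (((cq2.mono sub1).clm_apply (continuousOn_const (c := v))).clm_apply
      (continuousOn_const (c := u))).congr
      fun p hp => ?_
    have hd2 := ((hq p.1 (m1 hp.1)).1.fderiv_right (m := ∞) (by simp)).differentiable (by simp) p.2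
    rw [fderiv_clm_apply hd2 (differentiableAt_const u)]
    simp
  have cqi : ContinuousOn (fun p : ℝ × P2 => q p.1 p.2) (Icc 0 t1 ×ˢ univ) := cq.mono sub1
  have hne : ∀ p ∈ Icc 0 t1 ×ˢ (univ : Set P2), q p.1 p.2 ≠ 0 := fun p hp =>
    (hqpos p.1 hp.1 p.2).ne'
  set z : ℝ → P2 → ℝ := fun t => height (Real.sqrt t) l (q t) with hzdef
  have hz1 : ∀ t ∈ Icc 0 t1, ∀ y u, fderiv ℝ (z t) y u
      = Real.sqrt t * (fderiv ℝ l y u - fderiv ℝ (q t) y u / q t y) := fun t ht y u =>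
    dir_height hl (hq t (m1 ht)).1 (hqpos t ht) u y
  have cz : ∀ u : P2, ContinuousOn (fun p : ℝ × P2 => fderiv ℝ (z p.1) p.2 u)
      (Icc 0 t1 ×ˢ univ) := fun u =>
    (csq.continuousOn.mul ((cl1 u).continuousOn.sub ((cqu u).div cqi hne))).congr
      fun p hp => hz1 p.1 hp.1 p.2 u
  have hzsm : ∀ t ∈ Icc 0 t1, ContDiff ℝ ∞ (z t) := fun t ht =>
    contDiff_const.mul (hl.sub ((hq t (m1 ht)).1.log fun y => (hqpos t ht y).ne'))
  have hzper : ∀ t ∈ Icc 0 t1, Periodic2 v1 v2 (z t) := fun t ht y => by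
    simp [hzdef, height, (hlper y).1, (hlper y).2, ((hq t (m1 ht)).2.1 y).1,
      ((hq t (m1 ht)).2.1 y).2]
  have hz0 : z 0 = fun _ => 0 := by funext y; simp [hzdef, height]
  obtain ⟨t2, ht2, ht21, hslope⟩ := eventually_pos hv ht1
    (G := fun t y => q t y ^ 2 - (dp (z t) y ^ 2 + dy (z t) y ^ 2))
    ((cqi.pow 2).sub (((cz (1, 0)).pow 2).add ((cz (0, 1)).pow 2)))
    (fun t ht y => by
      have a := per_dir (hzper t ht) (1, 0) y
      have b := per_dir (hzper t ht) (0, 1) y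
      simp only [dp, dy, a.1, a.2, b.1, b.2, ((hq t (m1 ht)).2.1 y).1, ((hq t (m1 ht)).2.1 y).2,
        and_self])
    (fun y => by simp [hz0, hq0, dp, dy])
  have m2 : Icc 0 t2 ⊆ Icc 0 t1 := Icc_subset_Icc le_rfl ht21
  have sub2 : Icc 0 t2 ×ˢ (univ : Set P2) ⊆ Icc 0 t1 ×ˢ univ := prod_mono m2 subset_rfl
  -- Continuity of the frame and of its connection form.
  have cp : ∀ u : P2, ContinuousOn (fun p : ℝ × P2 => fderiv ℝ (z p.1) p.2 u / q p.1 p.2)
      (Icc 0 t2 ×ˢ univ) := fun u => ((cz u).div cqi hne).mono sub2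
  have cdp : ∀ u v : P2, ContinuousOn
      (fun p : ℝ × P2 => fderiv ℝ (fun w => fderiv ℝ (z p.1) w u / q p.1 w) p.2 v)
      (Icc 0 t2 ×ˢ univ) := fun u v => by
    refine ContinuousOn.congr ?_ fun p hp => dir_slope (e := Real.sqrt p.1) hl
      (hq p.1 (m1 (m2 hp.1))).1 (hqpos p.1 (m2 hp.1)) u p.2 v
    have n1 := fun p (hp : p ∈ Icc 0 t2 ×ˢ (univ : Set P2)) => hne p (sub2 hp)
    have n2 := fun p (hp : p ∈ Icc 0 t2 ×ˢ (univ : Set P2)) => pow_ne_zero 2 (n1 p hp)
    have a := cqi.mono sub2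
    have b := (cqu u).mono sub2
    have c := (cqu v).mono sub2
    have d := (cquv u v).mono sub2
    exact ((csq.continuousOn.mul (((cl2 u v).continuousOn.sub (d.div a n1)).add
        ((b.mul c).div (a.pow 2) n2))).div a n1).sub
      (((csq.continuousOn.mul ((cl1 u).continuousOn.sub (b.div a n1))).mul c).div (a.pow 2) n2)
  have ccs : ContinuousOn (fun p : ℝ × P2 => cs (q p.1) (z p.1) p.2) (Icc 0 t2 ×ˢ univ) :=
    Real.continuous_sqrt.comp_continuousOn
      (continuousOn_const.sub (((cp (1, 0)).pow 2).add ((cp (0, 1)).pow 2)))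
  have hflat : ∀ t ∈ Icc 0 t2, ContDiff ℝ ∞ (q t) ∧ ContDiff ℝ ∞ (z t) ∧ Periodic2 v1 v2 (q t) ∧
      Periodic2 v1 v2 (z t) ∧ (∀ y, 0 < q t y) ∧
      (∀ y, dp (z t) y ^ 2 + dy (z t) y ^ 2 < q t y ^ 2) ∧
      ∀ y, dp (fun u => omega (q t) (z t) u (0, 1)) y
        = dy (fun u => omega (q t) (z t) u (1, 0)) y := by
    intro t ht
    obtain ⟨a, b, m, hm⟩ := hq t (m1 (m2 ht))
    have hsl : ∀ y, dp (z t) y ^ 2 + dy (z t) y ^ 2 < q t y ^ 2 := fun y => by
      linarith [hslope t ht y]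
    refine ⟨a, hzsm t (m2 ht), b, hzper t (m2 ht), hqpos t (m2 ht), hsl, ?_⟩
    refine hc v1 v2 B l (q t) (Real.sqrt t) m hv hl a hlper b rfl rfl rfl rfl rfl (hqpos t (m2 ht))
      hsl ?_
    rw [Real.sq_sqrt ht.1]
    exact hm
  have n1c : ∀ p ∈ Icc 0 t2 ×ˢ (univ : Set P2), 1 + cs (q p.1) (z p.1) p.2 ≠ 0 := fun p _ => by
    have : 0 ≤ cs (q p.1) (z p.1) p.2 := Real.sqrt_nonneg _
    positivity
  have n2c : ∀ p ∈ Icc 0 t2 ×ˢ (univ : Set P2), cs (q p.1) (z p.1) p.2 ≠ 0 := fun p hp => by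
    obtain ⟨a, b, c, d, e, f, g⟩ := hflat p.1 hp.1
    exact (cs_pos (⟨a, b, c, d, e, f, g⟩ : Flat v1 v2 (q p.1) (z p.1)) p.2).ne'
  have cq' := cqi.mono sub2
  have nq : ∀ p ∈ Icc 0 t2 ×ˢ (univ : Set P2), q p.1 p.2 ≠ 0 := fun p hp => hne p (sub2 hp)
  obtain ⟨D, w1, w2, cw1, cw2, hw10, hw20, hD⟩ := hd v1 v2 hv t2 q z ht2 hq0 hz0 hflat
    (fun v => by
      have hk := (continuousOn_const (c := (1 : ℝ))).div (continuousOn_const.add ccs) n1c
      have hs' := ((cp (1, 0)).mul (continuousOn_const (c := v.1))).add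
        ((cp (0, 1)).mul (continuousOn_const (c := v.2)))
      exact (cq'.mul (continuousOn_const.sub ((hk.mul (cp (1, 0))).mul hs'))).prodMk
        (cq'.mul (continuousOn_const.sub ((hk.mul (cp (0, 1))).mul hs'))))
    (fun v => ((((((cqu (0, 1)).mono sub2).neg.mul continuousOn_const).add
        (((cqu (1, 0)).mono sub2).mul continuousOn_const)).div cq' nq).add
      ((((cp (1, 0)).mul (cdp (0, 1) v)).sub ((cp (0, 1)).mul (cdp (1, 0) v))).div
        (continuousOn_const.add ccs) n1c)).div ccs n2c)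
  -- Choice of the scale.
  set N : ℝ → ℝ := fun t => Real.sqrt ((w1 t).1 ^ 2 + (w1 t).2 ^ 2) with hN
  set A : ℝ → ℝ := fun t => |det2 (w1 t) (w2 t)| with hA
  have cN : ContinuousOn N (Icc 0 t2) :=
    Real.continuous_sqrt.comp_continuousOn
      (((continuous_fst.comp_continuousOn cw1).pow 2).add ((continuous_snd.comp_continuousOn cw1).pow 2))
  have cA : ContinuousOn A (Icc 0 t2) :=
    (((continuous_fst.comp_continuousOn cw1).mul (continuous_snd.comp_continuousOn cw2)).sub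
      ((continuous_snd.comp_continuousOn cw1).mul (continuous_fst.comp_continuousOn cw2))).abs
  have hN0 : 0 < N 0 := by
    refine Real.sqrt_pos.2 ?_
    rw [hw10]
    by_contra h
    have h' := (add_eq_zero_iff_of_nonneg (sq_nonneg v1.1) (sq_nonneg v1.2)).1
      (le_antisymm (not_lt.1 h) (by positivity))
    exact hv (by simp [det2, pow_eq_zero_iff two_ne_zero |>.1 h'.1,
      pow_eq_zero_iff two_ne_zero |>.1 h'.2])
  have hA0 : 0 < A 0 := by
    show 0 < |det2 (w1 0) (w2 0)|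
    rw [hw10, hw20]; exact abs_pos.2 hv
  have hev : ∀ᶠ t in 𝓝[Icc 0 t2] 0, N 0 / 2 < N t ∧ N t < 2 * N 0 ∧ A 0 / 2 < A t :=
    ((cN 0 ⟨le_rfl, ht2.le⟩).eventually (lt_mem_nhds (by linarith))).and
      (((cN 0 ⟨le_rfl, ht2.le⟩).eventually (gt_mem_nhds (by linarith))).and
        ((cA 0 ⟨le_rfl, ht2.le⟩).eventually (lt_mem_nhds (by linarith))))
  rw [eventually_nhdsWithin_iff, Metric.eventually_nhds_iff] at hev
  obtain ⟨r, hr, hr'⟩ := hev
  set e2 := min (min (Real.sqrt t2) (Real.sqrt (r / 2))) (A 0 / (20 * Real.pi * N 0)) with he2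
  have he2p : 0 < e2 := lt_min (lt_min (Real.sqrt_pos.2 ht2) (Real.sqrt_pos.2 (by linarith)))
    (by have := Real.pi_pos; positivity)
  have hsmall : ∀ e, 0 < e → e ≤ e2 → e ^ 2 ∈ Icc 0 t2 ∧ N 0 / 2 < N (e ^ 2) ∧
      N (e ^ 2) < 2 * N 0 ∧ A 0 / 2 < A (e ^ 2) := by
    intro e he hle
    have h1 : e ^ 2 ≤ t2 := by
      have := pow_le_pow_left₀ he.le ((hle.trans (min_le_left _ _)).trans (min_le_left _ _)) 2
      rwa [Real.sq_sqrt ht2.le] at this
    have h2 : e ^ 2 ≤ r / 2 := by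
      have := pow_le_pow_left₀ he.le ((hle.trans (min_le_left _ _)).trans (min_le_right _ _)) 2
      rwa [Real.sq_sqrt (by linarith)] at this
    refine ⟨⟨sq_nonneg e, h1⟩, hr' ?_ ⟨sq_nonneg e, h1⟩⟩
    rw [dist_zero_right, Real.norm_eq_abs, abs_of_nonneg (sq_nonneg e)]
    linarith
  obtain ⟨m, hm⟩ := exists_nat_gt (N (e2 ^ 2) / e2 / (2 * Real.pi))
  have hπ := Real.pi_pos
  have hm0 : (0 : ℝ) < m := by
    refine lt_of_le_of_lt ?_ hm
    have : 0 ≤ N (e2 ^ 2) := Real.sqrt_nonneg _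
    positivity
  set e3 := min e2 (N 0 / 2 / (2 * Real.pi * m)) with he3
  have he3p : 0 < e3 := lt_min he2p (by positivity)
  have hg : ContinuousOn (fun e => N (e ^ 2) / e) (Icc e3 e2) :=
    (cN.comp (continuous_pow 2).continuousOn
      fun e he => (hsmall e (he3p.trans_le he.1) he.2).1).div continuousOn_id
      fun e he => (he3p.trans_le he.1).ne'
  have hmem : 2 * Real.pi * m ∈ Icc (N (e2 ^ 2) / e2) (N (e3 ^ 2) / e3) := by
    refine ⟨?_, ?_⟩
    · rw [div_lt_iff₀ (by positivity)] at hm; linarith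
    · rw [le_div_iff₀ he3p]
      have h1 : e3 ≤ N 0 / 2 / (2 * Real.pi * m) := min_le_right _ _
      rw [le_div_iff₀ (by positivity)] at h1
      linarith [(hsmall e3 he3p (min_le_left _ _)).2.1]
  obtain ⟨e, he, hem⟩ := intermediate_value_Icc' (min_le_left _ _) hg hmem
  have hep : 0 < e := he3p.trans_le he.1
  obtain ⟨ht, hNlo, hNhi, hAlo⟩ := hsmall e hep he.2
  set t := e ^ 2
  have hNe : N t = 2 * Real.pi * m * e := by
    have : N t / e = 2 * Real.pi * m := hem
    rw [div_eq_iff hep.ne'] at this; linarith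
  have hNp : 0 < N t := by linarith
  set n1 := (w1 t).1 / N t with hn1
  set n2 := (w1 t).2 / N t with hn2
  have hn : n1 ^ 2 + n2 ^ 2 = 1 := by
    have : N t ^ 2 = (w1 t).1 ^ 2 + (w1 t).2 ^ 2 := Real.sq_sqrt (by positivity)
    rw [hn1, hn2]; field_simp; linarith
  set σ : ℝ := if 0 < det2 (w1 t) (w2 t) then 1 else -1 with hσdef
  have hσ : σ * σ = 1 ∧ σ * det2 (w1 t) (w2 t) = A t := by
    simp only [hσdef, hA]
    split_ifs with h
    · exact ⟨by norm_num, by rw [abs_of_pos h, one_mul]⟩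
    · exact ⟨by norm_num, by rw [abs_of_nonpos (not_lt.1 h), neg_one_mul]⟩
  set R : P2 →L[ℝ] P2 :=
    (e⁻¹ • (n1 • ContinuousLinearMap.fst ℝ ℝ ℝ + n2 • ContinuousLinearMap.snd ℝ ℝ ℝ)).prod
      ((σ * e⁻¹) • (n1 • ContinuousLinearMap.snd ℝ ℝ ℝ - n2 • ContinuousLinearMap.fst ℝ ℝ ℝ))
    with hR
  have hRv : ∀ w : P2, R w = (e⁻¹ * (n1 * w.1 + n2 * w.2), σ * e⁻¹ * (n1 * w.2 - n2 * w.1)) :=
    fun w => by simp [hR, mul_add]
  have hR1 : R (w1 t) = (2 * Real.pi * m, 0) := by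
    rw [hRv]
    have e1 : (w1 t).1 = n1 * N t := by rw [hn1]; field_simp
    have e2 : (w1 t).2 = n2 * N t := by rw [hn2]; field_simp
    rw [e1, e2]
    ext
    · show e⁻¹ * _ = _
      rw [show n1 * (n1 * N t) + n2 * (n2 * N t) = (n1 ^ 2 + n2 ^ 2) * N t by ring, hn, hNe]
      field_simp
    · show σ * e⁻¹ * _ = 0
      ring
  have hl2 : 2 * Real.pi < (R (w2 t)).2 := by
    have e1 : (R (w2 t)).2 = A t / (N t * e) := by
      rw [hRv, ← hσ.2]
      show σ * e⁻¹ * _ = _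
      simp only [det2, hn1, hn2]
      field_simp
    rw [e1, lt_div_iff₀ (by positivity)]
    have h1 : e ≤ A 0 / (20 * Real.pi * N 0) := he.2.trans (min_le_right _ _)
    rw [le_div_iff₀ (by positivity)] at h1
    calc 2 * Real.pi * (N t * e) ≤ 2 * Real.pi * (2 * N 0 * e) := by gcongr
      _ < A t := by linarith
  obtain ⟨H, sH, nH, iH, pH⟩ := hh m (R (w2 t)).1 (R (w2 t)).2 (by exact_mod_cast hm0) hl2
  obtain ⟨sD, pD, iD⟩ := hD t ht
  obtain ⟨aq, az, bq, -, posq, -, -⟩ := hflat t ht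
  set rr : P2 → ℝ := fun y => Real.exp (l y - Real.log (q t y)) with hrr
  have srr : ContDiff ℝ ∞ rr := (hl.sub (aq.log fun y => (posq y).ne')).exp
  refine ⟨fun y => (e * rr y) • H (R (D t y)), (contDiff_const.mul srr).smul
    (sH.comp (R.contDiff.comp sD)), fun y => ?_, fun y v w => ?_⟩
  · constructor
    · show (e * rr (y + v1)) • H (R (D t (y + v1))) = _
      rw [(pD y).1, map_add, hR1, (pH _).1]
      simp [hrr, (hlper y).1, (bq y).1]
    · show (e * rr (y + v2)) • H (R (D t (y + v2))) = _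
      rw [(pD y).2, map_add, (pH _).2]
      simp [hrr, (hlper y).2, (bq y).2]
  · have hH := ((sH.differentiable (by simp)) (R (D t y))).hasFDerivAt
    have hRD := R.hasFDerivAt.comp y ((sD.differentiable (by simp)) y).hasFDerivAt
    have hexp : HasFDerivAt rr (rr y • fderiv ℝ (fun u => l u - Real.log (q t u)) y) y :=
      (((hl.sub (aq.log fun y => (posq y).ne')).differentiable (by simp)) y).hasFDerivAt.exp
    have hF : HasFDerivAt (fun u => (e * rr u) • H (R (D t u))) _ y :=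
      (hexp.const_mul e).smul (hH.comp y hRD)
    have hz' : ∀ u, fderiv ℝ (z t) y u = e * fderiv ℝ (fun u => l u - Real.log (q t u)) y u := by
      intro u
      have hse : Real.sqrt t = e := Real.sqrt_sq hep.le
      show fderiv ℝ (fun u => Real.sqrt t * (l u - Real.log (q t u))) y u = _
      rw [hse, fderiv_const_mul (((hl.sub (aq.log fun y => (posq y).ne')).differentiable (by simp)) y)]
      rfl
    rw [hF.fderiv]
    set dH := fderiv ℝ H (R (D t y))
    set h0 := H (R (D t y)) with hh0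
    have hperp : ∀ a, inner ℝ h0 (dH a) = 0 := by
      intro a
      have := congrArg (fun L : P2 →L[ℝ] ℝ => L a) ((hH.inner ℝ hH).fderiv.symm.trans
        ((congrArg (fun f => fderiv ℝ f (R (D t y)))
          (show (fun u => inner ℝ (H u) (H u)) = fun _ => (1 : ℝ) from funext fun u => by
            rw [real_inner_self_eq_norm_sq, nH, one_pow])).trans (fderiv_const_apply _)))
      simp [fderivInnerCLM_apply, real_inner_comm h0] at this
      rw [← hh0] at this
      have hcomm : inner ℝ (dH a) h0 = inner ℝ h0 (dH a) := real_inner_comm _ _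
      linarith
    have hrot : ∀ a b : P2, (R a).1 * (R b).1 + (R a).2 * (R b).2
        = (a.1 * b.1 + a.2 * b.2) / e ^ 2 := by
      intro a b
      rw [hRv, hRv]
      simp only
      field_simp
      linear_combination ((n1 * a.2 - n2 * a.1) * (n1 * b.2 - n2 * b.1)) * hσ.1
        + (a.1 * b.1 + a.2 * b.2) * hn
    have h11 : inner ℝ h0 h0 = (1 : ℝ) := by rw [real_inner_self_eq_norm_sq, hh0, nH, one_pow]
    simp only [add_apply, ContinuousLinearMap.smul_apply, ContinuousLinearMap.comp_apply,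
      ContinuousLinearMap.smulRight_apply, smul_eq_mul, inner_add_left, inner_add_right,
      real_inner_smul_left, real_inner_smul_right]
    have hperp' : ∀ a, inner ℝ (dH a) h0 = 0 := fun a => by rw [real_inner_comm]; exact hperp a
    have iH' : ∀ a b, inner ℝ (dH a) (dH b) = a.1 * b.1 + a.2 * b.2 := iH _
    simp only [hperp, hperp', h11, iH', hrot, Function.comp_apply]
    have hE' : rr y * q t y = Real.exp (l y) := by
      simp only [hrr]
      rw [Real.exp_sub, Real.exp_log (posq y)]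
      have := (posq y).ne'
      field_simp
    have hEl : Real.exp (l y) * Real.exp (l y) = E y := by
      rw [← Real.exp_add, hldef]
      simp only
      rw [add_halves, Real.exp_log (hEp y)]
    have hid := iD y v w
    rw [hz', hz'] at hid
    rw [← hEl, ← hE']
    field_simp
    linear_combination rr y ^ 2 * hid

end Vale.Agent.P205
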