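import Vale.Agent.P205.Algebra

/-
P205: the Beltrami equation on coefficient families.

The map `c ↦ bT c` (Beurling transform off the zero mode, minus conjugation on it) preserves
every weighted square sum, multiplication by `μ` shrinks the square sum by `sup |μ| ^ 2 < 1`, and
for derivatives the same factor appears up to lower orders: the Neumann series converges
geometrically in every norm.
-/

namespace Vale.Agent.P205.Beltrami

open Vale.Agent.P229 (P2)
open Vale.Agent.P205.Fourier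
open scoped ENNReal
open Finset

/-- The standard periods. -/
abbrev e1 : P2 := (1, 0)

/-- The standard periods. -/
abbrev e2 : P2 := (0, 1)

lemma m1_std (n : Z2) : m1 e1 e2 n = 2 * Real.pi * (n.1 : ℂ) * Complex.I := by
  simp [m1, l1, det2]

lemma m2_std (n : Z2) : m2 e1 e2 n = 2 * Real.pi * (n.2 : ℂ) * Complex.I := by
  simp [m2, l2, det2]

/-- A multiplier. -/
noncomputable def mult (m : Z2 → ℂ) (c : Cf) : Cf := fun n => m n * c n

/-- A derivative-like multiplier. -/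
structure IsDeriv (m : Z2 → ℂ) : Prop where
  add : ∀ a b, m (a + b) = m a + m b
  bd : ∃ C : ℝ≥0∞, C ≠ ⊤ ∧ ∀ n, ‖m n‖ₑ ≤ C * (w n : ℝ≥0∞) ^ 1

lemma norm_m_std (n : Z2) :
    ‖m1 e1 e2 n‖ = 2 * Real.pi * |(n.1 : ℝ)| ∧ ‖m2 e1 e2 n‖ = 2 * Real.pi * |(n.2 : ℝ)| := by
  rw [m1_std, m2_std]
  simp [Real.pi_pos.le]

lemma w_cast (n : Z2) : ((w n : ℕ) : ℝ) = 1 + |(n.1 : ℝ)| + |(n.2 : ℝ)| := by
  have h : ∀ a : ℤ, ((a.natAbs : ℕ) : ℝ) = |(a : ℝ)| := fun a => by
    rw [Nat.cast_natAbs, Int.cast_abs]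
  simp [w, h]

lemma w_eq_ofReal (n : Z2) : (w n : ℝ≥0∞) = ENNReal.ofReal (w n : ℝ) :=
  (ENNReal.ofReal_natCast _).symm

lemma isDeriv_m1 : IsDeriv (m1 e1 e2) := by
  refine ⟨fun a b => by simp only [m1_std, Prod.fst_add, Int.cast_add]; ring,
    ENNReal.ofReal (2 * Real.pi), ENNReal.ofReal_ne_top, fun n => ?_⟩
  rw [pow_one, w_eq_ofReal, ← ENNReal.ofReal_mul (by positivity), ← ofReal_norm,
    (norm_m_std n).1, w_cast]
  refine ENNReal.ofReal_le_ofReal (mul_le_mul_of_nonneg_left ?_ (by positivity))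
  linarith [abs_nonneg (n.2 : ℝ)]

lemma isDeriv_m2 : IsDeriv (m2 e1 e2) := by
  refine ⟨fun a b => by simp only [m2_std, Prod.snd_add, Int.cast_add]; ring,
    ENNReal.ofReal (2 * Real.pi), ENNReal.ofReal_ne_top, fun n => ?_⟩
  rw [pow_one, w_eq_ofReal, ← ENNReal.ofReal_mul (by positivity), ← ofReal_norm,
    (norm_m_std n).2, w_cast]
  refine ENNReal.ofReal_le_ofReal (mul_le_mul_of_nonneg_left ?_ (by positivity))
  linarith [abs_nonneg (n.1 : ℝ)]

lemma rapid_mult {m : Z2 → ℂ} (hm : IsDeriv m) {c : Cf} (hc : Rapid c) : Rapid (mult m c) := by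
  obtain ⟨C, hC, hb⟩ := hm.bd
  exact fun k => ne_top_of_le_ne_top (ENNReal.mul_ne_top hC (hc (k + 1))) (N_mult_le k 1 hb c)

lemma rapid_conv {c d : Cf} (hc : Rapid c) (hd : Rapid d) : Rapid (conv c d) := fun k =>
  ne_top_of_le_ne_top (ENNReal.sum_ne_top.2 fun _ _ => ENNReal.mul_ne_top (ENNReal.natCast_ne_top _)
    (ENNReal.mul_ne_top (hc _) (hd _))) (N_conv_le k c d)

/-- The Beurling transform, with minus conjugation on the mean. -/
noncomputable def bT (c : Cf) : Cf := fun n =>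
  if n = 0 then -(starRingEnd ℂ (c n))
  else ((n.1 : ℂ) - (n.2 : ℂ) * Complex.I) / ((n.1 : ℂ) + (n.2 : ℂ) * Complex.I) * c n

lemma norm_bT (c : Cf) (n : Z2) : ‖bT c n‖ = ‖c n‖ := by
  unfold bT
  split_ifs with h
  · simp
  · have hne : (n.1 : ℂ) + (n.2 : ℂ) * Complex.I ≠ 0 := by
      intro h0
      have h1 := congrArg Complex.re h0
      have h2 := congrArg Complex.im h0
      simp at h1 h2
      exact h (Prod.ext h1 h2)
    have e : ((n.1 : ℂ) - (n.2 : ℂ) * Complex.I)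
        = starRingEnd ℂ ((n.1 : ℂ) + (n.2 : ℂ) * Complex.I) := by simp; ring
    rw [norm_mul, norm_div, e, RCLike.norm_conj, div_self (norm_ne_zero_iff.2 hne), one_mul]

lemma enorm_bT (c : Cf) (n : Z2) : ‖bT c n‖ₑ = ‖c n‖ₑ := by
  rw [← ofReal_norm, ← ofReal_norm, norm_bT]

lemma N_bT (k : ℕ) (c : Cf) : N k (bT c) = N k c := by simp only [N, enorm_bT]

lemma rapid_bT {c : Cf} (hc : Rapid c) : Rapid (bT c) := fun k => by rw [N_bT]; exact hc k

/-- The square sum of a weighted family. -/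
noncomputable def Q (m : Z2 → ℂ) (j : ℕ) (c : Cf) : ℝ≥0∞ := ∑' n, ‖m n ^ j * c n‖ₑ ^ 2

/-- The square sum. -/
noncomputable def L2 (c : Cf) : ℝ≥0∞ := ∑' n, ‖c n‖ₑ ^ 2

lemma Q_zero (m : Z2 → ℂ) (c : Cf) : Q m 0 c = L2 c := by simp [Q, L2]

lemma Q_bT (m : Z2 → ℂ) (j : ℕ) (c : Cf) : Q m j (bT c) = Q m j c := by
  simp only [Q, enorm_mul, enorm_bT]

lemma Q_mult (m : Z2 → ℂ) (j : ℕ) (c : Cf) : Q m j (mult m c) = Q m (j + 1) c := by
  simp only [Q, mult, ← mul_assoc, ← pow_succ]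

lemma Q_add_le (m : Z2 → ℂ) (j : ℕ) {δ : ℝ} (hδ : 0 < δ) (a b : Cf) :
    Q m j (a + b) ≤ ENNReal.ofReal (1 + δ) * Q m j a + ENNReal.ofReal (1 + δ⁻¹) * Q m j b := by
  simp only [Q, ← ENNReal.tsum_mul_left, ← ENNReal.tsum_add]
  refine ENNReal.tsum_le_tsum fun n => ?_
  simp only [Pi.add_apply, mul_add, ← ofReal_norm, ← ENNReal.ofReal_pow (norm_nonneg _)]
  rw [← ENNReal.ofReal_mul (by positivity), ← ENNReal.ofReal_mul (by positivity),
    ← ENNReal.ofReal_add (by positivity) (by positivity)]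
  refine ENNReal.ofReal_le_ofReal ?_
  set A := ‖m n ^ j * a n‖
  set B := ‖m n ^ j * b n‖
  have h : ‖m n ^ j * a n + m n ^ j * b n‖ ≤ A + B := norm_add_le _ _
  refine (pow_le_pow_left₀ (norm_nonneg _) h 2).trans ?_
  have : 0 ≤ (δ * A - B) ^ 2 / δ := by positivity
  have e : (1 + δ) * A ^ 2 + (1 + δ⁻¹) * B ^ 2 - (A + B) ^ 2 = (δ * A - B) ^ 2 / δ := by
    field_simp; ring
  linarith

lemma mult_conv {m : Z2 → ℂ} (hm : IsDeriv m) {c d : Cf} (hc : Rapid c) (hd : Rapid d) :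
    mult m (conv c d) = conv c (mult m d) + conv (mult m c) d := by
  funext n
  simp only [mult, conv, Pi.add_apply]
  have h1 := summable_conv (hc 0) (rapid_mult hm hd 0) n
  have h2 := summable_conv (rapid_mult hm hc 0) (hd 0) n
  simp only [mult] at h1 h2
  rw [← tsum_mul_left, ← h1.tsum_add h2]
  refine tsum_congr fun i => ?_
  conv_lhs => rw [show n = i + (n - i) by abel, hm.add, add_sub_cancel]
  ring

/-- The square sum operator bound of a multiplication. -/
def OpBound (μ : Cf) (θ : ℝ≥0∞) : Prop := ∀ u, Rapid u → L2 (conv μ u) ≤ θ * L2 u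

/-- Multiplication keeps its operator bound on derivatives up to lower orders. -/
lemma leibniz_bound {m : Z2 → ℂ} (hm : IsDeriv m)
    (hop : ∀ μ, Rapid μ → ∃ θ, θ ≠ ⊤ ∧ OpBound μ θ) :
    ∀ (j : ℕ) (μ : Cf), Rapid μ → ∀ θ, OpBound μ θ → ∀ δ : ℝ, 0 < δ → δ ≤ 1 →
      ∃ C : ℝ≥0∞, C ≠ ⊤ ∧ ∀ u, Rapid u → Q m j (conv μ u) ≤
        ENNReal.ofReal (1 + δ) * θ * Q m j u + C * ∑ i ∈ range j, Q m i u := by
  intro j
  induction j with
  | zero =>
    intro μ _ θ h δ hδ _
    refine ⟨0, ENNReal.zero_ne_top, fun u hu => ?_⟩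
    simp only [Q_zero, Finset.range_zero, Finset.sum_empty, mul_zero, add_zero, mul_assoc]
    exact (h u hu).trans (le_mul_of_one_le_left' (ENNReal.one_le_ofReal.2 (by linarith)))
  | succ j ih =>
    intro μ hμ θ h δ hδ hδ1
    have hμ' : Rapid (mult m μ) := rapid_mult hm hμ
    obtain ⟨θ', hθ', h'⟩ := hop _ hμ'
    obtain ⟨C1, hC1, b1⟩ := ih μ hμ θ h (δ / 3) (by positivity) (by linarith)
    obtain ⟨C2, hC2, b2⟩ := ih _ hμ' θ' h' 1 one_pos le_rfl
    refine ⟨ENNReal.ofReal (1 + δ / 3) * C1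
      + ENNReal.ofReal (1 + (δ / 3)⁻¹) * (ENNReal.ofReal (1 + 1) * θ' + C2), by finiteness, ?_⟩
    intro u hu
    have hu' : Rapid (mult m u) := rapid_mult hm hu
    rw [← Q_mult, mult_conv hm hμ hu]
    refine (Q_add_le m j (by positivity : (0:ℝ) < δ / 3) _ _).trans ?_
    refine (add_le_add (mul_le_mul' le_rfl (b1 _ hu')) (mul_le_mul' le_rfl (b2 _ hu))).trans ?_
    simp only [Q_mult]
    set S := ∑ i ∈ range (j + 1), Q m i u
    have s1 : ∑ i ∈ range j, Q m (i + 1) u ≤ S := by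
      simp only [S, Finset.sum_range_succ']
      exact le_self_add
    have s2 : Q m j u ≤ S := Finset.single_le_sum (f := fun i => Q m i u) (fun _ _ => zero_le)
      (Finset.self_mem_range_succ j)
    have s3 : ∑ i ∈ range j, Q m i u ≤ S := by
      simp only [S, Finset.sum_range_succ]
      exact le_self_add
    have hδδ : ENNReal.ofReal (1 + δ / 3) * ENNReal.ofReal (1 + δ / 3)
        ≤ ENNReal.ofReal (1 + δ) := by
      rw [← ENNReal.ofReal_mul (by positivity)]
      exact ENNReal.ofReal_le_ofReal (by nlinarith)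
    calc _ ≤ ENNReal.ofReal (1 + δ / 3) * (ENNReal.ofReal (1 + δ / 3) * θ * Q m (j + 1) u + C1 * S)
          + ENNReal.ofReal (1 + (δ / 3)⁻¹) * (ENNReal.ofReal (1 + 1) * θ' * S + C2 * S) :=
            add_le_add (mul_le_mul' le_rfl (add_le_add le_rfl (mul_le_mul' le_rfl s1)))
              (mul_le_mul' le_rfl
                (add_le_add (mul_le_mul' le_rfl s2) (mul_le_mul' le_rfl s3)))
      _ = ENNReal.ofReal (1 + δ / 3) * ENNReal.ofReal (1 + δ / 3) * θ * Q m (j + 1) u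
          + (ENNReal.ofReal (1 + δ / 3) * C1
            + ENNReal.ofReal (1 + (δ / 3)⁻¹) * (ENNReal.ofReal (1 + 1) * θ' + C2)) * S := by ring
      _ ≤ _ := by gcongr

/-- The terms of the Neumann series. -/
noncomputable def term (μ g : Cf) : ℕ → Cf
  | 0 => g
  | i + 1 => conv μ (bT (term μ g i))

lemma rapid_term {μ g : Cf} (hμ : Rapid μ) (hg : Rapid g) : ∀ i, Rapid (term μ g i)
  | 0 => hg
  | i + 1 => rapid_conv hμ (rapid_bT (rapid_term hμ hg i))

lemma Q_ne_top {m : Z2 → ℂ} (hm : IsDeriv m) {c : Cf} (hc : Rapid c) : ∀ j, Q m j c ≠ ⊤ := by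
  intro j
  induction j generalizing c with
  | zero =>
    rw [Q_zero]
    refine ne_top_of_le_ne_top (ENNReal.mul_ne_top (hc 0) (hc 0)) ?_
    calc L2 c ≤ ∑' n, N 0 c * ‖c n‖ₑ := ENNReal.tsum_le_tsum fun n => by
          rw [sq]; exact mul_le_mul' (enorm_le_N 0 c n) le_rfl
      _ = _ := by rw [ENNReal.tsum_mul_left, ← N_zero_eq]
  | succ j ih =>
    rw [← Q_mult]
    exact ih (rapid_mult hm hc)

/-- Geometric decay in every order. -/
lemma term_decay {m : Z2 → ℂ} (hm : IsDeriv m)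
    (hop : ∀ μ, Rapid μ → ∃ θ, θ ≠ ⊤ ∧ OpBound μ θ) {μ g : Cf} (hμ : Rapid μ) (hg : Rapid g)
    {θ r : ℝ} (hθ : 0 ≤ θ) (hθr : θ < r) (h : OpBound μ (ENNReal.ofReal θ)) :
    ∀ j, ∃ K : ℝ≥0∞, K ≠ ⊤ ∧ ∀ i, Q m j (term μ g i) ≤ K * ENNReal.ofReal r ^ i := by
  intro j
  induction j using Nat.strong_induction_on with
  | _ j ih =>
    choose! K hK hdec using ih
    obtain ⟨δ, hδ, hδ1, hq⟩ : ∃ δ : ℝ, 0 < δ ∧ δ ≤ 1 ∧ (1 + δ) * θ < r := by
      refine ⟨min 1 ((r - θ) / (2 * (θ + 1))), lt_min one_pos (by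
        exact div_pos (by linarith) (by linarith)), min_le_left _ _, ?_⟩
      have h1 : min 1 ((r - θ) / (2 * (θ + 1))) ≤ (r - θ) / (2 * (θ + 1)) := min_le_right _ _
      rw [le_div_iff₀ (by linarith : (0:ℝ) < 2 * (θ + 1))] at h1
      have h0 : 0 ≤ min 1 ((r - θ) / (2 * (θ + 1))) :=
        le_min zero_le_one (div_nonneg (by linarith) (by linarith))
      nlinarith
    obtain ⟨C, hC, hb⟩ := leibniz_bound hm hop j μ hμ _ h δ hδ hδ1
    set R := ENNReal.ofReal r with hR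
    set q := ENNReal.ofReal (1 + δ) * ENNReal.ofReal θ with hq'
    have hqR : q < R := by
      rw [hq', ← ENNReal.ofReal_mul (by positivity)]
      exact (ENNReal.ofReal_lt_ofReal_iff (lt_of_le_of_lt hθ hθr)).2 hq
    have hne : R - q ≠ 0 := (tsub_pos_iff_lt.2 hqR).ne'
    have hnt : R - q ≠ ⊤ := ne_top_of_le_ne_top ENNReal.ofReal_ne_top tsub_le_self
    set S := ∑ i ∈ range j, K i
    have hS : S ≠ ⊤ := ENNReal.sum_ne_top.2 fun i hi => hK i (Finset.mem_range.1 hi)
    refine ⟨max (Q m j g) (C * S / (R - q)),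
      (max_lt (Q_ne_top hm hg j).lt_top (ENNReal.div_ne_top (ENNReal.mul_ne_top hC hS) hne).lt_top).ne, ?_⟩
    set M := max (Q m j g) (C * S / (R - q))
    intro i
    induction i with
    | zero => simp only [term, pow_zero, mul_one, M]; exact le_max_left _ _
    | succ i hi =>
      have hM : C * S ≤ M * (R - q) := by
        rw [← ENNReal.div_le_iff hne hnt]
        exact le_max_right _ _
      calc Q m j (term μ g (i + 1))
          ≤ q * Q m j (term μ g i) + C * ∑ l ∈ range j, Q m l (term μ g i) := by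
            refine (hb _ (rapid_bT (rapid_term hμ hg i))).trans ?_
            simp only [Q_bT, hq', le_refl]
        _ ≤ q * (M * R ^ i) + C * ∑ l ∈ range j, K l * R ^ i := by
            gcongr with l hl
            exact hdec l (Finset.mem_range.1 hl) i
        _ = (M * q + C * S) * R ^ i := by rw [← Finset.sum_mul]; ring
        _ ≤ (M * q + M * (R - q)) * R ^ i := by gcongr
        _ = M * R ^ (i + 1) := by
            rw [← mul_add, add_tsub_cancel_of_le hqR.le, pow_succ]; ring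

/-- The series of `w ^ (-6)`. -/
noncomputable def Zw : ℝ≥0∞ := ∑' n : Z2, ((w n : ℝ≥0∞)⁻¹) ^ 6

lemma Zw_ne_top : Zw ≠ ⊤ := by
  have h1 : Summable fun a : ℤ => (((1 : ℝ) + |(a : ℝ)|)⁻¹) ^ 3 := by
    refine Summable.of_norm_bounded_eventually
      (Real.summable_one_div_int_pow.2 (show 1 < 4 - 1 by norm_num)).abs ?_
    filter_upwards [(Set.finite_singleton (0 : ℤ)).compl_mem_cofinite] with a ha
    have ha' : (a : ℝ) ≠ 0 := by simpa using ha
    have hp : 0 < |(a : ℝ)| := abs_pos.2 ha'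
    rw [Real.norm_of_nonneg (by positivity), inv_pow, one_div, abs_inv, abs_pow]
    gcongr
    linarith
  have h2 := h1.mul_of_nonneg h1 (fun a => by positivity) fun a => by positivity
  have h3 : Summable fun n : Z2 => (((w n : ℝ))⁻¹) ^ 6 := by
    refine Summable.of_nonneg_of_le (fun n => by positivity) (fun n => ?_) h2
    rw [w_cast, inv_pow, inv_pow, inv_pow, ← mul_inv]
    gcongr
    calc (1 + |(n.1 : ℝ)|) ^ 3 * (1 + |(n.2 : ℝ)|) ^ 3
        ≤ (1 + |(n.1 : ℝ)| + |(n.2 : ℝ)|) ^ 3 * (1 + |(n.1 : ℝ)| + |(n.2 : ℝ)|) ^ 3 := by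
          have q1 := abs_nonneg (n.1 : ℝ)
          have q2 := abs_nonneg (n.2 : ℝ)
          exact mul_le_mul (pow_le_pow_left₀ (by linarith) (by linarith) 3)
            (pow_le_pow_left₀ (by linarith) (by linarith) 3) (by positivity) (by positivity)
      _ = _ := by ring
  have e : Zw = ENNReal.ofReal (∑' n : Z2, (((w n : ℝ))⁻¹) ^ 6) := by
    rw [ENNReal.ofReal_tsum_of_nonneg (fun n => by positivity) h3, Zw]
    refine tsum_congr fun n => ?_
    have : (0 : ℝ) < w n := by exact_mod_cast one_le_w n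
    rw [ENNReal.ofReal_pow (by positivity), ENNReal.ofReal_inv_of_pos this, ENNReal.ofReal_natCast]
  rw [e]
  exact ENNReal.ofReal_ne_top

/-- Weighted sums are controlled by square sums of derivatives. -/
lemma N_le_Q (k : ℕ) {s : ℝ} (hs : 0 < s) (c : Cf) :
    N k c ≤ ENNReal.ofReal (s * 9 ^ (k + 3)) * (L2 c + Q (m1 e1 e2) (k + 3) c
        + Q (m2 e1 e2) (k + 3) c) + ENNReal.ofReal s⁻¹ * Zw := by
  simp only [N, L2, Q, Zw, ← ENNReal.tsum_add, ← ENNReal.tsum_mul_left]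
  refine ENNReal.tsum_le_tsum fun n => ?_
  have hw : (0 : ℝ) < w n := by exact_mod_cast one_le_w n
  rw [w_eq_ofReal, ← ENNReal.ofReal_inv_of_pos hw, ← ofReal_norm, ← ofReal_norm, ← ofReal_norm,
    ← ENNReal.ofReal_pow (norm_nonneg _), ← ENNReal.ofReal_pow (norm_nonneg _),
    ← ENNReal.ofReal_pow (norm_nonneg _), ← ENNReal.ofReal_pow hw.le,
    ← ENNReal.ofReal_pow (inv_nonneg.2 hw.le), ← ENNReal.ofReal_mul (pow_nonneg hw.le _),
    ← ENNReal.ofReal_add (by positivity) (by positivity),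
    ← ENNReal.ofReal_add (by positivity) (by positivity),
    ← ENNReal.ofReal_mul (by positivity), ← ENNReal.ofReal_mul (by positivity),
    ← ENNReal.ofReal_add (by positivity) (by positivity)]
  refine ENNReal.ofReal_le_ofReal ?_
  simp only [norm_mul, norm_pow, mul_pow, ← pow_mul, (norm_m_std n).1, (norm_m_std n).2]
  set p := k + 3
  set W := (w n : ℝ) with hW
  set a := |(n.1 : ℝ)| with ha
  set b := |(n.2 : ℝ)| with hb
  set x := ‖c n‖
  have hWe : W = 1 + a + b := w_cast n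
  have hp : (W ^ 2) ^ p ≤ 9 ^ p * (1 + (2 * Real.pi * a) ^ (p * 2) + (2 * Real.pi * b) ^ (p * 2)) := by
    set M := max 1 (max (2 * Real.pi * a) (2 * Real.pi * b))
    have ha0 : 0 ≤ a := abs_nonneg _
    have hb0 : 0 ≤ b := abs_nonneg _
    have h1 : W ≤ 3 * M := by
      have q1 : a ≤ 2 * Real.pi * a := le_mul_of_one_le_left ha0 (by linarith [Real.two_le_pi])
      have q2 : b ≤ 2 * Real.pi * b := le_mul_of_one_le_left hb0 (by linarith [Real.two_le_pi])
      have m1 := le_max_left (1 : ℝ) (max (2 * Real.pi * a) (2 * Real.pi * b))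
      have m2 := (le_max_left (2 * Real.pi * a) (2 * Real.pi * b)).trans (le_max_right (1:ℝ) _)
      have m3 := (le_max_right (2 * Real.pi * a) (2 * Real.pi * b)).trans (le_max_right (1:ℝ) _)
      linarith
    calc (W ^ 2) ^ p ≤ ((3 * M) ^ 2) ^ p := by
          gcongr
      _ = 9 ^ p * M ^ (p * 2) := by rw [← pow_mul, mul_pow, mul_comm 2 p]; congr 1; rw [mul_comm, pow_mul]; norm_num
      _ ≤ _ := by
          refine mul_le_mul_of_nonneg_left ?_ (by positivity)
          have z1 : 0 ≤ (2 * Real.pi * a) ^ (p * 2) := by positivity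
          have z2 : 0 ≤ (2 * Real.pi * b) ^ (p * 2) := by positivity
          rcases max_choice (1:ℝ) (max (2 * Real.pi * a) (2 * Real.pi * b)) with h | h <;>
            simp only [M, h]
          · rw [one_pow]; linarith
          · rcases max_choice (2 * Real.pi * a) (2 * Real.pi * b) with h' | h' <;> rw [h'] <;>
              linarith
  have hW0 : W ≠ 0 := hw.ne'
  have am : W ^ k * x ≤ s * ((W ^ 2) ^ p * x ^ 2) + s⁻¹ * W⁻¹ ^ 6 := by
    have e : W ^ k * x = (W ^ p * x) * W⁻¹ ^ 3 := by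
      simp only [p, pow_add, inv_pow]
      field_simp
    have e2 : (W ^ 2) ^ p * x ^ 2 = (W ^ p * x) ^ 2 := by ring
    have e3 : W⁻¹ ^ 6 = (W⁻¹ ^ 3) ^ 2 := by ring
    rw [e, e2, e3]
    set A := W ^ p * x
    set B := W⁻¹ ^ 3
    have hA : 0 ≤ A := by positivity
    have hB : 0 ≤ B := by positivity
    have h0 : 0 ≤ (s * A - B) ^ 2 / s := by positivity
    have e4 : s * A ^ 2 + s⁻¹ * B ^ 2 - 2 * (A * B) = (s * A - B) ^ 2 / s := by field_simp; ring
    nlinarith
  refine am.trans (add_le_add ?_ le_rfl)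
  calc s * ((W ^ 2) ^ p * x ^ 2)
      ≤ s * (9 ^ p * (1 + (2 * Real.pi * a) ^ (p * 2) + (2 * Real.pi * b) ^ (p * 2)) * x ^ 2) := by
        gcongr
    _ = _ := by ring

/-- The solution of `W = g + μ (bT W)`. -/
theorem exists_solution (hop : ∀ μ, Rapid μ → ∃ θ, θ ≠ ⊤ ∧ OpBound μ θ) {μ g : Cf}
    (hμ : Rapid μ) (hg : Rapid g) {θ : ℝ} (hθ : 0 ≤ θ) (hθ1 : θ < 1)
    (h : OpBound μ (ENNReal.ofReal θ)) :
    ∃ W, Rapid W ∧ ∀ n, W n = g n + conv μ (bT W) n := by
  set r := (θ + 1) / 2 with hr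
  have hr0 : 0 < r := by rw [hr]; linarith
  have hr1 : r < 1 := by rw [hr]; linarith
  have hθr : θ < r := by rw [hr]; linarith
  set d := term μ g with hd
  set ρ := Real.sqrt r with hρ
  have hρ0 : 0 < ρ := Real.sqrt_pos.2 hr0
  have hρ1 : ρ < 1 := by rw [hρ, Real.sqrt_lt' one_pos]; linarith
  have hsum : ∀ k, ∑' i, N k (d i) ≠ ⊤ := by
    intro k
    obtain ⟨K0, hK0, b0⟩ := term_decay isDeriv_m1 hop hμ hg hθ hθr h 0
    obtain ⟨K1, hK1, b1⟩ := term_decay isDeriv_m1 hop hμ hg hθ hθr h (k + 3)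
    obtain ⟨K2, hK2, b2⟩ := term_decay isDeriv_m2 hop hμ hg hθ hθr h (k + 3)
    set B := ENNReal.ofReal (9 ^ (k + 3)) * (K0 + K1 + K2) + Zw with hB
    have hBt : B ≠ ⊤ := by have := Zw_ne_top; finiteness
    have hb : ∀ i, N k (d i) ≤ B * ENNReal.ofReal ρ ^ i := by
      intro i
      refine (N_le_Q k (s := (ρ ^ i)⁻¹) (by positivity) (d i)).trans ?_
      rw [inv_inv, ENNReal.ofReal_mul (by positivity), hB, add_mul, ← ENNReal.ofReal_pow hρ0.le]
      refine add_le_add ?_ (le_of_eq (mul_comm _ _))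
      have h0 := b0 i
      rw [Q_zero] at h0
      calc ENNReal.ofReal ((ρ ^ i)⁻¹) * ENNReal.ofReal (9 ^ (k + 3))
            * (L2 (d i) + Q (m1 e1 e2) (k + 3) (d i) + Q (m2 e1 e2) (k + 3) (d i))
          ≤ ENNReal.ofReal ((ρ ^ i)⁻¹) * ENNReal.ofReal (9 ^ (k + 3))
            * (K0 * ENNReal.ofReal r ^ i + K1 * ENNReal.ofReal r ^ i
              + K2 * ENNReal.ofReal r ^ i) := by
            gcongr
            exacts [b1 i, b2 i]
        _ = ENNReal.ofReal (9 ^ (k + 3)) * (K0 + K1 + K2)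
            * (ENNReal.ofReal ((ρ ^ i)⁻¹) * ENNReal.ofReal r ^ i) := by ring
        _ = _ := by
            rw [← ENNReal.ofReal_pow hr0.le, ← ENNReal.ofReal_mul (by positivity)]
            congr 2
            rw [show r = ρ * ρ from (Real.mul_self_sqrt hr0.le).symm, mul_pow]
            field_simp
    refine ne_top_of_le_ne_top ?_ (ENNReal.tsum_le_tsum hb)
    rw [ENNReal.tsum_mul_left, ENNReal.tsum_geometric]
    refine ENNReal.mul_ne_top hBt (ENNReal.inv_ne_top.2 (tsub_pos_iff_lt.2 ?_).ne')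
    exact ENNReal.ofReal_lt_one.2 hρ1
  have hnorm : Summable fun i => (N 0 (d i)).toReal := ENNReal.summable_toReal (hsum 0)
  have hbd : ∀ i n, ‖d i n‖ ≤ (N 0 (d i)).toReal := fun i n => by
    rw [← toReal_enorm]
    exact ENNReal.toReal_mono (rapid_term hμ hg i 0) (enorm_le_N 0 _ n)
  have hdn : ∀ n, Summable fun i => d i n := fun n =>
    Summable.of_norm_bounded hnorm fun i => hbd i n
  refine ⟨fun n => ∑' i, d i n, fun k => ?_, fun n => ?_⟩
  · refine ne_top_of_le_ne_top (hsum k) ?_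
    simp only [N]
    refine le_trans (ENNReal.tsum_le_tsum fun n => mul_le_mul' le_rfl enorm_tsum_le_tsum_enorm) ?_
    simp only [← ENNReal.tsum_mul_left]
    rw [ENNReal.tsum_comm]
  · have hT : ∀ m, bT (fun n => ∑' i, d i n) m = ∑' i, bT (d i) m := by
      intro m
      unfold bT
      split_ifs
      · rw [Complex.conj_tsum, tsum_neg]
      · rw [tsum_mul_left]
    have hu : Summable (Function.uncurry fun i m => μ m * bT (d i) (n - m)) := by
      refine Summable.of_norm_bounded (hnorm.mul_of_nonneg (summable_norm_of_N (hμ 0))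
        (fun i => ENNReal.toReal_nonneg) fun m => norm_nonneg _) fun p => ?_
      simp only [Function.uncurry, norm_mul, norm_bT]
      rw [mul_comm]
      exact mul_le_mul_of_nonneg_right (hbd _ _) (norm_nonneg _)
    dsimp only
    rw [(hdn n).tsum_eq_zero_add]
    congr 1
    simp only [hd, term, conv]
    rw [Summable.tsum_comm hu |> fun h => h.symm]
    refine tsum_congr fun m => ?_
    rw [hT, tsum_mul_left]

end Vale.Agent.P205.Beltrami
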