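import Vale.Agent.P205.Defs

/-
P205: the flatness equation is the closedness of the connection form of `q ^ 2 I - dz ^ 2`.
-/

namespace Vale.Agent.P205

open Vale.Agent.P229
open MeasureTheory
open scoped ContDiff

section Rules

variable {f g : P2 → ℝ} {z v : P2}

lemma dv_div (hf : DifferentiableAt ℝ f z) (hg : DifferentiableAt ℝ g z) (h0 : g z ≠ 0) :
    fderiv ℝ (fun u => f u / g u) z v
      = (fderiv ℝ f z v * g z - f z * fderiv ℝ g z v) / g z ^ 2 := by
  have h := hf.hasFDerivAt.fun_mul ((hasFDerivAt_inv h0).comp z hg.hasFDerivAt)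
  simp only [Function.comp_apply] at h
  simp only [div_eq_mul_inv]
  rw [h.fderiv]
  simp
  field_simp
  ring

lemma dv_sqrt (hf : DifferentiableAt ℝ f z) (h0 : f z ≠ 0) :
    fderiv ℝ (fun u => Real.sqrt (f u)) z v = fderiv ℝ f z v / (2 * Real.sqrt (f z)) := by
  rw [(hf.hasFDerivAt.sqrt h0).fderiv]
  simp
  ring

lemma dv_log (hf : DifferentiableAt ℝ f z) (h0 : f z ≠ 0) :
    fderiv ℝ (fun u => Real.log (f u)) z v = fderiv ℝ f z v / f z := by
  rw [(hf.hasFDerivAt.log h0).fderiv]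
  simp
  ring

lemma dv_mul (hf : DifferentiableAt ℝ f z) (hg : DifferentiableAt ℝ g z) :
    fderiv ℝ (fun u => f u * g u) z v = fderiv ℝ f z v * g z + f z * fderiv ℝ g z v := by
  rw [fderiv_fun_mul hf hg]
  simp
  ring

lemma dv_const_mul (hf : DifferentiableAt ℝ f z) (a : ℝ) :
    fderiv ℝ (fun u => a * f u) z v = a * fderiv ℝ f z v := by
  rw [fderiv_const_mul hf]; rfl

lemma dv_sub (hf : DifferentiableAt ℝ f z) (hg : DifferentiableAt ℝ g z) :
    fderiv ℝ (fun u => f u - g u) z v = fderiv ℝ f z v - fderiv ℝ g z v := by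
  rw [fderiv_fun_sub hf hg]; rfl

lemma dv_add (hf : DifferentiableAt ℝ f z) (hg : DifferentiableAt ℝ g z) :
    fderiv ℝ (fun u => f u + g u) z v = fderiv ℝ f z v + fderiv ℝ g z v := by
  rw [fderiv_fun_add hf hg]; rfl

lemma dv_neg : fderiv ℝ (fun u => -f u) z v = -fderiv ℝ f z v := by
  rw [fderiv_fun_neg]; rfl

lemma dd_div (hf : DifferentiableAt ℝ f z) (hg : DifferentiableAt ℝ g z) (h0 : g z ≠ 0) :
    DifferentiableAt ℝ (fun u => f u / g u) z := by
  simp only [div_eq_mul_inv]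
  exact hf.fun_mul (hg.inv h0)

end Rules

/-- The algebra of `d omega` in terms of the jets of `log q` and `dz / q`. -/
lemma curv_alg (q qx qy qxx qyy P Q Px Py Qx Qy Pxy Qxy Pyx Qyx c cx cy : ℝ) (hq : q ≠ 0)
    (hc : c ≠ 0) (hc1 : 1 + c ≠ 0) (hc2 : P ^ 2 + Q ^ 2 = (1 - c) * (1 + c))
    (hPs : Pyx = Pxy) (hQs : Qyx = Qxy)
    (hcx : cx = -(P * Px + Q * Qx) / c) (hcy : cy = -(P * Py + Q * Qy) / c) :
    (((qxx * q - qx * qx) / q ^ 2 + ((Px * Qy + P * Qyx - (Qx * Py + Q * Pyx)) * (1 + c)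
          - (P * Qy - Q * Py) * cx) / (1 + c) ^ 2) * c - (qx / q + (P * Qy - Q * Py) / (1 + c)) * cx)
        / c ^ 2
      - (((-qyy * q - -qy * qy) / q ^ 2 + ((Py * Qx + P * Qxy - (Qy * Px + Q * Pxy)) * (1 + c)
          - (P * Qx - Q * Px) * cy) / (1 + c) ^ 2) * c
          - (-qy / q + (P * Qx - Q * Px) / (1 + c)) * cy) / c ^ 2
      = (c ^ 2 * ((q * (qxx + qyy) - (qx ^ 2 + qy ^ 2)) / q ^ 2)
          + (qx * (P * Px + Q * Qx) + qy * (P * Py + Q * Qy)) / q
          + (Px * Qy - Py * Qx)) / c ^ 3 := by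
  subst hPs hQs hcx hcy
  have key : 2 / (c * (1 + c)) + (1 + 2 * c) * (P ^ 2 + Q ^ 2) / (c ^ 3 * (1 + c) ^ 2)
      = 1 / c ^ 3 := by
    rw [hc2]; field_simp; ring
  calc _ = (c ^ 2 * ((q * (qxx + qyy) - (qx ^ 2 + qy ^ 2)) / q ^ 2)
          + (qx * (P * Px + Q * Qx) + qy * (P * Py + Q * Qy)) / q) / c ^ 3
          + (Px * Qy - Py * Qx)
            * (2 / (c * (1 + c)) + (1 + 2 * c) * (P ^ 2 + Q ^ 2) / (c ^ 3 * (1 + c) ^ 2)) := by
        field_simp; ring
    _ = _ := by rw [key]; ring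

/-- The curvature numerator is the flatness polynomial. -/
lemma flat_alg (e q qx qy qxx qxy qyy b1 b2 b11 b12 b22 P Q Px Py Qx Qy c : ℝ) (hq : q ≠ 0)
    (hc2 : c ^ 2 = 1 - (P ^ 2 + Q ^ 2))
    (hP : P = e * (q * b1 - qx) / q ^ 2) (hQ : Q = e * (q * b2 - qy) / q ^ 2)
    (hPx : Px = (e * (b11 - (qxx * q - qx * qx) / q ^ 2) * q - e * (b1 - qx / q) * qx) / q ^ 2)
    (hPy : Py = (e * (b12 - (qxy * q - qx * qy) / q ^ 2) * q - e * (b1 - qx / q) * qy) / q ^ 2)
    (hQx : Qx = (e * (b12 - (qxy * q - qy * qx) / q ^ 2) * q - e * (b2 - qy / q) * qx) / q ^ 2)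
    (hQy : Qy = (e * (b22 - (qyy * q - qy * qy) / q ^ 2) * q - e * (b2 - qy / q) * qy) / q ^ 2) :
    (q ^ 4 - e ^ 2 * ((q * b1 - qx) ^ 2 + (q * b2 - qy) ^ 2))
        * (q * (qxx + qyy) - (qx ^ 2 + qy ^ 2))
      + e ^ 2 * ((q ^ 2 * b11 - q * qxx + qx ^ 2 - qx * (q * b1 - qx) + qy * (q * b2 - qy))
          * (q ^ 2 * b22 - q * qyy + qy ^ 2 + qx * (q * b1 - qx) - qy * (q * b2 - qy))
        - (q ^ 2 * b12 - q * qxy + qx * qy - qy * (q * b1 - qx) - qx * (q * b2 - qy)) ^ 2)
      = q ^ 6 * (c ^ 2 * ((q * (qxx + qyy) - (qx ^ 2 + qy ^ 2)) / q ^ 2)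
          + (qx * (P * Px + Q * Qx) + qy * (P * Py + Q * Qy)) / q
          + (Px * Qy - Py * Qx)) := by
  subst hP hQ hPx hPy hQx hQy
  rw [hc2]
  field_simp
  ring

section Periodic

variable {v1 v2 : P2} {f : P2 → ℝ}

lemma Periodic2.fderiv_apply (hf : Periodic2 v1 v2 f) (w : P2) :
    Periodic2 v1 v2 (fun y => fderiv ℝ f y w) := by
  intro y
  have h1 : (fun u => f (u + v1)) = f := funext fun u => (hf u).1
  have h2 : (fun u => f (u + v2)) = f := funext fun u => (hf u).2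
  constructor
  · show fderiv ℝ f (y + v1) w = fderiv ℝ f y w
    rw [← fderiv_comp_add_right, h1]
  · show fderiv ℝ f (y + v2) w = fderiv ℝ f y w
    rw [← fderiv_comp_add_right, h2]

lemma Periodic2.apply {α β : Type*} {g : P2 → α} (hg : Periodic2 v1 v2 g) (F : α → β) :
    Periodic2 v1 v2 (fun y => F (g y)) :=
  fun y => ⟨congrArg F (hg y).1, congrArg F (hg y).2⟩

lemma Periodic2.pair {α β : Type*} {g : P2 → α} {h : P2 → β} (hg : Periodic2 v1 v2 g)
    (hh : Periodic2 v1 v2 h) : Periodic2 v1 v2 (fun y => (g y, h y)) :=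
  fun y => ⟨Prod.ext (hg y).1 (hh y).1, Prod.ext (hg y).2 (hh y).2⟩

/-- A periodic one-form has no exterior derivative of constant strict sign. -/
lemma no_constant_sign {a b : P2 → ℝ} (hd : det2 v1 v2 ≠ 0) (ha : ContDiff ℝ 1 a)
    (hb : ContDiff ℝ 1 b) (pa : Periodic2 v1 v2 a) (pb : Periodic2 v1 v2 b) {m : ℝ}
    {D : P2 → ℝ} (hD : ∀ y, 0 < D y) (hG : ∀ y, dp a y - dy b y = m / D y) : m = 0 := by
  by_contra hm
  set A : P2 → ℝ := fun y => v2.1 * b y + v2.2 * a y with hA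
  set B : P2 → ℝ := fun y => v1.1 * b y + v1.2 * a y with hB
  set φ : ℝ → ℝ → P2 := fun s r => s • v1 + r • v2 with hφ
  have hAc : ContDiff ℝ 1 A := (contDiff_const.mul hb).add (contDiff_const.mul ha)
  have hBc : ContDiff ℝ 1 B := (contDiff_const.mul hb).add (contDiff_const.mul ha)
  have hfd : ∀ (g : P2 → ℝ) (y w : P2), fderiv ℝ g y w = w.1 * dp g y + w.2 * dy g y := by
    intro g y w
    have e : w = w.1 • ((1, 0) : P2) + w.2 • (0, 1) := by ext <;> simp
    conv_lhs => rw [e, map_add, map_smul, map_smul]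
    rfl
  have hGd : ∀ y, fderiv ℝ A y v1 - fderiv ℝ B y v2 = det2 v1 v2 * (m / D y) := by
    intro y
    have d1 := (hb.differentiable one_ne_zero) y
    have d2 := (ha.differentiable one_ne_zero) y
    rw [← hG y, hfd A y v1, hfd B y v2]
    simp only [hA, hB, dp, dy, dv_add (d1.const_mul _) (d2.const_mul _), dv_const_mul d1,
      dv_const_mul d2, det2]
    ring
  have hcA : Continuous fun p : ℝ × ℝ => fderiv ℝ A (φ p.1 p.2) v1 :=
    ((hAc.continuous_fderiv one_ne_zero).clm_apply continuous_const).comp (by fun_prop)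
  have hcB : Continuous fun p : ℝ × ℝ => fderiv ℝ B (φ p.1 p.2) v2 :=
    ((hBc.continuous_fderiv one_ne_zero).clm_apply continuous_const).comp (by fun_prop)
  have hdA : ∀ r s, HasDerivAt (fun s => A (φ s r)) (fderiv ℝ A (φ s r) v1) s := fun r s => by
    have h : HasDerivAt (fun s => φ s r) v1 s := by
      simpa [hφ] using ((hasDerivAt_id s).smul_const v1).add_const (r • v2)
    exact ((hAc.differentiable one_ne_zero) _).hasFDerivAt.comp_hasDerivAt s h
  have hdB : ∀ s r, HasDerivAt (fun r => B (φ s r)) (fderiv ℝ B (φ s r) v2) r := fun s r => by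
    have h : HasDerivAt (fun r => φ s r) v2 r := by
      simpa [hφ] using ((hasDerivAt_id r).smul_const v2).const_add (s • v1)
    exact ((hBc.differentiable one_ne_zero) _).hasFDerivAt.comp_hasDerivAt r h
  have hA0 : ∀ r, ∫ s in (0:ℝ)..1, fderiv ℝ A (φ s r) v1 = 0 := fun r => by
    rw [intervalIntegral.integral_eq_sub_of_hasDerivAt (fun s _ => hdA r s)
      ((hcA.comp (continuous_id.prodMk continuous_const)).intervalIntegrable _ _)]
    have h1 := (pa (r • v2)).1
    have h2 := (pb (r • v2)).1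
    simp only [hA, hφ, one_smul, zero_smul, zero_add, add_comm v1, h1, h2, sub_self]
  have hB0 : ∀ s, ∫ r in (0:ℝ)..1, fderiv ℝ B (φ s r) v2 = 0 := fun s => by
    rw [intervalIntegral.integral_eq_sub_of_hasDerivAt (fun r _ => hdB s r)
      ((hcB.comp (continuous_const.prodMk continuous_id)).intervalIntegrable _ _)]
    have h1 := (pa (s • v1)).2
    have h2 := (pb (s • v1)).2
    simp only [hB, hφ, one_smul, zero_smul, add_zero, h1, h2, sub_self]
  have hswap : ∫ r in (0:ℝ)..1, ∫ s in (0:ℝ)..1, fderiv ℝ B (φ s r) v2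
      = ∫ s in (0:ℝ)..1, ∫ r in (0:ℝ)..1, fderiv ℝ B (φ s r) v2 := by
    simp only [intervalIntegral.integral_of_le zero_le_one]
    refine integral_integral_swap ?_
    rw [Measure.prod_restrict]
    exact ((hcB.comp continuous_swap).continuousOn.integrableOn_compact
      (isCompact_Icc.prod isCompact_Icc)).mono_set
        (Set.prod_mono Set.Ioc_subset_Icc_self Set.Ioc_subset_Icc_self)
  simp only [hB0, intervalIntegral.integral_zero] at hswap
  set g : ℝ × ℝ → ℝ := fun p => fderiv ℝ A (φ p.1 p.2) v1 - fderiv ℝ B (φ p.1 p.2) v2 with hg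
  have hint : ∫ r in (0:ℝ)..1, ∫ s in (0:ℝ)..1, g (s, r) = 0 := by
    have : ∀ r, ∫ s in (0:ℝ)..1, g (s, r) = -∫ s in (0:ℝ)..1, fderiv ℝ B (φ s r) v2 := by
      intro r
      have i1 : IntervalIntegrable (fun s => fderiv ℝ A (φ s r) v1) volume 0 1 :=
        (hcA.comp (continuous_id.prodMk continuous_const)).intervalIntegrable _ _
      have i2 : IntervalIntegrable (fun s => fderiv ℝ B (φ s r) v2) volume 0 1 :=
        (hcB.comp (continuous_id.prodMk continuous_const)).intervalIntegrable _ _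
      show ∫ s in (0:ℝ)..1, (fderiv ℝ A (φ s r) v1 - fderiv ℝ B (φ s r) v2) = _
      rw [intervalIntegral.integral_sub i1 i2, hA0]
      ring
    simp only [this, intervalIntegral.integral_neg, hswap, neg_zero]
  obtain ⟨σ, hσ⟩ : ∃ σ : ℝ, ∀ p, 0 < σ * g p := by
    refine ⟨det2 v1 v2 * m, fun p => ?_⟩
    have := hD (φ p.1 p.2)
    simp only [hg, hGd]
    rw [show det2 v1 v2 * m * (det2 v1 v2 * (m / D (φ p.1 p.2)))
      = (det2 v1 v2 * m) ^ 2 / D (φ p.1 p.2) by ring]
    exact div_pos (sq_pos_iff.2 (mul_ne_zero hd hm)) this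
  have hgc : Continuous g := hcA.sub hcB
  have hpos : 0 < ∫ r in (0:ℝ)..1, ∫ s in (0:ℝ)..1, σ * g (s, r) := by
    refine intervalIntegral.intervalIntegral_pos_of_pos
      ((intervalIntegral.continuous_parametric_intervalIntegral_of_continuous'
        (f := fun r s => σ * g (s, r)) (continuous_const.mul (hgc.comp continuous_swap))
        0 1).intervalIntegrable _ _) (fun r => ?_) zero_lt_one
    exact intervalIntegral.intervalIntegral_pos_of_pos
      ((continuous_const.mul (hgc.comp (continuous_id.prodMk continuous_const))).intervalIntegrable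
        _ _) (fun s => hσ (s, r)) zero_lt_one
  simp only [intervalIntegral.integral_const_mul, hint, mul_zero, lt_irrefl] at hpos

end Periodic

theorem curv : CurvSpec := by
  intro v1 v2 B l q e m hdet hl hq pl pq h1 h2 h11 h12 h22 hq0 hslope hflat
  set z : P2 → ℝ := fun w => e * (l w - Real.log (q w)) with hz
  set P : P2 → ℝ := fun u => dp z u / q u with hP
  set Q : P2 → ℝ := fun u => dy z u / q u with hQ
  set c : P2 → ℝ := fun u => Real.sqrt (1 - (P u ^ 2 + Q u ^ 2)) with hc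
  have hqn : ∀ u, q u ≠ 0 := fun u => (hq0 u).ne'
  have zs : ContDiff ℝ ∞ z := contDiff_const.mul (hl.sub (hq.log hqn))
  have Ps : ContDiff ℝ ∞ P := (smooth_dp zs).div hq hqn
  have Qs : ContDiff ℝ ∞ Q := (smooth_dy zs).div hq hqn
  have hd : ∀ u, 0 < 1 - (P u ^ 2 + Q u ^ 2) := fun u => by
    have h := hslope u
    simp only [hP, hQ, div_pow]
    rw [← add_div, sub_pos, div_lt_one (pow_pos (hq0 u) 2)]
    exact h
  have cs' : ContDiff ℝ ∞ c :=
    (contDiff_const.sub ((Ps.pow 2).add (Qs.pow 2))).sqrt fun u => (hd u).ne'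
  have cpos : ∀ u, 0 < c u := fun u => Real.sqrt_pos.2 (hd u)
  have c1 : ∀ u, 1 + c u ≠ 0 := fun u => by linarith [cpos u]
  set a : P2 → ℝ := fun u => (dp q u / q u + (P u * dy Q u - Q u * dy P u) / (1 + c u)) / c u
    with ha
  set b : P2 → ℝ := fun u => (-dy q u / q u + (P u * dp Q u - Q u * dp P u) / (1 + c u)) / c u
    with hb
  have ea : (fun u => omega q z u (0, 1)) = a := by
    funext u
    simp only [omega, cs, pv, ha, hc, hP, hQ, dp, dy]
    ring
  have eb : (fun u => omega q z u (1, 0)) = b := by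
    funext u
    simp only [omega, cs, pv, hb, hc, hP, hQ, dp, dy]
    ring
  have d : ∀ {f : P2 → ℝ}, ContDiff ℝ ∞ f → ∀ u, DifferentiableAt ℝ f u :=
    fun hf u => (hf.differentiable (by simp)) u
  have as' : ContDiff ℝ ∞ a :=
    (((smooth_dp hq).div hq hqn).add (((Ps.mul (smooth_dy Qs)).sub (Qs.mul (smooth_dy Ps))).div
      (contDiff_const.add cs') c1)).div cs' fun u => (cpos u).ne'
  have bs' : ContDiff ℝ ∞ b :=
    ((((smooth_dy hq).neg).div hq hqn).add (((Ps.mul (smooth_dp Qs)).sub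
      (Qs.mul (smooth_dp Ps))).div (contDiff_const.add cs') c1)).div cs' fun u => (cpos u).ne'
  have key : ∀ y, dp a y - dy b y = m / (c y ^ 3 * q y ^ 6) := by
    intro y
    have hsym : ∀ {f : P2 → ℝ}, ContDiff ℝ ∞ f → dy (dp f) y = dp (dy f) y :=
      fun hf => dy_dp_eq (hf.of_le (WithTop.coe_le_coe.2 le_top)) y
    have dqn : DifferentiableAt ℝ (fun u => -dy q u) y := (d (smooth_dy hq) y).neg
    have dP : ∀ v, fderiv ℝ P y v
        = (fderiv ℝ (dp z) y v * q y - dp z y * fderiv ℝ q y v) / q y ^ 2 := fun v =>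
      dv_div (d (smooth_dp zs) y) (d hq y) (hqn y)
    have dQ : ∀ v, fderiv ℝ Q y v
        = (fderiv ℝ (dy z) y v * q y - dy z y * fderiv ℝ q y v) / q y ^ 2 := fun v =>
      dv_div (d (smooth_dy zs) y) (d hq y) (hqn y)
    have zx : dp z = fun u => e * (B.b1 u - dp q u / q u) := by
      funext u
      rw [h1]
      simp only [hz, dp]
      rw [dv_const_mul ((d hl u).fun_sub ((d hq u).log (hqn u))),
        dv_sub (d hl u) ((d hq u).log (hqn u)), dv_log (d hq u) (hqn u)]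
    have zy : dy z = fun u => e * (B.b2 u - dy q u / q u) := by
      funext u
      rw [h2]
      simp only [hz, dy]
      rw [dv_const_mul ((d hl u).fun_sub ((d hq u).log (hqn u))),
        dv_sub (d hl u) ((d hq u).log (hqn u)), dv_log (d hq u) (hqn u)]
    have dzx : ∀ v, fderiv ℝ (dp z) y v = e * (fderiv ℝ (dp l) y v
        - (fderiv ℝ (dp q) y v * q y - dp q y * fderiv ℝ q y v) / q y ^ 2) := fun v => by
      rw [zx, h1, dv_const_mul ((d (smooth_dp hl) y).fun_sub (dd_div (d (smooth_dp hq) y) (d hq y) (hqn y))),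
        dv_sub (d (smooth_dp hl) y) (dd_div (d (smooth_dp hq) y) (d hq y) (hqn y)),
        dv_div (d (smooth_dp hq) y) (d hq y) (hqn y)]
    have dzy : ∀ v, fderiv ℝ (dy z) y v = e * (fderiv ℝ (dy l) y v
        - (fderiv ℝ (dy q) y v * q y - dy q y * fderiv ℝ q y v) / q y ^ 2) := fun v => by
      rw [zy, h2, dv_const_mul ((d (smooth_dy hl) y).fun_sub (dd_div (d (smooth_dy hq) y) (d hq y) (hqn y))),
        dv_sub (d (smooth_dy hl) y) (dd_div (d (smooth_dy hq) y) (d hq y) (hqn y)),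
        dv_div (d (smooth_dy hq) y) (d hq y) (hqn y)]
    have hc2 : c y ^ 2 = 1 - (P y ^ 2 + Q y ^ 2) := Real.sq_sqrt (hd y).le
    have dc : ∀ v, fderiv ℝ c y v
        = -(P y * fderiv ℝ P y v + Q y * fderiv ℝ Q y v) / c y := fun v => by
      have hin : DifferentiableAt ℝ (fun u => 1 - (P u ^ 2 + Q u ^ 2)) y :=
        d (contDiff_const.sub ((Ps.pow 2).add (Qs.pow 2))) y
      simp only [hc]
      rw [dv_sqrt hin (hd y).ne']
      simp only [sq]
      rw [dv_sub (differentiableAt_const _) (((d Ps y).fun_mul (d Ps y)).fun_add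
          ((d Qs y).fun_mul (d Qs y))),
        dv_add ((d Ps y).fun_mul (d Ps y)) ((d Qs y).fun_mul (d Qs y)),
        dv_mul (d Ps y) (d Ps y), dv_mul (d Qs y) (d Qs y), fderiv_fun_const]
      simp
      field_simp
      ring
    have ha' : dp a y = (((dp (dp q) y * q y - dp q y * dp q y) / q y ^ 2
        + ((dp P y * dy Q y + P y * dp (dy Q) y - (dp Q y * dy P y + Q y * dp (dy P) y)) * (1 + c y)
          - (P y * dy Q y - Q y * dy P y) * dp c y) / (1 + c y) ^ 2) * c y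
        - (dp q y / q y + (P y * dy Q y - Q y * dy P y) / (1 + c y)) * dp c y) / c y ^ 2 := by
      have t1 := dd_div (d (smooth_dp hq) y) (d hq y) (hqn y)
      have n1 := ((d Ps y).fun_mul (d (smooth_dy Qs) y)).fun_sub
        ((d Qs y).fun_mul (d (smooth_dy Ps) y))
      have t2 := dd_div n1 ((d cs' y).const_add 1) (c1 y)
      show fderiv ℝ a y (1, 0) = _
      rw [ha, dv_div (t1.fun_add t2) (d cs' y) (cpos y).ne', dv_add t1 t2,
        dv_div (d (smooth_dp hq) y) (d hq y) (hqn y), dv_div n1 ((d cs' y).const_add 1) (c1 y),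
        dv_sub ((d Ps y).fun_mul (d (smooth_dy Qs) y)) ((d Qs y).fun_mul (d (smooth_dy Ps) y)),
        dv_mul (d Ps y) (d (smooth_dy Qs) y), dv_mul (d Qs y) (d (smooth_dy Ps) y),
        fderiv_const_add]
      rfl
    have hb' : dy b y = (((-dy (dy q) y * q y - -dy q y * dy q y) / q y ^ 2
        + ((dy P y * dp Q y + P y * dy (dp Q) y - (dy Q y * dp P y + Q y * dy (dp P) y)) * (1 + c y)
          - (P y * dp Q y - Q y * dp P y) * dy c y) / (1 + c y) ^ 2) * c y
        - (-dy q y / q y + (P y * dp Q y - Q y * dp P y) / (1 + c y)) * dy c y) / c y ^ 2 := by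
      have t1 := dd_div dqn (d hq y) (hqn y)
      have n1 := ((d Ps y).fun_mul (d (smooth_dp Qs) y)).fun_sub
        ((d Qs y).fun_mul (d (smooth_dp Ps) y))
      have t2 := dd_div n1 ((d cs' y).const_add 1) (c1 y)
      show fderiv ℝ b y (0, 1) = _
      rw [hb, dv_div (t1.fun_add t2) (d cs' y) (cpos y).ne', dv_add t1 t2,
        dv_div dqn (d hq y) (hqn y), dv_neg, dv_div n1 ((d cs' y).const_add 1) (c1 y),
        dv_sub ((d Ps y).fun_mul (d (smooth_dp Qs) y)) ((d Qs y).fun_mul (d (smooth_dp Ps) y)),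
        dv_mul (d Ps y) (d (smooth_dp Qs) y), dv_mul (d Qs y) (d (smooth_dp Ps) y),
        fderiv_const_add]
      rfl
    have hc3 : P y ^ 2 + Q y ^ 2 = (1 - c y) * (1 + c y) := by linear_combination hc2
    rw [ha', hb', curv_alg (q y) (dp q y) (dy q y) (dp (dp q) y) (dy (dy q) y) (P y) (Q y)
      (dp P y) (dy P y) (dp Q y) (dy Q y) (dy (dp P) y) (dy (dp Q) y) (dp (dy P) y) (dp (dy Q) y)
      (c y) (dp c y) (dy c y) (hqn y) (cpos y).ne' (c1 y) hc3 (hsym Ps).symm (hsym Qs).symm (dc (1, 0)) (dc (0, 1))]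
    have hzP : P y = e * (q y * B.b1 y - dp q y) / q y ^ 2 := by
      simp only [hP, zx]
      field_simp [hqn y]
    have hzQ : Q y = e * (q y * B.b2 y - dy q y) / q y ^ 2 := by
      simp only [hQ, zy]
      field_simp [hqn y]
    have hl12 : dy (dp l) y = dp (dy l) y := hsym hl
    have hq12 : dy (dp q) y = dp (dy q) y := hsym hq
    have eqn := flat_alg e (q y) (dp q y) (dy q y) (dp (dp q) y) (dy (dp q) y) (dy (dy q) y)
      (B.b1 y) (B.b2 y) (B.b11 y) (B.b12 y) (B.b22 y) (P y) (Q y) (dp P y) (dy P y) (dp Q y)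
      (dy Q y) (c y) (hqn y) hc2 hzP hzQ
      (by
        show fderiv ℝ P y (1, 0) = _
        rw [dP, dzx, congrFun h11 y, zx]; rfl)
      (by
        show fderiv ℝ P y (0, 1) = _
        rw [dP, dzx, congrFun h12 y, zx]; rfl)
      (by
        show fderiv ℝ Q y (1, 0) = _
        rw [dQ, dzy, congrFun h12 y, zy, hl12, hq12]; rfl)
      (by
        show fderiv ℝ Q y (0, 1) = _
        rw [dQ, dzy, congrFun h22 y, zy]; rfl)
    have hm' := hflat y
    simp only [flatEq, lap] at hm'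
    rw [eqn] at hm'
    have hc0 := (cpos y).ne'
    have hq' := hqn y
    rw [← hm']
    field_simp
  have pz : Periodic2 v1 v2 z := (pl.pair pq).apply fun r => e * (r.1 - Real.log r.2)
  have pP : Periodic2 v1 v2 P := ((pz.fderiv_apply (1, 0)).pair pq).apply fun r => r.1 / r.2
  have pQ : Periodic2 v1 v2 Q := ((pz.fderiv_apply (0, 1)).pair pq).apply fun r => r.1 / r.2
  have pc : Periodic2 v1 v2 c :=
    (pP.pair pQ).apply fun r => Real.sqrt (1 - (r.1 ^ 2 + r.2 ^ 2))
  have pa : Periodic2 v1 v2 a := fun y => by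
    have := ((((pq.fderiv_apply (1, 0)).pair pq).pair (pP.pair pQ)).pair
      ((pc.pair ((pP.fderiv_apply (0, 1)).pair (pQ.fderiv_apply (0, 1)))))).apply
        (fun r : ((ℝ × ℝ) × (ℝ × ℝ)) × (ℝ × (ℝ × ℝ)) =>
          (r.1.1.1 / r.1.1.2 + (r.1.2.1 * r.2.2.2 - r.1.2.2 * r.2.2.1) / (1 + r.2.1)) / r.2.1) y
    exact this
  have pb : Periodic2 v1 v2 b := fun y => by
    have := ((((pq.fderiv_apply (0, 1)).pair pq).pair (pP.pair pQ)).pair
      ((pc.pair ((pP.fderiv_apply (1, 0)).pair (pQ.fderiv_apply (1, 0)))))).apply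
        (fun r : ((ℝ × ℝ) × (ℝ × ℝ)) × (ℝ × (ℝ × ℝ)) =>
          (-r.1.1.1 / r.1.1.2 + (r.1.2.1 * r.2.2.2 - r.1.2.2 * r.2.2.1) / (1 + r.2.1)) / r.2.1) y
    exact this
  have hm0 : m = 0 := no_constant_sign hdet (as'.of_le (by simp)) (bs'.of_le (by simp)) pa pb
    (D := fun y => c y ^ 3 * q y ^ 6) (fun y => mul_pos (pow_pos (cpos y) 3) (pow_pos (hq0 y) 6))
    key
  intro y
  rw [ea, eb]
  have := key y
  rw [hm0, zero_div] at this
  linarith

end Vale.Agent.P205
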