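import Vale.Agent.P229.Calc

/-
P205: every conformally flat metric on a torus immerses isometrically and smoothly in four-space.
See PROOF.md in this folder.
-/

namespace Vale.Agent.P205

open Vale.Agent.P229 (P2 dp dy)
open MeasureTheory
open scoped ContDiff

/-- Periodicity along two vectors. -/
def Periodic2 {α : Type*} (v1 v2 : P2) (f : P2 → α) : Prop :=
  ∀ y, f (y + v1) = f y ∧ f (y + v2) = f y

/-- The determinant of two vectors. -/
def det2 (v w : P2) : ℝ := v.1 * w.2 - v.2 * w.1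

/-- The first and second derivatives of the logarithm of the conformal radius. -/
structure Data where
  b1 : P2 → ℝ
  b2 : P2 → ℝ
  b11 : P2 → ℝ
  b12 : P2 → ℝ
  b22 : P2 → ℝ

/-- The data are smooth and periodic. -/
structure Data.Good (B : Data) (v1 v2 : P2) : Prop where
  s1 : ContDiff ℝ ∞ B.b1
  s2 : ContDiff ℝ ∞ B.b2
  s11 : ContDiff ℝ ∞ B.b11
  s12 : ContDiff ℝ ∞ B.b12
  s22 : ContDiff ℝ ∞ B.b22
  p1 : Periodic2 v1 v2 B.b1
  p2 : Periodic2 v1 v2 B.b2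
  p11 : Periodic2 v1 v2 B.b11
  p12 : Periodic2 v1 v2 B.b12
  p22 : Periodic2 v1 v2 B.b22

/-- The flat Laplacian. -/
noncomputable def lap (f : P2 → ℝ) (y : P2) : ℝ := dp (dp f) y + dy (dy f) y

/-- The flatness equation as a polynomial in the 2-jet of `q`. -/
noncomputable def flatEq (t : ℝ) (B : Data) (q : P2 → ℝ) (y : P2) : ℝ :=
  let A1 := q y * B.b1 y - dp q y
  let A2 := q y * B.b2 y - dy q y
  let B11 := q y ^ 2 * B.b11 y - q y * dp (dp q) y + dp q y ^ 2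
  let B12 := q y ^ 2 * B.b12 y - q y * dy (dp q) y + dp q y * dy q y
  let B22 := q y ^ 2 * B.b22 y - q y * dy (dy q) y + dy q y ^ 2
  (q y ^ 4 - t * (A1 ^ 2 + A2 ^ 2)) * (q y * lap q y - (dp q y ^ 2 + dy q y ^ 2))
    + t * ((B11 - dp q y * A1 + dy q y * A2) * (B22 + dp q y * A1 - dy q y * A2)
      - (B12 - dy q y * A1 - dp q y * A2) ^ 2)

/-- Small periodic solutions of the flatness equation up to a constant, continuous in the
parameter. -/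
def SolveSpec : Prop :=
  ∀ v1 v2 : P2, det2 v1 v2 ≠ 0 → ∀ B : Data, B.Good v1 v2 →
    ∃ t0 : ℝ, 0 < t0 ∧ ∃ q : ℝ → P2 → ℝ, q 0 = (fun _ => 1) ∧
      (∀ t ∈ Set.Icc 0 t0, ContDiff ℝ ∞ (q t) ∧ Periodic2 v1 v2 (q t) ∧
        ∃ m : ℝ, ∀ y, flatEq t B (q t) y = m) ∧
      ContinuousOn (fun p : ℝ × P2 => q p.1 p.2) (Set.Icc 0 t0 ×ˢ Set.univ) ∧
      ContinuousOn (fun p : ℝ × P2 => fderiv ℝ (q p.1) p.2) (Set.Icc 0 t0 ×ˢ Set.univ) ∧
      ContinuousOn (fun p : ℝ × P2 => fderiv ℝ (fderiv ℝ (q p.1)) p.2)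
        (Set.Icc 0 t0 ×ˢ Set.univ)

/-- Explicit flat tori in the unit sphere of four-space. -/
def HopfSpec : Prop :=
  ∀ (m : ℕ) (a l : ℝ), 1 ≤ m → 2 * Real.pi < l → ∃ H : P2 → EuclideanSpace ℝ (Fin 4),
    ContDiff ℝ ∞ H ∧ (∀ u, ‖H u‖ = 1) ∧
      (∀ u v w, inner ℝ (fderiv ℝ H u v) (fderiv ℝ H u w) = v.1 * w.1 + v.2 * w.2) ∧
      Periodic2 (2 * Real.pi * (m : ℝ), 0) (a, l) H

/-- The metric `q ^ 2 I - dz ^ 2` seen through `z`: normalised gradient. -/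
noncomputable def pv (q z : P2 → ℝ) (y : P2) : P2 := (dp z y / q y, dy z y / q y)

/-- Cosine of the slope. -/
noncomputable def cs (q z : P2 → ℝ) (y : P2) : ℝ :=
  Real.sqrt (1 - ((pv q z y).1 ^ 2 + (pv q z y).2 ^ 2))

/-- The square root of the metric `q ^ 2 I - dz ^ 2`. -/
noncomputable def theta (q z : P2 → ℝ) (y v : P2) : P2 :=
  let k := 1 / (1 + cs q z y)
  let s := (pv q z y).1 * v.1 + (pv q z y).2 * v.2
  (q y * (v.1 - k * (pv q z y).1 * s), q y * (v.2 - k * (pv q z y).2 * s))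

/-- The connection form of the frame `theta`, evaluated on `v`. -/
noncomputable def omega (q z : P2 → ℝ) (y v : P2) : ℝ :=
  ((-(dy q y) * v.1 + dp q y * v.2) / q y
    + ((pv q z y).1 * fderiv ℝ (fun u => (pv q z u).2) y v
      - (pv q z y).2 * fderiv ℝ (fun u => (pv q z u).1) y v) / (1 + cs q z y)) / cs q z y

/-- A developing map of the flat metric `q ^ 2 I - dz ^ 2`, continuous in the parameter. -/
def DevelopSpec : Prop :=
  ∀ v1 v2 : P2, det2 v1 v2 ≠ 0 → ∀ (t0 : ℝ) (q z : ℝ → P2 → ℝ), 0 < t0 →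
    q 0 = (fun _ => 1) → z 0 = (fun _ => 0) →
    (∀ t ∈ Set.Icc 0 t0, ContDiff ℝ ∞ (q t) ∧ ContDiff ℝ ∞ (z t) ∧ Periodic2 v1 v2 (q t) ∧
      Periodic2 v1 v2 (z t) ∧ (∀ y, 0 < q t y) ∧ (∀ y, dp (z t) y ^ 2 + dy (z t) y ^ 2 < q t y ^ 2) ∧
      ∀ y, dp (fun u => omega (q t) (z t) u (0, 1)) y
        = dy (fun u => omega (q t) (z t) u (1, 0)) y) →
    (∀ v, ContinuousOn (fun p : ℝ × P2 => theta (q p.1) (z p.1) p.2 v) (Set.Icc 0 t0 ×ˢ Set.univ)) →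
    (∀ v, ContinuousOn (fun p : ℝ × P2 => omega (q p.1) (z p.1) p.2 v) (Set.Icc 0 t0 ×ˢ Set.univ)) →
    ∃ (D : ℝ → P2 → P2) (w1 w2 : ℝ → P2),
      ContinuousOn w1 (Set.Icc 0 t0) ∧ ContinuousOn w2 (Set.Icc 0 t0) ∧ w1 0 = v1 ∧ w2 0 = v2 ∧
      ∀ t ∈ Set.Icc 0 t0, ContDiff ℝ ∞ (D t) ∧
        (∀ y, D t (y + v1) = D t y + w1 t ∧ D t (y + v2) = D t y + w2 t) ∧
        ∀ y v w, (fderiv ℝ (D t) y v).1 * (fderiv ℝ (D t) y w).1
            + (fderiv ℝ (D t) y v).2 * (fderiv ℝ (D t) y w).2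
          = q t y ^ 2 * (v.1 * w.1 + v.2 * w.2) - fderiv ℝ (z t) y v * fderiv ℝ (z t) y w

/-- The flatness equation is the closedness of the connection form. -/
def CurvSpec : Prop :=
  ∀ (v1 v2 : P2) (B : Data) (l q : P2 → ℝ) (e m : ℝ), det2 v1 v2 ≠ 0 →
    ContDiff ℝ ∞ l → ContDiff ℝ ∞ q → Periodic2 v1 v2 l → Periodic2 v1 v2 q →
    B.b1 = dp l → B.b2 = dy l → B.b11 = dp (dp l) → B.b12 = dy (dp l) → B.b22 = dy (dy l) →
    (∀ y, 0 < q y) →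
    (∀ y, dp (fun u => e * (l u - Real.log (q u))) y ^ 2
      + dy (fun u => e * (l u - Real.log (q u))) y ^ 2 < q y ^ 2) →
    (∀ y, flatEq (e ^ 2) B q y = m) →
    ∀ y, dp (fun u => omega q (fun w => e * (l w - Real.log (q w))) u (0, 1)) y
      = dy (fun u => omega q (fun w => e * (l w - Real.log (q w))) u (1, 0)) y

/-- Every conformally flat torus metric immerses isometrically in four-space. -/
def TorusSpec : Prop :=
  ∀ v1 v2 : P2, det2 v1 v2 ≠ 0 → ∀ E : P2 → ℝ, ContDiff ℝ ∞ E → (∀ y, 0 < E y) →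
    Periodic2 v1 v2 E → ∃ F : P2 → EuclideanSpace ℝ (Fin 4), ContDiff ℝ ∞ F ∧
      Periodic2 v1 v2 F ∧
      ∀ y v w, inner ℝ (fderiv ℝ F y v) (fderiv ℝ F y w) = E y * (v.1 * w.1 + v.2 * w.2)

end Vale.Agent.P205
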