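import Vale.Agent.P205.Poly

/-
P205: the fixed point of the flatness equation in the weighted norm of order two, all its weighted
norms, and its Lipschitz dependence on the parameter.
-/

namespace Vale.Agent.P205.Fourier

open Vale.Agent.P229 (P2)
open scoped ENNReal NNReal
open Filter Topology

/-- The gain of the inverse Laplacian. -/
noncomputable def kap (v1 v2 : P2) : ℝ≥0 :=
  6 * (‖v1.1‖₊ ^ 2 + ‖v1.2‖₊ ^ 2 + ‖v2.1‖₊ ^ 2 + ‖v2.2‖₊ ^ 2) / (2 * Real.pi.toNNReal) ^ 2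

lemma den_eq (v1 v2 : P2) (n : Z2) : m1 v1 v2 n ^ 2 + m2 v1 v2 n ^ 2
    = ((-((2 * Real.pi) ^ 2 * (l1 v1 v2 n ^ 2 + l2 v1 v2 n ^ 2)) : ℝ) : ℂ) := by
  simp only [m1, m2]
  push_cast
  ring_nf
  rw [Complex.I_sq]
  ring

lemma w_sq_le {v1 v2 : P2} (h : det2 v1 v2 ≠ 0) {n : Z2} (hn : n ≠ 0) :
    (w n : ℝ) ^ 2 ≤ 6 * (v1.1 ^ 2 + v1.2 ^ 2 + v2.1 ^ 2 + v2.2 ^ 2) *
      (l1 v1 v2 n ^ 2 + l2 v1 v2 n ^ 2) := by
  have e1 : (n.1 : ℝ) = l1 v1 v2 n * v1.1 + l2 v1 v2 n * v1.2 := by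
    unfold l1 l2
    field_simp
    simp only [det2]
    ring
  have e2 : (n.2 : ℝ) = l1 v1 v2 n * v2.1 + l2 v1 v2 n * v2.2 := by
    unfold l1 l2
    field_simp
    simp only [det2]
    ring
  have hone : (1 : ℝ) ≤ (n.1 : ℝ) ^ 2 + (n.2 : ℝ) ^ 2 := by
    have : (1 : ℤ) ≤ n.1 ^ 2 + n.2 ^ 2 := by
      by_contra hc
      have h1 : n.1 ^ 2 = 0 := by nlinarith [sq_nonneg n.1, sq_nonneg n.2]
      have h2 : n.2 ^ 2 = 0 := by nlinarith [sq_nonneg n.1, sq_nonneg n.2]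
      exact hn (Prod.ext (pow_eq_zero_iff two_ne_zero |>.1 h1) (pow_eq_zero_iff two_ne_zero |>.1 h2))
    exact_mod_cast this
  have hw : (w n : ℝ) = 1 + |(n.1 : ℝ)| + |(n.2 : ℝ)| := by simp [w]
  have h3 : (w n : ℝ) ^ 2 ≤ 6 * ((n.1 : ℝ) ^ 2 + (n.2 : ℝ) ^ 2) := by
    rw [hw]
    nlinarith [sq_nonneg (|(n.1 : ℝ)| - |(n.2 : ℝ)|), sq_nonneg (1 - |(n.1 : ℝ)|),
      sq_nonneg (1 - |(n.2 : ℝ)|), sq_abs (n.1 : ℝ), sq_abs (n.2 : ℝ)]
  refine h3.trans ?_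
  rw [e1, e2]
  nlinarith [sq_nonneg (l1 v1 v2 n * v1.2 - l2 v1 v2 n * v1.1),
    sq_nonneg (l1 v1 v2 n * v2.2 - l2 v1 v2 n * v2.1)]

lemma N_invLap_le {v1 v2 : P2} (h : det2 v1 v2 ≠ 0) (k : ℕ) (g : Cf) :
    N (k + 2) (invLap v1 v2 g) ≤ (kap v1 v2 : ℝ≥0∞) * N k g := by
  simp only [N, ← ENNReal.tsum_mul_left]
  refine ENNReal.tsum_le_tsum fun n => ?_
  by_cases hn : n = 0
  · simp [invLap, hn]
  have hw := w_sq_le h hn
  have hden : 0 < l1 v1 v2 n ^ 2 + l2 v1 v2 n ^ 2 := by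
    have : (1 : ℝ) ≤ (w n : ℝ) := by exact_mod_cast one_le_w n
    by_contra hc
    nlinarith [sq_nonneg v1.1, sq_nonneg v1.2, sq_nonneg v2.1, sq_nonneg v2.2]
  have key : (w n : ℝ) ^ (k + 2) * ‖invLap v1 v2 g n‖
      ≤ (kap v1 v2 : ℝ) * ((w n : ℝ) ^ k * ‖g n‖) := by
    simp only [invLap, hn, if_false, den_eq, norm_div, Complex.norm_real, norm_neg, norm_mul,
      Real.norm_eq_abs, abs_of_pos hden, abs_of_pos (show (0 : ℝ) < (2 * Real.pi) ^ 2 by positivity)]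
    rw [mul_div_assoc', div_le_iff₀ (mul_pos (by positivity) hden)]
    have hkap : (kap v1 v2 : ℝ) * (2 * Real.pi) ^ 2
        = 6 * (v1.1 ^ 2 + v1.2 ^ 2 + v2.1 ^ 2 + v2.2 ^ 2) := by
      simp only [kap, NNReal.coe_div, NNReal.coe_mul, NNReal.coe_add, NNReal.coe_pow, coe_nnnorm,
        Real.norm_eq_abs, sq_abs, NNReal.coe_ofNat, Real.coe_toNNReal _ Real.pi_nonneg]
      exact div_mul_cancel₀ _ (by positivity)
    calc (w n : ℝ) ^ (k + 2) * ‖g n‖ = (w n : ℝ) ^ 2 * ((w n : ℝ) ^ k * ‖g n‖) := by ring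
      _ ≤ ((kap v1 v2 : ℝ) * (2 * Real.pi) ^ 2 * (l1 v1 v2 n ^ 2 + l2 v1 v2 n ^ 2)) *
            ((w n : ℝ) ^ k * ‖g n‖) := by
          rw [hkap]; exact mul_le_mul_of_nonneg_right hw (by positivity)
      _ = _ := by ring
  have key' : (w n : ℝ≥0) ^ (k + 2) * ‖invLap v1 v2 g n‖₊
      ≤ kap v1 v2 * ((w n : ℝ≥0) ^ k * ‖g n‖₊) := by
    rw [← NNReal.coe_le_coe]
    push_cast
    exact key
  simp only [enorm_eq_nnnorm]
  exact_mod_cast key'

lemma invLap_sub (v1 v2 : P2) (g g' : Cf) :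
    invLap v1 v2 g - invLap v1 v2 g' = invLap v1 v2 (g - g') := by
  funext n
  by_cases hn : n = 0
  · simp [invLap, hn]
  · simp [invLap, hn, sub_div]

lemma invLap_zero_apply (v1 v2 : P2) (g : Cf) : invLap v1 v2 g 0 = 0 := by simp [invLap]

lemma sym_invLap (v1 v2 : P2) {g : Cf} (hg : Sym g) : Sym (invLap v1 v2 g) := fun n => by
  by_cases hn : n = 0
  · simp [invLap, hn]
  · simp [invLap, hn, hg n, m1_neg, m2_neg]

namespace Ex

/-- The value one plus `v`. -/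
def q : Ex := .add .one (.var 0)
/-- Its square. -/
def q2 : Ex := .mul q q
/-- Its cube. -/
def q3 : Ex := .mul q2 q
/-- Its fourth power. -/
def q4 : Ex := .mul q2 q2
/-- The squared gradient. -/
def grad : Ex := .add (.mul (.var 1) (.var 1)) (.mul (.var 2) (.var 2))
/-- The part of the equation free of the parameter. -/
def G0 : Ex :=
  .sub (.mul q4 grad)
    (.mul (.mul (.var 0) (.add (.add (.add (.add .one q) q2) q3) q4)) (.add (.var 3) (.var 5)))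
/-- First combination. -/
def a1 : Ex := .sub (.mul q (.cst 0)) (.var 1)
/-- Second combination. -/
def a2 : Ex := .sub (.mul q (.cst 1)) (.var 2)
/-- First entry of the Hessian combination. -/
def c11 : Ex := .add (.sub (.mul q2 (.cst 2)) (.mul q (.var 3))) (.mul (.var 1) (.var 1))
/-- Mixed entry of the Hessian combination. -/
def c12 : Ex := .add (.sub (.mul q2 (.cst 3)) (.mul q (.var 4))) (.mul (.var 1) (.var 2))
/-- Last entry of the Hessian combination. -/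
def c22 : Ex := .add (.sub (.mul q2 (.cst 4)) (.mul q (.var 5))) (.mul (.var 2) (.var 2))
/-- The part of the equation multiplied by the parameter. -/
def G1 : Ex :=
  .sub (.mul (.add (.mul a1 a1) (.mul a2 a2)) (.sub (.mul q (.add (.var 3) (.var 5))) grad))
    (.sub (.mul (.add (.sub c11 (.mul (.var 1) a1)) (.mul (.var 2) a2))
      (.sub (.add c22 (.mul (.var 1) a1)) (.mul (.var 2) a2)))
      (.mul (.sub (.sub c12 (.mul (.var 2) a1)) (.mul (.var 1) a2))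
        (.sub (.sub c12 (.mul (.var 2) a1)) (.mul (.var 1) a2))))

lemma G0_A_zero (J : ℝ≥0) (β : Fin 5 → ℝ≥0) : G0.A J β 0 = 0 := by
  simp [G0, grad, q, q2, q3, q4, A]

lemma G0_L_zero (J : ℝ≥0) (β : Fin 5 → ℝ≥0) : G0.L J β 0 = 0 := by
  simp [G0, grad, q, q2, q3, q4, L, A]

end Ex

/-- The right hand side of the fixed point equation. -/
noncomputable def G (v1 v2 : P2) (b : Fin 5 → Cf) (t : ℝ) (v : Cf) : Cf :=
  Ex.G0.eval v1 v2 b v + (t : ℂ) • Ex.G1.eval v1 v2 b v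

/-- The map whose fixed point solves the equation. -/
noncomputable def T (v1 v2 : P2) (b : Fin 5 → Cf) (t : ℝ) (v : Cf) : Cf :=
  invLap v1 v2 (G v1 v2 b t v)

/-- A small radius and a small parameter for which `T` is a contraction of the ball. -/
lemma exists_small (J K : ℝ≥0) (β : Fin 5 → ℝ≥0) :
    ∃ r t0 : ℝ≥0, 0 < r ∧ 0 < t0 ∧ K * (Ex.G0.L J β r + t0 * Ex.G1.L J β r) ≤ 1 / 2 ∧
      K * (t0 * Ex.G1.A J β r) ≤ r / 2 := by
  have hc : Continuous fun s => K * Ex.G0.L J β s := continuous_const.mul (Ex.continuous_L J _)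
  have h0 : ∀ᶠ s in 𝓝 (0 : ℝ≥0), K * Ex.G0.L J β s < 1 / 4 := by
    refine (hc.tendsto 0).eventually_lt_const ?_
    rw [Ex.G0_L_zero, mul_zero]
    positivity
  obtain ⟨r, hr, hr0⟩ :=
    ((h0.filter_mono nhdsWithin_le_nhds).and (self_mem_nhdsWithin (s := Set.Ioi 0))).exists
  have hr0 : (0 : ℝ≥0) < r := hr0
  set X := K * Ex.G1.L J β r + K * Ex.G1.A J β r + 1
  have hX : X ≠ 0 := (add_pos_of_nonneg_of_pos zero_le one_pos).ne'
  refine ⟨r, min (1 / (4 * X)) (r / (2 * X)), hr0, lt_min (by positivity) (by positivity), ?_, ?_⟩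
  · rw [mul_add]
    have h1 : K * (min (1 / (4 * X)) (r / (2 * X)) * Ex.G1.L J β r) ≤ 1 / 4 := by
      calc K * (min (1 / (4 * X)) (r / (2 * X)) * Ex.G1.L J β r)
          ≤ K * (1 / (4 * X) * Ex.G1.L J β r) :=
            mul_le_mul' le_rfl (mul_le_mul' (min_le_left _ _) le_rfl)
        _ = 1 / (4 * X) * (K * Ex.G1.L J β r) := by ring
        _ ≤ 1 / (4 * X) * X := mul_le_mul' le_rfl (le_add_right le_self_add)
        _ = 1 / 4 := by field_simp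
    calc _ ≤ (1 : ℝ≥0) / 4 + 1 / 4 := add_le_add hr.le h1
      _ = 1 / 2 := by norm_num
  · calc K * (min (1 / (4 * X)) (r / (2 * X)) * Ex.G1.A J β r)
        ≤ K * (r / (2 * X) * Ex.G1.A J β r) :=
          mul_le_mul' le_rfl (mul_le_mul' (min_le_right _ _) le_rfl)
      _ = r / (2 * X) * (K * Ex.G1.A J β r) := by ring
      _ ≤ r / (2 * X) * X := mul_le_mul' le_rfl (le_add_right le_add_self)
      _ = r / 2 := by field_simp

section

variable {v1 v2 : P2} {b : Fin 5 → Cf} {β : Fin 5 → ℝ≥0} {r t0 : ℝ≥0}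

lemma enorm_t {t : ℝ} (ht0 : 0 ≤ t) (ht : t ≤ (t0 : ℝ)) : ‖(t : ℂ)‖ₑ ≤ (t0 : ℝ≥0∞) := by
  have : ‖(t : ℂ)‖₊ ≤ t0 := by
    rw [← NNReal.coe_le_coe]
    simp only [coe_nnnorm, Complex.norm_real, Real.norm_eq_abs, abs_of_nonneg ht0]
    exact ht
  rw [enorm_eq_nnnorm]
  exact_mod_cast this

lemma T_dist (h : det2 v1 v2 ≠ 0) (hb : ∀ i, N 0 (b i) ≤ (β i : ℝ≥0∞)) {t : ℝ} (ht0 : 0 ≤ t)
    (ht : t ≤ (t0 : ℝ))
    (hθ : kap v1 v2 * (Ex.G0.L (jBound v1 v2) β r + t0 * Ex.G1.L (jBound v1 v2) β r) ≤ 1 / 2)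
    {v v' : Cf} (hv : N 2 v ≤ (r : ℝ≥0∞)) (hv' : N 2 v' ≤ (r : ℝ≥0∞)) :
    N 2 (T v1 v2 b t v - T v1 v2 b t v') ≤ ((1 / 2 : ℝ≥0) : ℝ≥0∞) * N 2 (v - v') := by
  rw [T, T, invLap_sub]
  refine (N_invLap_le h 0 _).trans ?_
  rw [G, G, add_sub_add_comm, ← smul_sub]
  refine (mul_le_mul' le_rfl ((N_add_le 0 _ _).trans (add_le_add (Ex.N0_eval_sub hb hv hv' _)
    ((N_smul 0 _ _).le.trans (mul_le_mul' (enorm_t ht0 ht) (Ex.N0_eval_sub hb hv hv' _)))))).trans ?_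
  rw [← mul_assoc (t0 : ℝ≥0∞), ← add_mul, ← mul_assoc, ← ENNReal.coe_mul, ← ENNReal.coe_add,
    ← ENNReal.coe_mul]
  exact mul_le_mul' (ENNReal.coe_le_coe.2 hθ) le_rfl

lemma T_maps (h : det2 v1 v2 ≠ 0) (hb : ∀ i, N 0 (b i) ≤ (β i : ℝ≥0∞)) {t : ℝ} (ht0 : 0 ≤ t)
    (ht : t ≤ (t0 : ℝ))
    (hθ : kap v1 v2 * (Ex.G0.L (jBound v1 v2) β r + t0 * Ex.G1.L (jBound v1 v2) β r) ≤ 1 / 2)
    (hA : kap v1 v2 * (t0 * Ex.G1.A (jBound v1 v2) β r) ≤ r / 2)
    {v : Cf} (hv : N 2 v ≤ (r : ℝ≥0∞)) : N 2 (T v1 v2 b t v) ≤ (r : ℝ≥0∞) := by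
  refine (N_invLap_le h 0 _).trans ?_
  have h0 : N 0 (Ex.G0.eval v1 v2 b 0) = 0 := by
    have := Ex.N0_eval (v1 := v1) (v2 := v2) (r := 0) hb (v := 0) (by simp [N_zero]) Ex.G0
    rwa [Ex.G0_A_zero, ENNReal.coe_zero, nonpos_iff_eq_zero] at this
  have h1 : N 0 (Ex.G0.eval v1 v2 b v) ≤ (Ex.G0.L (jBound v1 v2) β r * r : ℝ≥0) := by
    have hd := Ex.N0_eval_sub (v1 := v1) (v2 := v2) hb hv (v' := 0) (by simp [N_zero]) Ex.G0
    calc N 0 (Ex.G0.eval v1 v2 b v)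
        = N 0 ((Ex.G0.eval v1 v2 b v - Ex.G0.eval v1 v2 b 0) + Ex.G0.eval v1 v2 b 0) := by
          rw [sub_add_cancel]
      _ ≤ (Ex.G0.L (jBound v1 v2) β r : ℝ≥0∞) * N 2 (v - 0) + 0 :=
          (N_add_le 0 _ _).trans (add_le_add hd h0.le)
      _ ≤ _ := by
          rw [sub_zero, add_zero, ENNReal.coe_mul]
          exact mul_le_mul' le_rfl hv
  refine (mul_le_mul' le_rfl ((N_add_le 0 _ _).trans (add_le_add h1
    ((N_smul 0 _ _).le.trans (mul_le_mul' (enorm_t ht0 ht) (Ex.N0_eval hb hv _)))))).trans ?_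
  rw [← ENNReal.coe_mul, ← ENNReal.coe_add, ← ENNReal.coe_mul]
  refine ENNReal.coe_le_coe.2 ?_
  calc kap v1 v2 * (Ex.G0.L (jBound v1 v2) β r * r + t0 * Ex.G1.A (jBound v1 v2) β r)
      = kap v1 v2 * Ex.G0.L (jBound v1 v2) β r * r
        + kap v1 v2 * (t0 * Ex.G1.A (jBound v1 v2) β r) := by ring
    _ ≤ 1 / 2 * r + r / 2 :=
        add_le_add (mul_le_mul' ((mul_le_mul' le_rfl le_self_add).trans hθ) le_rfl) hA
    _ = r := by rw [one_div_mul_eq_div, add_halves]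

/-- The Picard iterates. -/
noncomputable def iter (v1 v2 : P2) (b : Fin 5 → Cf) (t : ℝ) : ℕ → Cf
  | 0 => 0
  | i + 1 => T v1 v2 b t (iter v1 v2 b t i)

lemma sym_iter (hb : ∀ i, Sym (b i)) (t : ℝ) : ∀ i, Sym (iter v1 v2 b t i)
  | 0 => sym_zero
  | i + 1 => sym_invLap v1 v2 ((Ex.sym_eval hb (sym_iter hb t i) _).add
      ((Ex.sym_eval hb (sym_iter hb t i) _).smul t))

/-- The fixed point for one parameter. -/
lemma exists_fixed (h : det2 v1 v2 ≠ 0) (hb : ∀ i, N 0 (b i) ≤ (β i : ℝ≥0∞))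
    (hR : ∀ i, Rapid (b i)) (hS : ∀ i, Sym (b i)) {t : ℝ} (ht0 : 0 ≤ t) (ht : t ≤ (t0 : ℝ))
    (hθ : kap v1 v2 * (Ex.G0.L (jBound v1 v2) β r + t0 * Ex.G1.L (jBound v1 v2) β r) ≤ 1 / 2)
    (hA : kap v1 v2 * (t0 * Ex.G1.A (jBound v1 v2) β r) ≤ r / 2) :
    ∃ c : Cf, Rapid c ∧ Sym c ∧ N 2 c ≤ (r : ℝ≥0∞) ∧ T v1 v2 b t c = c := by
  set u := iter v1 v2 b t with hu
  have hball : ∀ i, N 2 (u i) ≤ (r : ℝ≥0∞) := by
    intro i
    induction i with
    | zero => simp [hu, iter, N_zero]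
    | succ i ih => exact T_maps h hb ht0 ht hθ hA ih
  set a : ℝ≥0∞ := ((1 / 2 : ℝ≥0) : ℝ≥0∞) with ha
  have ha2 : a * 2 = 1 := by
    rw [ha, show (2 : ℝ≥0∞) = ((2 : ℝ≥0) : ℝ≥0∞) by simp, ← ENNReal.coe_mul]
    norm_num
  have hstep : ∀ i, N 2 (u (i + 1) - u i) ≤ a ^ i * r := by
    intro i
    induction i with
    | zero => rw [pow_zero, one_mul, show u 0 = 0 from rfl, sub_zero]; exact hball 1
    | succ i ih =>
      refine (T_dist h hb ht0 ht hθ (hball (i + 1)) (hball i)).trans ?_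
      rw [pow_succ', mul_assoc]
      exact mul_le_mul' le_rfl ih
  have hfar : ∀ m i, N 2 (u (i + m) - u i) ≤ a ^ i * r * 2 := by
    intro m
    induction m with
    | zero => intro i; simp [N_zero]
    | succ m ih =>
      intro i
      rw [show i + (m + 1) = i + 1 + m by omega,
        ← sub_add_sub_cancel (u (i + 1 + m)) (u (i + 1)) (u i)]
      refine (N_add_le 2 _ _).trans ((add_le_add (ih (i + 1)) (hstep i)).trans (le_of_eq ?_))
      calc a ^ (i + 1) * r * 2 + a ^ i * r = a ^ i * r * (a * 2) + a ^ i * r := by ring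
        _ = a ^ i * r * 2 := by rw [ha2]; ring
  have hcau : ∀ n, CauchySeq fun i => u i n := by
    intro n
    refine cauchySeq_of_edist_le_geometric a r ?_ ENNReal.coe_ne_top fun i => ?_
    · rw [ha]; exact ENNReal.coe_lt_one_iff.2 (by norm_num)
    · rw [edist_comm, edist_eq_enorm_sub, mul_comm]
      exact (enorm_le_N 2 (u (i + 1) - u i) n).trans (hstep i)
  choose c hc using fun n => cauchySeq_tendsto_of_complete (hcau n)
  have hc2 : N 2 c ≤ (r : ℝ≥0∞) := N_le_of_tendsto hc (Eventually.of_forall hball)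
  have herr : ∀ i, N 2 (c - u i) ≤ a ^ i * r * 2 := by
    intro i
    refine N_le_of_tendsto (u := fun j => u j - u i) (fun n => (hc n).sub_const _)
      (eventually_atTop.2 ⟨i, fun j hj => ?_⟩)
    obtain ⟨m, rfl⟩ := Nat.exists_eq_add_of_le hj
    exact hfar m i
  have hsym : Sym c := fun n => tendsto_nhds_unique (hc (-n))
    (((Complex.continuous_conj.tendsto _).comp (hc n)).congr fun i => (sym_iter hS t i n).symm)
  have hfix : T v1 v2 b t c = c := by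
    have hz : N 2 (T v1 v2 b t c - c) = 0 := by
      refine le_antisymm (ge_of_tendsto (x := atTop)
        (f := fun i : ℕ => a ^ i * r * 2 + a ^ i * r * 2) ?_ (Eventually.of_forall fun i => ?_))
        zero_le
      · have hp : Tendsto (fun i => a ^ i) atTop (𝓝 0) :=
          ENNReal.tendsto_pow_atTop_nhds_zero_of_lt_one (by
            rw [ha]; exact ENNReal.coe_lt_one_iff.2 (by norm_num))
        have h2 := ENNReal.Tendsto.mul_const (ENNReal.Tendsto.mul_const hp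
          (Or.inr (ENNReal.coe_ne_top (r := r)))) (b := 2) (Or.inr ENNReal.ofNat_ne_top)
        simpa using h2.add h2
      · rw [← sub_add_sub_cancel (T v1 v2 b t c) (u (i + 1)) c]
        refine (N_add_le 2 _ _).trans (add_le_add ?_ ?_)
        · refine (T_dist h hb ht0 ht hθ hc2 (hball i)).trans ?_
          refine (mul_le_mul' le_rfl (herr i)).trans ?_
          calc a * (a ^ i * r * 2) ≤ 1 * (a ^ i * r * 2) :=
                mul_le_mul' (by rw [ha]; exact ENNReal.coe_le_one_iff.2 (by norm_num)) le_rfl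
            _ = _ := one_mul _
        · have : N 2 (u (i + 1) - c) = N 2 (c - u (i + 1)) := by
            simp only [N, Pi.sub_apply, ← edist_eq_enorm_sub, edist_comm]
          rw [this]
          refine (herr (i + 1)).trans ?_
          rw [pow_succ]
          calc a ^ i * a * r * 2 ≤ a ^ i * 1 * r * 2 := by
                gcongr; rw [ha]; exact ENNReal.coe_le_one_iff.2 (by norm_num)
            _ = _ := by rw [mul_one]
    funext n
    have := (enorm_le_N 2 (T v1 v2 b t c - c) n).trans hz.le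
    simpa [sub_eq_zero] using this
  have hk : ∀ k, ∃ M : ℝ≥0, ∀ i, N (k + 2) (u i) ≤ (M : ℝ≥0∞) := by
    intro k
    induction k using Nat.strongRecOn with
    | _ k ih =>
      rcases Nat.eq_zero_or_pos k with rfl | hkpos
      · exact ⟨r, hball⟩
      choose M hM using ih
      let M' : ℕ → ℝ≥0 := fun j => if hj : j < k then M j hj else 0
      obtain ⟨C0, hC0⟩ := Ex.eval_top (v1 := v1) (v2 := v2) (r := r) hb hR hkpos M' Ex.G0
      obtain ⟨C1, hC1⟩ := Ex.eval_top (v1 := v1) (v2 := v2) (r := r) hb hR hkpos M' Ex.G1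
      refine ⟨2 * (kap v1 v2 * (C0 + t0 * C1)), fun i => ?_⟩
      induction i with
      | zero => simp [hu, iter, N_zero]
      | succ i hi =>
        have hlow : ∀ j < k, N (j + 2) (u i) ≤ (M' j : ℝ≥0∞) := fun j hj => by
          simp only [M', dif_pos hj]; exact hM j hj i
        refine (N_invLap_le h k _).trans ?_
        refine (mul_le_mul' le_rfl ((N_add_le k _ _).trans (add_le_add (hC0 _ (hball i) hlow)
          ((N_smul k _ _).le.trans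
            (mul_le_mul' (enorm_t ht0 ht) (hC1 _ (hball i) hlow)))))).trans ?_
        calc (kap v1 v2 : ℝ≥0∞) * ((Ex.G0.L (jBound v1 v2) β r : ℝ≥0∞) * N (k + 2) (u i) + (C0 : ℝ≥0∞)
              + (t0 : ℝ≥0∞) * ((Ex.G1.L (jBound v1 v2) β r : ℝ≥0∞) * N (k + 2) (u i) + (C1 : ℝ≥0∞)))
            = ((kap v1 v2 * (Ex.G0.L (jBound v1 v2) β r + t0 * Ex.G1.L (jBound v1 v2) β r) : ℝ≥0) :
                ℝ≥0∞) * N (k + 2) (u i) + ((kap v1 v2 * (C0 + t0 * C1) : ℝ≥0) : ℝ≥0∞) := by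
              push_cast; ring
          _ ≤ ((1 / 2 : ℝ≥0) : ℝ≥0∞) * ((2 * (kap v1 v2 * (C0 + t0 * C1)) : ℝ≥0) : ℝ≥0∞)
              + ((kap v1 v2 * (C0 + t0 * C1) : ℝ≥0) : ℝ≥0∞) :=
              add_le_add (mul_le_mul' (ENNReal.coe_le_coe.2 hθ) hi) le_rfl
          _ = _ := by rw [← ENNReal.coe_mul, ← ENNReal.coe_add]; congr 1; ring
  refine ⟨c, fun k => ?_, hsym, hc2, hfix⟩
  obtain ⟨M, hM⟩ := hk k
  exact N_ne_top_of_le (Nat.le_add_right k 2)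
    (ne_top_of_le_ne_top ENNReal.coe_ne_top (N_le_of_tendsto hc (Eventually.of_forall hM)))

end

/-- Solutions for all small parameters, Lipschitz in the parameter. -/
theorem exists_family {v1 v2 : P2} (h : det2 v1 v2 ≠ 0) (b : Fin 5 → Cf)
    (hR : ∀ i, Rapid (b i)) (hS : ∀ i, Sym (b i)) :
    ∃ (t0 : ℝ) (C : ℝ≥0) (c : ℝ → Cf), 0 < t0 ∧ c 0 = 0 ∧
      (∀ t ∈ Set.Icc 0 t0, Rapid (c t) ∧ Sym (c t) ∧ T v1 v2 b t (c t) = c t) ∧
      ∀ t ∈ Set.Icc 0 t0, ∀ s ∈ Set.Icc 0 t0,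
        N 2 (c t - c s) ≤ (C : ℝ≥0∞) * ‖((t - s : ℝ) : ℂ)‖ₑ := by
  classical
  let β : Fin 5 → ℝ≥0 := fun i => (N 0 (b i)).toNNReal
  have hb : ∀ i, N 0 (b i) ≤ (β i : ℝ≥0∞) := fun i => (ENNReal.coe_toNNReal (hR i 0)).ge
  obtain ⟨r, t0, hr, ht0, hθ, hA⟩ := exists_small (jBound v1 v2) (kap v1 v2) β
  have hex : ∀ t ∈ Set.Icc (0 : ℝ) t0,
      ∃ c : Cf, Rapid c ∧ Sym c ∧ N 2 c ≤ (r : ℝ≥0∞) ∧ T v1 v2 b t c = c :=
    fun t ht => exists_fixed h hb hR hS ht.1 ht.2 hθ hA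
  choose c hcR hcS hcB hcT using hex
  let cc : ℝ → Cf := fun t => if ht : t ∈ Set.Icc (0 : ℝ) t0 then c t ht else 0
  have hcc : ∀ t (ht : t ∈ Set.Icc (0 : ℝ) t0), cc t = c t ht := fun t ht => dif_pos ht
  set A1 := Ex.G1.A (jBound v1 v2) β r
  have hlip : ∀ t ∈ Set.Icc (0 : ℝ) t0, ∀ s ∈ Set.Icc (0 : ℝ) t0,
      N 2 (cc t - cc s) ≤ ((2 * (kap v1 v2 * A1) : ℝ≥0) : ℝ≥0∞) * ‖((t - s : ℝ) : ℂ)‖ₑ := by
    intro t ht s hs
    rw [hcc t ht, hcc s hs]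
    have hfin : N 2 (c t ht - c s hs) ≠ ⊤ :=
      ne_top_of_le_ne_top (ENNReal.add_ne_top.2 ⟨hcR t ht 2, hcR s hs 2⟩) (N_sub_le 2 _ _)
    have key : N 2 (c t ht - c s hs) ≤ ((1 / 2 : ℝ≥0) : ℝ≥0∞) * N 2 (c t ht - c s hs)
        + ((kap v1 v2 * A1 : ℝ≥0) : ℝ≥0∞) * ‖((t - s : ℝ) : ℂ)‖ₑ := by
      conv_lhs => rw [← hcT t ht, ← hcT s hs,
        ← sub_add_sub_cancel (T v1 v2 b t (c t ht)) (T v1 v2 b t (c s hs)) (T v1 v2 b s (c s hs))]
      refine (N_add_le 2 _ _).trans (add_le_add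
        (T_dist h hb ht.1 ht.2 hθ (hcB t ht) (hcB s hs)) ?_)
      rw [T, T, invLap_sub]
      refine (N_invLap_le h 0 _).trans ?_
      rw [G, G, add_sub_add_left_eq_sub, ← sub_smul, ← Complex.ofReal_sub]
      refine (mul_le_mul' le_rfl ((N_smul 0 _ _).le.trans
        (mul_le_mul' le_rfl (Ex.N0_eval hb (hcB s hs) _)))).trans (le_of_eq ?_)
      push_cast; ring
    lift N 2 (c t ht - c s hs) to ℝ≥0 using hfin with d hd
    rw [enorm_eq_nnnorm] at key ⊢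
    rw [← ENNReal.coe_mul, ← ENNReal.coe_mul, ← ENNReal.coe_add, ENNReal.coe_le_coe] at key
    rw [← ENNReal.coe_mul, ENNReal.coe_le_coe, ← NNReal.coe_le_coe]
    rw [← NNReal.coe_le_coe] at key
    push_cast at key ⊢
    linarith
  have h00 : cc 0 = 0 := by
    have h0 : (0 : ℝ) ∈ Set.Icc (0 : ℝ) t0 := ⟨le_rfl, t0.coe_nonneg⟩
    rw [hcc 0 h0]
    have hz0 : N 2 (T v1 v2 b 0 0) = 0 := by
      refine le_antisymm ((N_invLap_le h 0 _).trans ?_) zero_le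
      have hG := Ex.N0_eval (v1 := v1) (v2 := v2) (r := 0) hb (v := 0) (by simp [N_zero]) Ex.G0
      rw [Ex.G0_A_zero, ENNReal.coe_zero] at hG
      have : G v1 v2 b 0 0 = Ex.G0.eval v1 v2 b 0 := by simp [G]
      rw [this, nonpos_iff_eq_zero.1 hG, mul_zero]
    have hd : N 2 (c 0 h0) ≤ ((1 / 2 : ℝ≥0) : ℝ≥0∞) * N 2 (c 0 h0) := by
      conv_lhs => rw [← hcT 0 h0]
      calc N 2 (T v1 v2 b 0 (c 0 h0))
          = N 2 ((T v1 v2 b 0 (c 0 h0) - T v1 v2 b 0 0) + T v1 v2 b 0 0) := by rw [sub_add_cancel]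
        _ ≤ ((1 / 2 : ℝ≥0) : ℝ≥0∞) * N 2 (c 0 h0 - 0) + 0 := (N_add_le 2 _ _).trans (add_le_add
            (T_dist h hb le_rfl h0.2 hθ (hcB 0 h0) (by simp [N_zero])) hz0.le)
        _ = _ := by rw [sub_zero, add_zero]
    obtain ⟨d, hd'⟩ : ∃ d : ℝ≥0, (d : ℝ≥0∞) = N 2 (c 0 h0) := ⟨_, ENNReal.coe_toNNReal (hcR 0 h0 2)⟩
    rw [← hd', ← ENNReal.coe_mul, ENNReal.coe_le_coe, ← NNReal.coe_le_coe] at hd
    push_cast at hd
    have hd0 : d = 0 := NNReal.eq (le_antisymm (by push_cast; linarith) d.coe_nonneg)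
    funext n
    have hn := enorm_le_N 2 (c 0 h0) n
    rw [← hd', hd0] at hn
    simpa using hn
  exact ⟨t0, 2 * (kap v1 v2 * A1), cc, by exact_mod_cast ht0, h00,
    fun t ht => by rw [hcc t ht]; exact ⟨hcR t ht, hcS t ht, hcT t ht⟩, hlip⟩

end Vale.Agent.P205.Fourier
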