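import Vale.Agent.P205.Defs

/-
P205: flat tori in the unit sphere of four-space whose lattice contains two prescribed vectors.

`H(s,t) = exp(i s) eta(tau(t))`, where `eta` is a horizontal curve over an oscillating latitude.
-/

namespace Vale.Agent.P205

open Vale.Agent.P229 (P2)
open Real
open scoped ContDiff

namespace Hopf

variable (al dl : ℝ) (k : ℕ)

/-- The height of the curve. -/
noncomputable def prof (τ : ℝ) : ℝ := al + dl * sin (k * τ)

/-- The first phase. -/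
noncomputable def ph1 (τ : ℝ) : ℝ := 2 * (al * τ - dl * cos (k * τ) / k)

/-- The second phase. -/
noncomputable def ph2 (τ : ℝ) : ℝ := ph1 al dl k τ - 2 * τ

/-- The speed of the curve. -/
noncomputable def spd (τ : ℝ) : ℝ :=
  sqrt ((dl * k * cos (k * τ)) ^ 2 / (4 * (prof al dl k τ * (1 - prof al dl k τ)))
    + 4 * (prof al dl k τ * (1 - prof al dl k τ)))

variable {al dl k}

lemma prof_mem (ha : al ∈ Set.Icc (1 / 4 : ℝ) (3 / 4)) (hd : dl ∈ Set.Icc (0 : ℝ) (1 / 8)) (τ : ℝ) :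
    0 < prof al dl k τ ∧ prof al dl k τ < 1 := by
  have h1 := abs_le.1 (abs_sin_le_one ((k : ℝ) * τ))
  obtain ⟨a1, a2⟩ := ha
  obtain ⟨d1, d2⟩ := hd
  unfold prof
  constructor <;> nlinarith

lemma prof_mul_pos (ha : al ∈ Set.Icc (1 / 4 : ℝ) (3 / 4)) (hd : dl ∈ Set.Icc (0 : ℝ) (1 / 8))
    (τ : ℝ) : 0 < prof al dl k τ * (1 - prof al dl k τ) :=
  mul_pos (prof_mem ha hd τ).1 (sub_pos.2 (prof_mem ha hd τ).2)

lemma sq_spd_arg_pos (ha : al ∈ Set.Icc (1 / 4 : ℝ) (3 / 4)) (hd : dl ∈ Set.Icc (0 : ℝ) (1 / 8))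
    (τ : ℝ) : 0 < (dl * k * cos (k * τ)) ^ 2 / (4 * (prof al dl k τ * (1 - prof al dl k τ)))
      + 4 * (prof al dl k τ * (1 - prof al dl k τ)) := by
  have := prof_mul_pos (k := k) ha hd τ
  positivity

lemma spd_pos (ha : al ∈ Set.Icc (1 / 4 : ℝ) (3 / 4)) (hd : dl ∈ Set.Icc (0 : ℝ) (1 / 8))
    (τ : ℝ) : 0 < spd al dl k τ :=
  sqrt_pos.2 (sq_spd_arg_pos ha hd τ)

lemma spd_periodic (τ : ℝ) : spd al dl k (τ + 2 * π) = spd al dl k τ := by
  simp only [spd, prof, mul_add, cos_add_nat_mul_two_pi, sin_add_nat_mul_two_pi]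

lemma abs_cos_le_spd (ha : al ∈ Set.Icc (1 / 4 : ℝ) (3 / 4)) (hd : dl ∈ Set.Icc (0 : ℝ) (1 / 8))
    (τ : ℝ) : dl * k * cos (k * τ) ^ 2 ≤ spd al dl k τ := by
  have hw := prof_mul_pos (k := k) ha hd τ
  have hw4 : 4 * (prof al dl k τ * (1 - prof al dl k τ)) ≤ 1 := by
    nlinarith [sq_nonneg (2 * prof al dl k τ - 1)]
  have hd0 : 0 ≤ dl * k := mul_nonneg hd.1 k.cast_nonneg
  refine le_sqrt_of_sq_le ?_
  calc (dl * k * cos (k * τ) ^ 2) ^ 2 ≤ (dl * k * cos (k * τ)) ^ 2 := by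
        rw [mul_pow, mul_pow (dl * k) (cos _)]
        refine mul_le_mul_of_nonneg_left ?_ (sq_nonneg _)
        nlinarith [sq_nonneg (cos (k * τ)), cos_sq_le_one ((k : ℝ) * τ)]
    _ ≤ (dl * k * cos (k * τ)) ^ 2 / (4 * (prof al dl k τ * (1 - prof al dl k τ))) :=
        le_div_self (sq_nonneg _) (by positivity) hw4
    _ ≤ _ := le_add_of_nonneg_right (by positivity)

lemma spd_le_one (τ : ℝ) : spd al 0 k τ ≤ 1 := by
  refine sqrt_le_one.2 ?_
  simp only [zero_mul, zero_pow two_ne_zero, zero_div, zero_add]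
  nlinarith [sq_nonneg (2 * prof al 0 k τ - 1)]

lemma contDiff_spd (ha : al ∈ Set.Icc (1 / 4 : ℝ) (3 / 4)) (hd : dl ∈ Set.Icc (0 : ℝ) (1 / 8)) :
    ContDiff ℝ ∞ (spd al dl k) := by
  have hf : ContDiff ℝ ∞ (prof al dl k) := by unfold prof; fun_prop
  refine ContDiff.sqrt ?_ (fun τ => (sq_spd_arg_pos ha hd τ).ne')
  refine ContDiff.add (ContDiff.div ?_ (by fun_prop) fun τ => ?_) (by fun_prop)
  · fun_prop
  · have := prof_mul_pos (k := k) ha hd τ
    positivity

/-- The length over one period takes every value between `2 π` and `π k / 8`. -/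
lemma exists_length (ha : al ∈ Set.Icc (1 / 4 : ℝ) (3 / 4)) {l : ℝ} (h1 : 2 * π ≤ l)
    (h2 : l ≤ π * k / 8) (hk : 0 < k) :
    ∃ d ∈ Set.Icc (0 : ℝ) (1 / 8), ∫ τ in (0 : ℝ)..2 * π, spd al d k τ = l := by
  set c : ℝ → ℝ := fun x => max 0 (min x (1 / 8)) with hc
  have hcm : ∀ x, c x ∈ Set.Icc (0 : ℝ) (1 / 8) := fun x =>
    ⟨le_max_left _ _, max_le (by norm_num) (min_le_right _ _)⟩
  have hcont : Continuous fun x => ∫ τ in (0 : ℝ)..2 * π, spd al (c x) k τ := by
    refine intervalIntegral.continuous_parametric_intervalIntegral_of_continuous' ?_ 0 (2 * π)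
    simp only [Function.uncurry_def, spd, prof, hc]
    refine continuous_sqrt.comp (Continuous.add (Continuous.div (by fun_prop) (by fun_prop) ?_)
      (by fun_prop))
    intro p
    have := prof_mul_pos (k := k) ha (hcm p.1) p.2
    simp only [prof, hc] at this
    exact mul_ne_zero (by norm_num) this.ne'
  have hlo : ∫ τ in (0 : ℝ)..2 * π, spd al (c 0) k τ ≤ l := by
    have e0 : c 0 = 0 := by simp [hc]
    rw [e0]
    refine le_trans ?_ h1
    have := intervalIntegral.integral_mono_on (a := (0 : ℝ)) (b := 2 * π) (by positivity)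
      ((contDiff_spd (k := k) ha ⟨le_rfl, (by norm_num : (0:ℝ) ≤ 1 / 8)⟩).continuous.intervalIntegrable _ _)
      (intervalIntegrable_const (μ := MeasureTheory.volume)) fun τ _ => spd_le_one (al := al) (k := k) τ
    simpa using this
  have hhi : l ≤ ∫ τ in (0 : ℝ)..2 * π, spd al (c (1 / 8)) k τ := by
    have e1 : c (1 / 8) = 1 / 8 := by norm_num [hc]
    rw [e1]
    have hd : (1 / 8 : ℝ) ∈ Set.Icc (0 : ℝ) (1 / 8) := ⟨by norm_num, le_rfl⟩
    refine le_trans ?_ (intervalIntegral.integral_mono_on (a := (0 : ℝ)) (b := 2 * π)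
      (by positivity) ((by fun_prop : Continuous fun τ : ℝ =>
        (1 / 8 : ℝ) * k * cos (k * τ) ^ 2).intervalIntegrable _ _)
      ((contDiff_spd ha hd).continuous.intervalIntegrable _ _)
      fun τ _ => abs_cos_le_spd ha hd τ)
    rw [intervalIntegral.integral_const_mul,
      intervalIntegral.integral_comp_mul_left (fun x => cos x ^ 2) (Nat.cast_ne_zero.2 hk.ne'),
      integral_cos_sq]
    have hs : sin ((k : ℝ) * (2 * π)) = 0 := by
      have := sin_add_nat_mul_two_pi 0 k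
      simpa using this
    simp only [hs, mul_zero, sin_zero, smul_eq_mul, sub_zero, zero_add, sub_self]
    have hk' : (k : ℝ) ≠ 0 := Nat.cast_ne_zero.2 hk.ne'
    refine h2.trans (le_of_eq ?_)
    field_simp
  obtain ⟨x, -, hx⟩ := intermediate_value_Icc (by norm_num : (0 : ℝ) ≤ 1 / 8)
    hcont.continuousOn ⟨hlo, hhi⟩
  exact ⟨c x, hcm x, hx⟩

/-- The inverse of the arclength. -/
lemma exists_inverse (ha : al ∈ Set.Icc (1 / 4 : ℝ) (3 / 4)) (hd : dl ∈ Set.Icc (0 : ℝ) (1 / 8))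
    {l : ℝ} (hl : 0 < l) (hlen : ∫ τ in (0 : ℝ)..2 * π, spd al dl k τ = l) :
    ∃ T : ℝ → ℝ, ContDiff ℝ ∞ T ∧ (∀ t, HasDerivAt T (spd al dl k (T t))⁻¹ t) ∧
      ∀ t, T (t + l) = T t + 2 * π := by
  have hsc := contDiff_spd (k := k) ha hd
  set S : ℝ → ℝ := fun x => ∫ τ in (0 : ℝ)..x, spd al dl k τ with hS
  have hder : ∀ x, HasDerivAt S (spd al dl k x) x := fun x =>
    (hsc.continuous.integral_hasStrictDerivAt 0 x).hasDerivAt
  have hcontS : Continuous S := continuous_iff_continuousAt.2 fun x => (hder x).continuousAt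
  have hmono : StrictMono S := strictMono_of_deriv_pos fun x => by
    rw [(hder x).deriv]; exact spd_pos ha hd x
  have hadd : ∀ x, S (x + 2 * π) = S x + l := by
    intro x
    simp only [hS]
    rw [← intervalIntegral.integral_add_adjacent_intervals (b := x)
      (hsc.continuous.intervalIntegrable _ _) (hsc.continuous.intervalIntegrable _ _),
      Function.Periodic.intervalIntegral_add_eq (fun τ => spd_periodic τ) x 0, zero_add, hlen]
  have hint : ∀ j : ℤ, S (j * (2 * π)) = j * l := by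
    have hg : Function.Periodic (fun x => S x - l / (2 * π) * x) (2 * π) := fun x => by
      simp only [hadd, mul_add, div_mul_cancel₀ l (by positivity : (2 * π : ℝ) ≠ 0)]
      ring
    intro j
    have h0 : S 0 = 0 := intervalIntegral.integral_same
    have h := hg.int_mul_eq j
    simp only [h0, mul_zero, sub_zero] at h
    have e : l / (2 * π) * (j * (2 * π)) = j * l := by field_simp
    linarith
  have hsurj : Function.Surjective S := by
    intro y
    have h1 : (⌊y / l⌋ : ℝ) * l ≤ y := (le_div_iff₀ hl).1 (Int.floor_le _)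
    have h2 : y ≤ ((⌊y / l⌋ + 1 : ℤ) : ℝ) * l := by
      push_cast; exact ((div_lt_iff₀ hl).1 (Int.lt_floor_add_one _)).le
    obtain ⟨x, -, hx⟩ := intermediate_value_Icc
      (a := (⌊y / l⌋ : ℝ) * (2 * π)) (b := ((⌊y / l⌋ + 1 : ℤ) : ℝ) * (2 * π))
      (by gcongr; exact_mod_cast (Int.le_add_one le_rfl))
      hcontS.continuousOn ⟨(hint _).symm ▸ h1, (hint _).symm ▸ h2⟩
    exact ⟨x, hx⟩
  set e : ℝ ≃ₜ ℝ := (hmono.orderIsoOfSurjective S hsurj).toHomeomorph with he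
  have hes : (e : ℝ → ℝ) = S := rfl
  refine ⟨e.symm, ?_, fun t => ?_, fun t => ?_⟩
  · refine e.contDiff_symm_deriv (f' := spd al dl k) (fun x => (spd_pos ha hd x).ne')
      (fun x => by rw [hes]; exact hder x) ?_
    rw [hes]
    refine contDiff_infty_iff_deriv.2 ⟨fun x => (hder x).differentiableAt, ?_⟩
    rw [funext fun x => (hder x).deriv]
    exact hsc
  · exact HasDerivAt.of_local_left_inverse e.symm.continuous.continuousAt
      (hes ▸ hder (e.symm t)) (spd_pos ha hd _).ne'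
      (Filter.Eventually.of_forall fun y => e.apply_symm_apply y)
  · refine e.injective ?_
    rw [e.apply_symm_apply]
    conv_rhs => rw [hes, hadd, ← hes, e.apply_symm_apply]

end Hopf

open Hopf in
/-- Flat tori in the unit sphere with two prescribed periods. -/
theorem hopf : HopfSpec := by
  intro m a l _ hl
  obtain ⟨al, ha, j, hj⟩ : ∃ al ∈ Set.Icc (1 / 4 : ℝ) (3 / 4),
      ∃ j : ℤ, 4 * π * al = -a + j * (2 * π) := by
    refine ⟨((⌈(π + a) / (2 * π)⌉ : ℝ) * (2 * π) - a) / (4 * π), ⟨?_, ?_⟩,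
      ⌈(π + a) / (2 * π)⌉, ?_⟩
    · have := Int.le_ceil ((π + a) / (2 * π))
      rw [div_le_iff₀ (by positivity)] at this
      rw [le_div_iff₀ (by positivity)]
      linarith
    · have := (Int.ceil_lt_add_one ((π + a) / (2 * π))).le
      rw [← sub_le_iff_le_add, le_div_iff₀ (by positivity)] at this
      rw [div_le_iff₀ (by positivity)]
      linarith
    · field_simp; ring
  obtain ⟨k, hk⟩ := exists_nat_gt (8 * l / π)
  have hl0 : 0 < l := lt_trans (by positivity) hl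
  have hk0 : 0 < k := by
    have : (0 : ℝ) < k := lt_trans (by positivity) hk
    exact_mod_cast this
  have hkl : l ≤ π * k / 8 := by
    rw [div_lt_iff₀ pi_pos] at hk; linarith
  obtain ⟨dl, hd, hlen⟩ := exists_length ha hl.le hkl hk0
  obtain ⟨T, hTs, hTd, hTp⟩ := exists_inverse ha hd hl0 hlen
  set f := prof al dl k with hf
  set p1 := ph1 al dl k with hp1
  set p2 := ph2 al dl k with hp2
  set σ := spd al dl k with hσ
  have hfs : ContDiff ℝ ∞ f := by rw [hf]; unfold prof; fun_prop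
  have hp1s : ContDiff ℝ ∞ p1 := by rw [hp1]; unfold ph1; fun_prop
  have hp2s : ContDiff ℝ ∞ p2 := by rw [hp2]; unfold ph2 ph1; fun_prop
  have hf0 : ∀ τ, 0 < f τ := fun τ => (prof_mem ha hd τ).1
  have hf1 : ∀ τ, 0 < 1 - f τ := fun τ => sub_pos.2 (prof_mem ha hd τ).2
  let g1 : ℝ → ℝ := fun t => sqrt (1 - f (T t))
  let g2 : ℝ → ℝ := fun t => sqrt (f (T t))
  let q1 : ℝ → ℝ := fun t => p1 (T t)
  let q2 : ℝ → ℝ := fun t => p2 (T t)
  have hg1 : ContDiff ℝ ∞ g1 :=
    (contDiff_const.sub (hfs.comp hTs)).sqrt fun t => (hf1 _).ne'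
  have hg2 : ContDiff ℝ ∞ g2 := (hfs.comp hTs).sqrt fun t => (hf0 _).ne'
  have hq1 : ContDiff ℝ ∞ q1 := hp1s.comp hTs
  have hq2 : ContDiff ℝ ∞ q2 := hp2s.comp hTs
  let H : P2 → EuclideanSpace ℝ (Fin 4) := fun u => !₂[g1 u.2 * cos (u.1 + q1 u.2),
    g1 u.2 * sin (u.1 + q1 u.2), g2 u.2 * cos (u.1 + q2 u.2), g2 u.2 * sin (u.1 + q2 u.2)]
  have hH : ContDiff ℝ ∞ H := by
    refine contDiff_euclidean.2 fun i => ?_
    fin_cases i <;> simp [H] <;> fun_prop
  refine ⟨H, hH, fun u => ?_, fun u v w => ?_, fun u => ⟨?_, ?_⟩⟩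
  · have e1 : g1 u.2 ^ 2 = 1 - f (T u.2) := sq_sqrt (hf1 _).le
    have e2 : g2 u.2 ^ 2 = f (T u.2) := sq_sqrt (hf0 _).le
    have h : ‖H u‖ ^ 2 = 1 := by
      rw [EuclideanSpace.norm_sq_eq]
      simp [H, Fin.sum_univ_four]
      linear_combination (g1 u.2 ^ 2) * sin_sq_add_cos_sq (u.1 + q1 u.2)
        + (g2 u.2 ^ 2) * sin_sq_add_cos_sq (u.1 + q2 u.2) + e1 + e2
    exact (sq_eq_one_iff.1 h).resolve_right (by linarith [norm_nonneg (H u)])
  · set t := u.2 with ht
    set τ := T t with hτ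
    have hσ0 : 0 < σ τ := spd_pos ha hd τ
    have hdf : HasDerivAt f (dl * k * cos (k * τ)) τ := by
      have := ((((hasDerivAt_id τ).const_mul (k : ℝ)).sin).const_mul dl).const_add al
      refine this.congr_deriv ?_
      simp; ring
    have hdp1 : HasDerivAt p1 (2 * f τ) τ := by
      have := ((((hasDerivAt_id τ).const_mul al).sub
        (((((hasDerivAt_id τ).const_mul (k : ℝ)).cos).const_mul dl).div_const (k : ℝ)))).const_mul
          (2 : ℝ)
      refine this.congr_deriv ?_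
      simp [hf, prof]
      field_simp
      ring
    have hdp2 : HasDerivAt p2 (2 * f τ - 2) τ := by
      refine (hdp1.sub ((hasDerivAt_id τ).const_mul (2 : ℝ))).congr_deriv ?_
      ring
    have dg1 : HasDerivAt g1 (-(dl * k * cos (k * τ) * (σ τ)⁻¹) / (2 * g1 t)) t :=
      (((hdf.comp t (hTd t)).const_sub 1).sqrt (hf1 _).ne').congr_deriv rfl
    have dg2 : HasDerivAt g2 (dl * k * cos (k * τ) * (σ τ)⁻¹ / (2 * g2 t)) t :=
      ((hdf.comp t (hTd t)).sqrt (hf0 _).ne').congr_deriv rfl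
    have dq1 : HasDerivAt q1 (2 * f τ * (σ τ)⁻¹) t := hdp1.comp t (hTd t)
    have dq2 : HasDerivAt q2 ((2 * f τ - 2) * (σ τ)⁻¹) t := hdp2.comp t (hTd t)
    have hfst : HasFDerivAt (fun y : P2 => y.1) (ContinuousLinearMap.fst ℝ ℝ ℝ) u :=
      (ContinuousLinearMap.fst ℝ ℝ ℝ).hasFDerivAt
    have hsnd : HasFDerivAt (fun y : P2 => y.2) (ContinuousLinearMap.snd ℝ ℝ ℝ) u :=
      (ContinuousLinearMap.snd ℝ ℝ ℝ).hasFDerivAt
    have F1 := dg1.comp_hasFDerivAt u hsnd
    have F2 := dg2.comp_hasFDerivAt u hsnd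
    have A1 := hfst.add (dq1.comp_hasFDerivAt u hsnd)
    have A2 := hfst.add (dq2.comp_hasFDerivAt u hsnd)
    have hdiff : DifferentiableAt ℝ H u := (hH.differentiable (by simp)).differentiableAt
    have key : ∀ z, fderiv ℝ H u z = !₂[
        -(dl * k * cos (k * τ) * (σ τ)⁻¹) / (2 * g1 t) * z.2 * cos (u.1 + q1 t)
          - g1 t * sin (u.1 + q1 t) * (z.1 + 2 * f τ * (σ τ)⁻¹ * z.2),
        -(dl * k * cos (k * τ) * (σ τ)⁻¹) / (2 * g1 t) * z.2 * sin (u.1 + q1 t)
          + g1 t * cos (u.1 + q1 t) * (z.1 + 2 * f τ * (σ τ)⁻¹ * z.2),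
        dl * k * cos (k * τ) * (σ τ)⁻¹ / (2 * g2 t) * z.2 * cos (u.1 + q2 t)
          - g2 t * sin (u.1 + q2 t) * (z.1 + (2 * f τ - 2) * (σ τ)⁻¹ * z.2),
        dl * k * cos (k * τ) * (σ τ)⁻¹ / (2 * g2 t) * z.2 * sin (u.1 + q2 t)
          + g2 t * cos (u.1 + q2 t) * (z.1 + (2 * f τ - 2) * (σ τ)⁻¹ * z.2)] := by
      intro z
      ext i
      have hp := (EuclideanSpace.proj (𝕜 := ℝ) i).hasFDerivAt.comp u hdiff.hasFDerivAt
      fin_cases i
      · have := hp.unique (F1.mul A1.cos)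
        have h := congrArg (fun L => L z) this
        simpa [H] using h.trans (by simp; ring)
      · have := hp.unique (F1.mul A1.sin)
        have h := congrArg (fun L => L z) this
        simpa [H] using h.trans (by simp; ring)
      · have := hp.unique (F2.mul A2.cos)
        have h := congrArg (fun L => L z) this
        simpa [H] using h.trans (by simp; ring)
      · have := hp.unique (F2.mul A2.sin)
        have h := congrArg (fun L => L z) this
        simpa [H] using h.trans (by simp; ring)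
    have e1 : g1 t ^ 2 = 1 - f τ := sq_sqrt (hf1 _).le
    have e2 : g2 t ^ 2 = f τ := sq_sqrt (hf0 _).le
    have n1 : g1 t ≠ 0 := (sqrt_pos.2 (hf1 _)).ne'
    have n2 : g2 t ≠ 0 := (sqrt_pos.2 (hf0 _)).ne'
    have hσ2 : σ τ ^ 2 = (dl * k * cos (k * τ)) ^ 2 / (4 * (f τ * (1 - f τ)))
        + 4 * (f τ * (1 - f τ)) := sq_sqrt (sq_spd_arg_pos ha hd τ).le
    have k1 := sin_sq_add_cos_sq (u.1 + q1 t)
    have k2 := sin_sq_add_cos_sq (u.1 + q2 t)
    set D := dl * k * cos (k * τ)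
    set G1 := -(D * (σ τ)⁻¹) / (2 * g1 t) with hG1
    set G2 := D * (σ τ)⁻¹ / (2 * g2 t) with hG2
    have sp : G1 ^ 2 + G2 ^ 2 + g1 t ^ 2 * (2 * f τ * (σ τ)⁻¹) ^ 2
        + g2 t ^ 2 * ((2 * f τ - 2) * (σ τ)⁻¹) ^ 2 = 1 := by
      rw [hG1, hG2, div_pow, div_pow, mul_pow 2 (g1 t), mul_pow 2 (g2 t), e1, e2]
      have := hf0 τ
      have := hf1 τ
      field_simp
      field_simp at hσ2
      linear_combination -hσ2
    rw [key, key]
    simp [PiLp.inner_apply, Fin.sum_univ_four]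
    linear_combination (G1 ^ 2 * v.2 * w.2
        + g1 t ^ 2 * (v.1 + 2 * f τ * (σ τ)⁻¹ * v.2) * (w.1 + 2 * f τ * (σ τ)⁻¹ * w.2)) * k1
      + (G2 ^ 2 * v.2 * w.2 + g2 t ^ 2 * (v.1 + (2 * f τ - 2) * (σ τ)⁻¹ * v.2)
          * (w.1 + (2 * f τ - 2) * (σ τ)⁻¹ * w.2)) * k2
      + (v.2 * w.2) * sp
      + (v.1 * w.1 + 2 * f τ * (σ τ)⁻¹ * (v.1 * w.2 + v.2 * w.1)) * e1
      + (v.1 * w.1 + (2 * f τ - 2) * (σ τ)⁻¹ * (v.1 * w.2 + v.2 * w.1)) * e2
  · have e : u + (2 * π * (m : ℝ), 0) = (u.1 + (m : ℝ) * (2 * π), u.2) := by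
      ext <;> simp; ring
    rw [e]
    simp only [H]
    have r : ∀ x : ℝ, u.1 + (m : ℝ) * (2 * π) + x = u.1 + x + (m : ℝ) * (2 * π) := fun x => by ring
    simp only [r, cos_add_nat_mul_two_pi, sin_add_nat_mul_two_pi]
  · have e : u + (a, l) = (u.1 + a, u.2 + l) := by ext <;> simp
    rw [e]
    have hf2 : f (T u.2 + 2 * π) = f (T u.2) := by
      simp only [hf, prof, mul_add, sin_add_nat_mul_two_pi]
    have r1 : u.1 + a + p1 (T u.2 + 2 * π) = u.1 + p1 (T u.2) + j * (2 * π) := by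
      simp only [hp1, ph1, mul_add, cos_add_nat_mul_two_pi]
      linarith
    have r2 : u.1 + a + p2 (T u.2 + 2 * π) = u.1 + p2 (T u.2) + (j - 2 : ℤ) * (2 * π) := by
      simp only [hp2, ph2, ph1, mul_add, cos_add_nat_mul_two_pi]
      push_cast
      linarith
    simp only [H, g1, g2, q1, q2, hTp, hf2, r1, r2, cos_add_int_mul_two_pi, sin_add_int_mul_two_pi]

end Vale.Agent.P205
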