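import Vale.Agent.P205.Algebra

/-
P205: polynomial expressions in the 2-jet of a coefficient family, with their size and derivative
bounds. The same derivative bound controls Lipschitz constants and the highest weighted norm.
-/

namespace Vale.Agent.P205.Fourier

open Vale.Agent.P229 (P2)
open scoped ENNReal NNReal
open Finset

/-- Multipliers of the 2-jet. -/
noncomputable def jmul (v1 v2 : P2) : Fin 6 → Z2 → ℂ :=
  ![fun _ => 1, m1 v1 v2, m2 v1 v2, fun n => m1 v1 v2 n * m1 v1 v2 n,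
    fun n => m2 v1 v2 n * m1 v1 v2 n, fun n => m2 v1 v2 n * m2 v1 v2 n]

/-- The entries of the 2-jet. -/
noncomputable def jet (v1 v2 : P2) (i : Fin 6) (v : Cf) : Cf := fun n => jmul v1 v2 i n * v n

/-- A bound for the multipliers of the 2-jet. -/
noncomputable def jBound (v1 v2 : P2) : ℝ≥0 :=
  (1 + 2 * Real.pi.toNNReal * ((‖v1.1‖₊ + ‖v1.2‖₊ + ‖v2.1‖₊ + ‖v2.2‖₊) / ‖det2 v1 v2‖₊)) ^ 2

lemma abs_l_le (v1 v2 : P2) (n : Z2) :
    |l1 v1 v2 n| ≤ (|v1.1| + |v1.2| + |v2.1| + |v2.2|) / |det2 v1 v2| * (w n : ℝ) ∧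
    |l2 v1 v2 n| ≤ (|v1.1| + |v1.2| + |v2.1| + |v2.2|) / |det2 v1 v2| * (w n : ℝ) := by
  set S := |v1.1| + |v1.2| + |v2.1| + |v2.2|
  have hw : (w n : ℝ) = 1 + |(n.1 : ℝ)| + |(n.2 : ℝ)| := by
    simp [w]
  have key : ∀ a b : ℝ, |a| ≤ S → |b| ≤ S →
      |((n.1 : ℝ) * a - (n.2 : ℝ) * b) / det2 v1 v2| ≤ S / |det2 v1 v2| * (w n : ℝ) ∧
      |((n.2 : ℝ) * a - (n.1 : ℝ) * b) / det2 v1 v2| ≤ S / |det2 v1 v2| * (w n : ℝ) := by
    intro a b ha hb
    simp only [abs_div, div_mul_eq_mul_div]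
    have h1 := abs_sub ((n.1 : ℝ) * a) ((n.2 : ℝ) * b)
    have h2 := abs_sub ((n.2 : ℝ) * a) ((n.1 : ℝ) * b)
    simp only [abs_mul] at h1 h2
    have hS : 0 ≤ S := (abs_nonneg a).trans ha
    refine ⟨div_le_div_of_nonneg_right ?_ (abs_nonneg _), div_le_div_of_nonneg_right ?_ (abs_nonneg _)⟩ <;>
      rw [hw] <;>
      nlinarith [abs_nonneg (n.1 : ℝ), abs_nonneg (n.2 : ℝ)]
  exact ⟨(key v2.2 v1.2 (by simp only [S]; linarith [abs_nonneg v1.1, abs_nonneg v1.2, abs_nonneg v2.1])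
      (by simp only [S]; linarith [abs_nonneg v1.1, abs_nonneg v2.1, abs_nonneg v2.2])).1,
    (key v1.1 v2.1 (by simp only [S]; linarith [abs_nonneg v1.2, abs_nonneg v2.1, abs_nonneg v2.2])
      (by simp only [S]; linarith [abs_nonneg v1.1, abs_nonneg v1.2, abs_nonneg v2.2])).2⟩

lemma nnnorm_m_le (v1 v2 : P2) (n : Z2) :
    ‖m1 v1 v2 n‖₊ ≤ 2 * Real.pi.toNNReal *
      ((‖v1.1‖₊ + ‖v1.2‖₊ + ‖v2.1‖₊ + ‖v2.2‖₊) / ‖det2 v1 v2‖₊) * (w n : ℝ≥0) ∧
    ‖m2 v1 v2 n‖₊ ≤ 2 * Real.pi.toNNReal *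
      ((‖v1.1‖₊ + ‖v1.2‖₊ + ‖v2.1‖₊ + ‖v2.2‖₊) / ‖det2 v1 v2‖₊) * (w n : ℝ≥0) := by
  obtain ⟨h1, h2⟩ := abs_l_le v1 v2 n
  simp only [← NNReal.coe_le_coe, m1, m2]
  push_cast
  simp only [Real.coe_toNNReal _ Real.pi_nonneg, norm_mul, Complex.norm_real, Complex.norm_I,
    Complex.norm_ofNat, mul_one, Real.norm_eq_abs, abs_of_nonneg Real.pi_nonneg]
  have hp : (0 : ℝ) ≤ 2 * Real.pi := mul_nonneg zero_le_two Real.pi_nonneg
  exact ⟨(mul_le_mul_of_nonneg_left h1 hp).trans_eq (mul_assoc _ _ _).symm,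
    (mul_le_mul_of_nonneg_left h2 hp).trans_eq (mul_assoc _ _ _).symm⟩

lemma enorm_jmul_le (v1 v2 : P2) (i : Fin 6) (n : Z2) :
    ‖jmul v1 v2 i n‖ₑ ≤ (jBound v1 v2 : ℝ≥0∞) * (w n : ℝ≥0∞) ^ 2 := by
  set a : ℝ≥0 := 2 * Real.pi.toNNReal *
    ((‖v1.1‖₊ + ‖v1.2‖₊ + ‖v2.1‖₊ + ‖v2.2‖₊) / ‖det2 v1 v2‖₊) with ha
  obtain ⟨h1, h2⟩ := nnnorm_m_le v1 v2 n
  rw [← ha] at h1 h2
  have hw : (1 : ℝ≥0) ≤ (w n : ℝ≥0) := by exact_mod_cast one_le_w n
  have one_le : ∀ x : ℝ≥0, x ≤ (1 + a) * (w n : ℝ≥0) → x ≤ jBound v1 v2 * (w n : ℝ≥0) ^ 2 := by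
    intro x hx
    refine hx.trans ?_
    rw [jBound, ← ha]
    exact mul_le_mul' (le_self_pow₀ (le_add_of_nonneg_right zero_le) two_ne_zero)
      (le_self_pow₀ hw two_ne_zero)
  have two : ∀ x y : ℝ≥0, x ≤ a * (w n : ℝ≥0) → y ≤ a * (w n : ℝ≥0) →
      x * y ≤ jBound v1 v2 * (w n : ℝ≥0) ^ 2 := by
    intro x y hx hy
    refine (mul_le_mul' hx hy).trans (le_trans (le_of_eq (by ring)) ?_ (b := a ^ 2 * (w n : ℝ≥0) ^ 2))
    rw [jBound, ← ha]
    exact mul_le_mul' (pow_le_pow_left' le_add_self 2) le_rfl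
  have hb : ∀ x : ℝ≥0, x ≤ a * (w n : ℝ≥0) → x ≤ (1 + a) * (w n : ℝ≥0) :=
    fun x hx => hx.trans (mul_le_mul' le_add_self le_rfl)
  have key : ‖jmul v1 v2 i n‖₊ ≤ jBound v1 v2 * (w n : ℝ≥0) ^ 2 := by
    fin_cases i
    · show ‖(1 : ℂ)‖₊ ≤ _
      rw [nnnorm_one]
      exact one_le 1 (one_le_mul (le_add_of_nonneg_right zero_le) hw)
    · exact one_le _ (hb _ h1)
    · exact one_le _ (hb _ h2)
    · exact (le_of_eq (nnnorm_mul _ _)).trans (two _ _ h1 h1)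
    · exact (le_of_eq (nnnorm_mul _ _)).trans (two _ _ h2 h1)
    · exact (le_of_eq (nnnorm_mul _ _)).trans (two _ _ h2 h2)
  rw [enorm_eq_nnnorm]
  exact_mod_cast key

lemma N_jet_le (v1 v2 : P2) (i : Fin 6) (k : ℕ) (v : Cf) :
    N k (jet v1 v2 i v) ≤ (jBound v1 v2 : ℝ≥0∞) * N (k + 2) v :=
  N_mult_le k 2 (enorm_jmul_le v1 v2 i) v

lemma jet_sub (v1 v2 : P2) (i : Fin 6) (v v' : Cf) :
    jet v1 v2 i v - jet v1 v2 i v' = jet v1 v2 i (v - v') := by
  funext n; simp [jet, mul_sub]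

lemma m1_neg (v1 v2 : P2) (n : Z2) : m1 v1 v2 (-n) = starRingEnd ℂ (m1 v1 v2 n) := by
  have : l1 v1 v2 (-n) = -l1 v1 v2 n := by simp [l1]; ring
  simp [m1, this, map_ofNat]

lemma m2_neg (v1 v2 : P2) (n : Z2) : m2 v1 v2 (-n) = starRingEnd ℂ (m2 v1 v2 n) := by
  have : l2 v1 v2 (-n) = -l2 v1 v2 n := by simp [l2]; ring
  simp [m2, this, map_ofNat]

lemma sym_jet (v1 v2 : P2) (i : Fin 6) {v : Cf} (hv : Sym v) : Sym (jet v1 v2 i v) := by
  refine hv.mult fun n => ?_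
  fin_cases i <;> simp [jmul, m1_neg, m2_neg]

/-- Polynomials in the 2-jet and five given families. -/
inductive Ex where
  | var (i : Fin 6)
  | cst (i : Fin 5)
  | one
  | add (x y : Ex)
  | sub (x y : Ex)
  | mul (x y : Ex)

namespace Ex

variable (v1 v2 : P2) (b : Fin 5 → Cf) (J : ℝ≥0) (β : Fin 5 → ℝ≥0) (r : ℝ≥0)

/-- Evaluation. -/
noncomputable def eval : Ex → Cf → Cf
  | .var i, v => jet v1 v2 i v
  | .cst i, _ => b i
  | .one, _ => Fourier.one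
  | .add x y, v => x.eval v + y.eval v
  | .sub x y, v => x.eval v - y.eval v
  | .mul x y, v => Fourier.conv (x.eval v) (y.eval v)

/-- The size bound. -/
def A : Ex → ℝ≥0
  | .var _ => J * r
  | .cst i => β i
  | .one => 1
  | .add x y => x.A + y.A
  | .sub x y => x.A + y.A
  | .mul x y => x.A * y.A

/-- The derivative bound. -/
def L : Ex → ℝ≥0
  | .var _ => J
  | .cst _ => 0
  | .one => 0
  | .add x y => x.L + y.L
  | .sub x y => x.L + y.L
  | .mul x y => x.L * y.A J β r + x.A J β r * y.L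

variable {v1 v2 b β r}

lemma continuous_A (e : Ex) : Continuous fun s => e.A J β s := by
  induction e with
  | var i => exact continuous_const.mul continuous_id
  | cst i => exact continuous_const
  | one => exact continuous_const
  | add x y hx hy => exact hx.add hy
  | sub x y hx hy => exact hx.add hy
  | mul x y hx hy => exact hx.mul hy

lemma continuous_L (e : Ex) : Continuous fun s => e.L J β s := by
  induction e with
  | var i => exact continuous_const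
  | cst i => exact continuous_const
  | one => exact continuous_const
  | add x y hx hy => exact hx.add hy
  | sub x y hx hy => exact hx.add hy
  | mul x y hx hy => exact (hx.mul (continuous_A J y)).add ((continuous_A J x).mul hy)

lemma sym_eval (hb : ∀ i, Sym (b i)) {v : Cf} (hv : Sym v) (e : Ex) :
    Sym (e.eval v1 v2 b v) := by
  induction e with
  | var i => exact sym_jet v1 v2 i hv
  | cst i => exact hb i
  | one => exact sym_one
  | add x y hx hy => exact hx.add hy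
  | sub x y hx hy => exact hx.sub hy
  | mul x y hx hy => exact hx.conv hy

lemma N0_eval (hb : ∀ i, N 0 (b i) ≤ (β i : ℝ≥0∞)) {v : Cf} (hv : N 2 v ≤ (r : ℝ≥0∞)) (e : Ex) :
    N 0 (e.eval v1 v2 b v) ≤ (e.A (jBound v1 v2) β r : ℝ≥0∞) := by
  induction e with
  | var i =>
    refine (N_jet_le v1 v2 i 0 v).trans ?_
    simp only [A, ENNReal.coe_mul]
    exact mul_le_mul' le_rfl hv
  | cst i => exact hb i
  | one => simp [eval, A, N_one]
  | add x y hx hy =>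
    simp only [A, ENNReal.coe_add]
    exact (N_add_le 0 _ _).trans (add_le_add hx hy)
  | sub x y hx hy =>
    simp only [A, ENNReal.coe_add]
    exact (N_sub_le 0 _ _).trans (add_le_add hx hy)
  | mul x y hx hy =>
    simp only [A, ENNReal.coe_mul]
    exact (N0_conv_le _ _).trans (mul_le_mul' hx hy)

lemma N0_eval_ne_top (hb : ∀ i, N 0 (b i) ≤ (β i : ℝ≥0∞)) {v : Cf} (hv : N 2 v ≤ (r : ℝ≥0∞))
    (e : Ex) : N 0 (e.eval v1 v2 b v) ≠ ⊤ :=
  ne_top_of_le_ne_top ENNReal.coe_ne_top (N0_eval hb hv e)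

lemma N0_eval_sub (hb : ∀ i, N 0 (b i) ≤ (β i : ℝ≥0∞)) {v v' : Cf} (hv : N 2 v ≤ (r : ℝ≥0∞))
    (hv' : N 2 v' ≤ (r : ℝ≥0∞)) (e : Ex) :
    N 0 (e.eval v1 v2 b v - e.eval v1 v2 b v')
      ≤ (e.L (jBound v1 v2) β r : ℝ≥0∞) * N 2 (v - v') := by
  induction e with
  | var i =>
    simp only [eval, jet_sub]
    exact N_jet_le v1 v2 i 0 (v - v')
  | cst i => simp [eval, N_zero]
  | one => simp [eval, N_zero]
  | add x y hx hy =>
    simp only [eval, L, ENNReal.coe_add, add_mul, add_sub_add_comm]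
    exact (N_add_le 0 _ _).trans (add_le_add hx hy)
  | sub x y hx hy =>
    simp only [eval, L, ENNReal.coe_add, add_mul]
    rw [sub_sub_sub_comm]
    exact (N_sub_le 0 _ _).trans (add_le_add hx hy)
  | mul x y hx hy =>
    simp only [eval, L, ENNReal.coe_add, ENNReal.coe_mul, add_mul]
    rw [conv_sub (N0_eval_ne_top hb hv x) (N0_eval_ne_top hb hv' x) (N0_eval_ne_top hb hv y)
      (N0_eval_ne_top hb hv' y), add_comm (_ * _ * N 2 (v - v'))]
    refine (N_add_le 0 _ _).trans (add_le_add ?_ ?_)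
    · rw [mul_assoc]
      exact (N0_conv_le _ _).trans (mul_le_mul' (N0_eval hb hv x) hy)
    · refine (N0_conv_le _ _).trans (le_trans (mul_le_mul' hx (N0_eval hb hv' y)) (le_of_eq ?_))
      ring

lemma eval_bdd (hb : ∀ i, Rapid (b i)) (e : Ex) :
    ∀ (k : ℕ) (M : ℕ → ℝ≥0), ∃ C : ℝ≥0, ∀ v, (∀ j ≤ k, N (j + 2) v ≤ (M j : ℝ≥0∞)) →
      N k (e.eval v1 v2 b v) ≤ (C : ℝ≥0∞) := by
  induction e with
  | var i =>
    intro k M
    exact ⟨jBound v1 v2 * M k, fun v hv => (N_jet_le v1 v2 i k v).trans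
      (by rw [ENNReal.coe_mul]; exact mul_le_mul' le_rfl (hv k le_rfl))⟩
  | cst i => intro k M; exact ⟨(N k (b i)).toNNReal, fun v _ => (ENNReal.coe_toNNReal (hb i k)).ge⟩
  | one => intro k M; exact ⟨1, fun v _ => by simp [eval, N_one]⟩
  | add x y hx hy =>
    intro k M
    obtain ⟨C, hC⟩ := hx k M
    obtain ⟨C', hC'⟩ := hy k M
    exact ⟨C + C', fun v hv => (N_add_le k _ _).trans
      (by rw [ENNReal.coe_add]; exact add_le_add (hC v hv) (hC' v hv))⟩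
  | sub x y hx hy =>
    intro k M
    obtain ⟨C, hC⟩ := hx k M
    obtain ⟨C', hC'⟩ := hy k M
    exact ⟨C + C', fun v hv => (N_sub_le k _ _).trans
      (by rw [ENNReal.coe_add]; exact add_le_add (hC v hv) (hC' v hv))⟩
  | mul x y hx hy =>
    intro k M
    choose C hC using fun j => hx j M
    choose C' hC' using fun j => hy j M
    refine ⟨∑ j ∈ range (k + 1), (k.choose j : ℝ≥0) * (C j * C' (k - j)), fun v hv => ?_⟩
    refine (N_conv_le k _ _).trans ?_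
    push_cast
    refine Finset.sum_le_sum fun j hj => mul_le_mul' le_rfl (mul_le_mul' ?_ ?_)
    · exact hC j v fun i hi => hv i (by simp at hj; omega)
    · exact hC' (k - j) v fun i hi => hv i (by omega)

lemma eval_top (hb0 : ∀ i, N 0 (b i) ≤ (β i : ℝ≥0∞)) (hb : ∀ i, Rapid (b i)) {k : ℕ} (hk : 1 ≤ k)
    (M : ℕ → ℝ≥0) (e : Ex) :
    ∃ C : ℝ≥0, ∀ v, N 2 v ≤ (r : ℝ≥0∞) → (∀ j < k, N (j + 2) v ≤ (M j : ℝ≥0∞)) →
      N k (e.eval v1 v2 b v)
        ≤ (e.L (jBound v1 v2) β r : ℝ≥0∞) * N (k + 2) v + (C : ℝ≥0∞) := by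
  induction e with
  | var i => exact ⟨0, fun v _ _ => le_add_right (N_jet_le v1 v2 i k v)⟩
  | cst i =>
    exact ⟨(N k (b i)).toNNReal, fun v _ _ => le_add_left (ENNReal.coe_toNNReal (hb i k)).ge⟩
  | one => exact ⟨1, fun v _ _ => by simp [eval, N_one, L]⟩
  | add x y hx hy =>
    obtain ⟨C, hC⟩ := hx
    obtain ⟨C', hC'⟩ := hy
    refine ⟨C + C', fun v h hv => (N_add_le k _ _).trans ?_⟩
    refine (add_le_add (hC v h hv) (hC' v h hv)).trans (le_of_eq ?_)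
    simp only [L]; push_cast; ring
  | sub x y hx hy =>
    obtain ⟨C, hC⟩ := hx
    obtain ⟨C', hC'⟩ := hy
    refine ⟨C + C', fun v h hv => (N_sub_le k _ _).trans ?_⟩
    refine (add_le_add (hC v h hv) (hC' v h hv)).trans (le_of_eq ?_)
    simp only [L]; push_cast; ring
  | mul x y hx hy =>
    obtain ⟨C, hC⟩ := hx
    obtain ⟨C', hC'⟩ := hy
    choose D hD using fun j => eval_bdd hb x j M
    choose D' hD' using fun j => eval_bdd hb y j M
    refine ⟨C * y.A (jBound v1 v2) β r + x.A (jBound v1 v2) β r * C'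
      + ∑ j ∈ Ico 1 k, (k.choose j : ℝ≥0) * (D j * D' (k - j)), fun v h hv => ?_⟩
    refine (N_conv_le_top hk _ _).trans ?_
    refine (add_le_add (add_le_add (mul_le_mul' (hC v h hv) (N0_eval hb0 h y))
      (mul_le_mul' (N0_eval hb0 h x) (hC' v h hv)))
      (Finset.sum_le_sum (g := fun j => (k.choose j : ℝ≥0∞) * ((D j : ℝ≥0∞) * (D' (k - j) : ℝ≥0∞)))
        fun j hj => mul_le_mul' le_rfl (mul_le_mul' ?_ ?_))).trans (le_of_eq ?_)
    · exact hD j v fun i hi => hv i (by simp at hj; omega)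
    · exact hD' (k - j) v fun i hi => hv i (by simp at hj; omega)
    · simp only [L]; push_cast; ring

end Ex

end Vale.Agent.P205.Fourier
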