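import Vale.Agent.P205.Defs

/-
P205: primitives of closed one-forms on the plane as segment integrals.
-/

namespace Vale.Agent.P205

open Vale.Agent.P229 (P2 dp dy smooth_dp smooth_dy)
open MeasureTheory Set
open scoped ContDiff

variable {V : Type*} [NormedAddCommGroup V] [NormedSpace ℝ V] [CompleteSpace V]

/-- The one-form with coefficients `A`, `B`. -/
noncomputable def form (A B : P2 → V) (y : P2) : P2 →L[ℝ] V :=
  (ContinuousLinearMap.fst ℝ ℝ ℝ).smulRight (A y) + (ContinuousLinearMap.snd ℝ ℝ ℝ).smulRight (B y)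

@[simp] lemma form_apply (A B : P2 → V) (y v : P2) : form A B y v = v.1 • A y + v.2 • B y := rfl

/-- The primitive vanishing at the origin. -/
noncomputable def prim (A B : P2 → V) (y : P2) : V :=
  ∫ s in (0 : ℝ)..1, (y.1 • A (s • y) + y.2 • B (s • y))

@[simp] lemma prim_zero (A B : P2 → V) : prim A B 0 = 0 := by simp [prim]

lemma prim_eq (A B : P2 → V) (y : P2) :
    prim A B y = curveIntegral (form A B) (Path.segment 0 y) := by
  rw [curveIntegral_segment]
  simp [prim, AffineMap.lineMap_apply]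

/-- A closed form has its segment integral as primitive. -/
theorem hasFDerivAt_prim {A B : P2 → V} (hA : ContDiff ℝ ∞ A) (hB : ContDiff ℝ ∞ B)
    (hcl : ∀ y, fderiv ℝ B y (1, 0) = fderiv ℝ A y (0, 1)) (y : P2) :
    HasFDerivAt (prim A B) (form A B y) y := by
  have dA := fun a => ((hA.differentiable (by simp)) a).hasFDerivAt
  have dB := fun a => ((hB.differentiable (by simp)) a).hasFDerivAt
  have hd : ∀ a : P2, HasFDerivAt (form A B)
      ((ContinuousLinearMap.smulRightL ℝ P2 V (ContinuousLinearMap.fst ℝ ℝ ℝ)).comp (fderiv ℝ A a)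
        + (ContinuousLinearMap.smulRightL ℝ P2 V (ContinuousLinearMap.snd ℝ ℝ ℝ)).comp (fderiv ℝ B a))
      a := fun a =>
    ((ContinuousLinearMap.smulRightL ℝ P2 V
        (ContinuousLinearMap.fst ℝ ℝ ℝ)).hasFDerivAt.comp a (dA a)).add
      ((ContinuousLinearMap.smulRightL ℝ P2 V
        (ContinuousLinearMap.snd ℝ ℝ ℝ)).hasFDerivAt.comp a (dB a))
  have h := (convex_univ (𝕜 := ℝ) (E := P2)).hasFDerivWithinAt_curveIntegral_segment_of_hasFDerivWithinAt_symmetric
    (fun a _ => (hd a).hasFDerivWithinAt) (fun a _ u _ v _ => ?_) (mem_univ 0) (mem_univ y)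
  · rw [hasFDerivWithinAt_univ] at h
    rw [show prim A B = fun w => curveIntegral (form A B) (Path.segment 0 w) from
      funext (prim_eq A B)]
    exact h
  · have e : ∀ (f : P2 → V) (w : P2), fderiv ℝ f a w
        = w.1 • fderiv ℝ f a (1, 0) + w.2 • fderiv ℝ f a (0, 1) := fun f w => by
      rw [← map_smul, ← map_smul, ← map_add]
      congr 1
      ext <;> simp
    show v.1 • fderiv ℝ A a u + v.2 • fderiv ℝ B a u
      = u.1 • fderiv ℝ A a v + u.2 • fderiv ℝ B a v
    rw [e A u, e B u, e A v, e B v, hcl a]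
    module

theorem smooth_prim {A B : P2 → V} (hA : ContDiff ℝ ∞ A) (hB : ContDiff ℝ ∞ B)
    (hcl : ∀ y, fderiv ℝ B y (1, 0) = fderiv ℝ A y (0, 1)) : ContDiff ℝ ∞ (prim A B) := by
  have h := hasFDerivAt_prim hA hB hcl
  refine contDiff_infty_iff_fderiv.2 ⟨fun y => (h y).differentiableAt, ?_⟩
  rw [show fderiv ℝ (prim A B) = form A B from funext fun y => (h y).fderiv]
  exact (contDiff_const.smulRight hA).add (contDiff_const.smulRight hB)

/-- Continuity of the primitive in a parameter. -/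
theorem continuousOn_prim {T : Set ℝ} {A B : ℝ → P2 → V}
    (hA : ContinuousOn (fun p : ℝ × P2 => A p.1 p.2) (T ×ˢ univ))
    (hB : ContinuousOn (fun p : ℝ × P2 => B p.1 p.2) (T ×ˢ univ)) :
    ContinuousOn (fun p : ℝ × P2 => prim (A p.1) (B p.1) p.2) (T ×ˢ univ) := by
  rw [continuousOn_iff_continuous_domRestrict] at hA hB ⊢
  let σ : (↥(T ×ˢ (univ : Set P2))) × ℝ → ↥(T ×ˢ (univ : Set P2)) := fun r =>
    ⟨(r.1.1.1, r.2 • r.1.1.2), ⟨r.1.2.1, mem_univ _⟩⟩
  have hσ : Continuous σ := by fun_prop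
  refine intervalIntegral.continuous_parametric_intervalIntegral_of_continuous' ?_ 0 1
  exact ((by fun_prop : Continuous fun r : (↥(T ×ˢ (univ : Set P2))) × ℝ => r.1.1.2.1).smul
      (hA.comp hσ)).add
    ((by fun_prop : Continuous fun r : (↥(T ×ˢ (univ : Set P2))) × ℝ => r.1.1.2.2).smul
      (hB.comp hσ))

end Vale.Agent.P205
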