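import Vale.Agent.P205.Defs

/-
P205: weighted absolutely summable coefficient families on the dual lattice of a period lattice,
with values in `ℝ≥0∞` norms so that no summability side conditions are needed.
-/

namespace Vale.Agent.P205.Fourier

open Vale.Agent.P229 (P2)
open scoped ENNReal

/-- Frequencies. -/
abbrev Z2 := ℤ × ℤ

/-- Coefficient families. -/
abbrev Cf := Z2 → ℂ

/-- The weight of a frequency. -/
def w (n : Z2) : ℕ := 1 + n.1.natAbs + n.2.natAbs

/-- The weighted norms. -/
noncomputable def N (k : ℕ) (c : Cf) : ℝ≥0∞ := ∑' n, (w n : ℝ≥0∞) ^ k * ‖c n‖ₑ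

/-- All weighted norms are finite. -/
def Rapid (c : Cf) : Prop := ∀ k, N k c ≠ ⊤

/-- The coefficients of a real function. -/
def Sym (c : Cf) : Prop := ∀ n, c (-n) = starRingEnd ℂ (c n)

/-- The coefficients of the constant one. -/
def one : Cf := Pi.single 0 1

/-- The coefficients of a product. -/
noncomputable def conv (c d : Cf) : Cf := fun n => ∑' m, c m * d (n - m)

/-- First coordinate of a dual lattice vector. -/
noncomputable def l1 (v1 v2 : P2) (n : Z2) : ℝ :=
  ((n.1 : ℝ) * v2.2 - (n.2 : ℝ) * v1.2) / det2 v1 v2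

/-- Second coordinate of a dual lattice vector. -/
noncomputable def l2 (v1 v2 : P2) (n : Z2) : ℝ :=
  ((n.2 : ℝ) * v1.1 - (n.1 : ℝ) * v2.1) / det2 v1 v2

/-- The multiplier of the first partial derivative. -/
noncomputable def m1 (v1 v2 : P2) (n : Z2) : ℂ :=
  (2 * Real.pi * l1 v1 v2 n : ℝ) * Complex.I

/-- The multiplier of the second partial derivative. -/
noncomputable def m2 (v1 v2 : P2) (n : Z2) : ℂ :=
  (2 * Real.pi * l2 v1 v2 n : ℝ) * Complex.I

/-- First partial derivative on coefficients. -/
noncomputable def D1 (v1 v2 : P2) (c : Cf) : Cf := fun n => m1 v1 v2 n * c n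

/-- Second partial derivative on coefficients. -/
noncomputable def D2 (v1 v2 : P2) (c : Cf) : Cf := fun n => m2 v1 v2 n * c n

/-- The inverse Laplacian on the mean zero part. -/
noncomputable def invLap (v1 v2 : P2) (g : Cf) : Cf := fun n =>
  if n = 0 then 0 else g n / (m1 v1 v2 n ^ 2 + m2 v1 v2 n ^ 2)

/-- The series with given coefficients. -/
noncomputable def ev (v1 v2 : P2) (c : Cf) (y : P2) : ℂ :=
  ∑' n, c n * Complex.exp ((2 * Real.pi * (l1 v1 v2 n * y.1 + l2 v1 v2 n * y.2) : ℝ) * Complex.I)

/-- The real series with given coefficients. -/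
noncomputable def evR (v1 v2 : P2) (c : Cf) (y : P2) : ℝ := (ev v1 v2 c y).re

end Vale.Agent.P205.Fourier
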