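import Vale.Agent.P205.Fixed
import Vale.Agent.P205.Series

/-
P205: small periodic solutions of the flatness equation, continuous in the parameter.
-/

namespace Vale.Agent.P205

open Vale.Agent.P229 (P2 dp dy)
open scoped ContDiff ENNReal NNReal
open Vale.Agent.P205.Fourier

namespace Fourier

variable {v1 v2 : P2}

lemma rapid_D1 (v1 v2 : P2) {c : Cf} (hc : Rapid c) : Rapid (D1 v1 v2 c) := fun k => by
  refine ne_top_of_le_ne_top (ENNReal.mul_ne_top ENNReal.coe_ne_top (hc (k + 1)))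
    (N_mult_le k 1 (C := ((2 * Real.pi.toNNReal *
      ((‖v1.1‖₊ + ‖v1.2‖₊ + ‖v2.1‖₊ + ‖v2.2‖₊) / ‖det2 v1 v2‖₊) : ℝ≥0) : ℝ≥0∞)) (fun n => ?_) c)
  rw [pow_one, enorm_eq_nnnorm]
  exact_mod_cast (nnnorm_m_le v1 v2 n).1

lemma rapid_D2 (v1 v2 : P2) {c : Cf} (hc : Rapid c) : Rapid (D2 v1 v2 c) := fun k => by
  refine ne_top_of_le_ne_top (ENNReal.mul_ne_top ENNReal.coe_ne_top (hc (k + 1)))
    (N_mult_le k 1 (C := ((2 * Real.pi.toNNReal *
      ((‖v1.1‖₊ + ‖v1.2‖₊ + ‖v2.1‖₊ + ‖v2.2‖₊) / ‖det2 v1 v2‖₊) : ℝ≥0) : ℝ≥0∞)) (fun n => ?_) c)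
  rw [pow_one, enorm_eq_nnnorm]
  exact_mod_cast (nnnorm_m_le v1 v2 n).2

lemma rapid_one : Rapid one := fun k => by simp [N_one]

lemma Rapid.add {c d : Cf} (hc : Rapid c) (hd : Rapid d) : Rapid (c + d) := fun k =>
  ne_top_of_le_ne_top (ENNReal.add_ne_top.2 ⟨hc k, hd k⟩) (N_add_le k c d)

lemma jet_one (c : Cf) : jet v1 v2 0 c = c := funext fun n => by simp [jet, jmul]

/-- The values of the six jet entries of the series. -/
lemma jet_values (v1 v2 : P2) {c : Cf} (hc : Rapid c) :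
    evR v1 v2 (jet v1 v2 1 c) = dp (evR v1 v2 c) ∧
    evR v1 v2 (jet v1 v2 2 c) = dy (evR v1 v2 c) ∧
    evR v1 v2 (jet v1 v2 3 c) = dp (dp (evR v1 v2 c)) ∧
    evR v1 v2 (jet v1 v2 4 c) = dy (dp (evR v1 v2 c)) ∧
    evR v1 v2 (jet v1 v2 5 c) = dy (dy (evR v1 v2 c)) := by
  have e1 : jet v1 v2 1 c = D1 v1 v2 c := rfl
  have e2 : jet v1 v2 2 c = D2 v1 v2 c := rfl
  have e3 : jet v1 v2 3 c = D1 v1 v2 (D1 v1 v2 c) := funext fun n => mul_assoc _ _ _
  have e4 : jet v1 v2 4 c = D2 v1 v2 (D1 v1 v2 c) := funext fun n => mul_assoc _ _ _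
  have e5 : jet v1 v2 5 c = D2 v1 v2 (D2 v1 v2 c) := funext fun n => mul_assoc _ _ _
  rw [e1, e2, e3, e4, e5, dp_evR (hc 1), dy_evR (hc 1), dp_evR (rapid_D1 v1 v2 hc 1),
    dy_evR (rapid_D1 v1 v2 hc 1), dy_evR (rapid_D2 v1 v2 hc 1)]
  exact ⟨rfl, rfl, rfl, rfl, rfl⟩

/-- A polynomial in the jet as a function. -/
noncomputable def fval (u : Fin 6 → ℝ) (β : Fin 5 → ℝ) : Ex → ℝ
  | .var i => u i
  | .cst i => β i
  | .one => 1
  | .add x y => fval u β x + fval u β y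
  | .sub x y => fval u β x - fval u β y
  | .mul x y => fval u β x * fval u β y

lemma evR_eval {b : Fin 5 → Cf} (hR : ∀ i, Rapid (b i)) (hS : ∀ i, Sym (b i)) {c : Cf}
    (hc : Rapid c) (hs : Sym c) (e : Ex) (y : P2) :
    evR v1 v2 (e.eval v1 v2 b c) y
      = fval (fun i => evR v1 v2 (jet v1 v2 i c) y) (fun i => evR v1 v2 (b i) y) e := by
  have fin : ∀ e : Ex, N 0 (e.eval v1 v2 b c) ≠ ⊤ := fun e =>
    Ex.N0_eval_ne_top (β := fun i => (N 0 (b i)).toNNReal) (r := (N 2 c).toNNReal)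
      (fun i => (ENNReal.coe_toNNReal (hR i 0)).ge) (ENNReal.coe_toNNReal (hc 2)).ge e
  induction e with
  | var i => rfl
  | cst i => rfl
  | one => exact evR_one y
  | add x z hx hz => simp only [Ex.eval, fval, evR_add (fin x) (fin z), hx, hz]
  | sub x z hx hz => simp only [Ex.eval, fval, evR_sub (fin x) (fin z), hx, hz]
  | mul x z hx hz =>
    simp only [Ex.eval, fval, evR_conv (Ex.sym_eval hS hs x) (Ex.sym_eval hS hs z) (fin x) (fin z),
      hx, hz]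

/-- The coefficients of `1 + c`, one plus the fixed point. -/
noncomputable def qc (c : Cf) : Cf := one + c

lemma m1_zero (v1 v2 : P2) : m1 v1 v2 0 = 0 := by simp [m1, l1]

lemma m2_zero (v1 v2 : P2) : m2 v1 v2 0 = 0 := by simp [m2, l2]

lemma D1_one (v1 v2 : P2) (c : Cf) : D1 v1 v2 (qc c) = D1 v1 v2 c := funext fun n => by
  by_cases h : n = 0
  · subst h; simp [D1, m1_zero]
  · simp [D1, qc, one, h]

lemma D2_one (v1 v2 : P2) (c : Cf) : D2 v1 v2 (qc c) = D2 v1 v2 c := funext fun n => by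
  by_cases h : n = 0
  · subst h; simp [D2, m2_zero]
  · simp [D2, qc, one, h]

/-- A fixed point gives a solution of the equation up to a constant. -/
lemma flatEq_const (h : det2 v1 v2 ≠ 0) {B : Data} {b : Fin 5 → Cf}
    (hR : ∀ i, Rapid (b i)) (hS : ∀ i, Sym (b i))
    (hb : ∀ i, evR v1 v2 (b i) = ![B.b1, B.b2, B.b11, B.b12, B.b22] i)
    {t : ℝ} {c : Cf} (hc : Rapid c) (hs : Sym c) (hfix : T v1 v2 b t c = c) :
    ∃ m : ℝ, ∀ y, flatEq t B (evR v1 v2 (qc c)) y = m := by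
  have fin : ∀ e : Ex, N 0 (e.eval v1 v2 b c) ≠ ⊤ := fun e =>
    Ex.N0_eval_ne_top (β := fun i => (N 0 (b i)).toNNReal) (r := (N 2 c).toNNReal)
      (fun i => (ENNReal.coe_toNNReal (hR i 0)).ge) (ENNReal.coe_toNNReal (hc 2)).ge e
  set g := G v1 v2 b t c with hg
  set lc : Cf := jet v1 v2 3 c + jet v1 v2 5 c
  have hlc : N 0 lc ≠ ⊤ := fin (.add (.var 3) (.var 5))
  have hsmul : N 0 ((t : ℂ) • Ex.G1.eval v1 v2 b c) ≠ ⊤ := by
    rw [N_smul]; exact ENNReal.mul_ne_top enorm_ne_top (fin _)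
  have hg0 : N 0 g ≠ ⊤ :=
    ne_top_of_le_ne_top (ENNReal.add_ne_top.2 ⟨fin _, hsmul⟩) (N_add_le 0 _ _)
  have hker : ∀ n, n ≠ 0 → (lc - g) n = 0 := by
    intro n hn
    have hden : m1 v1 v2 n ^ 2 + m2 v1 v2 n ^ 2 ≠ 0 := by
      rw [den_eq, Complex.ofReal_ne_zero, neg_ne_zero]
      have hw := w_sq_le h hn
      have h1 : (1 : ℝ) ≤ (w n : ℝ) := by exact_mod_cast one_le_w n
      refine mul_ne_zero (by positivity) fun h0 => ?_
      rw [h0, mul_zero] at hw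
      nlinarith
    have hcn : c n = g n / (m1 v1 v2 n ^ 2 + m2 v1 v2 n ^ 2) := by
      conv_lhs => rw [← hfix]
      simp [T, invLap, hn, hg]
    have : lc n = (m1 v1 v2 n ^ 2 + m2 v1 v2 n ^ 2) * c n := by
      show m1 v1 v2 n * m1 v1 v2 n * c n + m2 v1 v2 n * m2 v1 v2 n * c n = _
      ring
    rw [Pi.sub_apply, this, hcn, mul_div_cancel₀ _ hden, sub_self]
  refine ⟨((lc - g) 0).re, fun y => ?_⟩
  have hsub : evR v1 v2 lc y - evR v1 v2 g y = ((lc - g) 0).re := by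
    rw [← evR_sub hlc hg0, evR_single0 hker]
  obtain ⟨j1, j2, j3, j4, j5⟩ := jet_values v1 v2 hc
  have hq : evR v1 v2 (qc c) = fun y => 1 + evR v1 v2 c y := funext fun y => by
    rw [qc, evR_add (rapid_one 0) (hc 0), evR_one]
  have hqR : Rapid (qc c) := rapid_one.add hc
  have d1 : dp (evR v1 v2 (qc c)) = dp (evR v1 v2 c) := by
    rw [dp_evR (hqR 1), dp_evR (hc 1), D1_one]
  have d2 : dy (evR v1 v2 (qc c)) = dy (evR v1 v2 c) := by
    rw [dy_evR (hqR 1), dy_evR (hc 1), D2_one]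
  have hlv : evR v1 v2 lc y = dp (dp (evR v1 v2 c)) y + dy (dy (evR v1 v2 c)) y := by
    show evR v1 v2 (jet v1 v2 3 c + jet v1 v2 5 c) y = _
    rw [evR_add (c := jet v1 v2 3 c) (d := jet v1 v2 5 c) (fin (.var 3)) (fin (.var 5)), j3, j5]
  rw [← hsub, hlv, hg, G, evR_add (fin _) hsmul, evR_smul, evR_eval hR hS hc hs,
    evR_eval hR hS hc hs]
  simp only [flatEq, lap, d1, d2]
  simp only [hq, Ex.G0, Ex.G1, Ex.q, Ex.q2, Ex.q3, Ex.q4, Ex.grad, Ex.a1,
    Ex.a2, Ex.c11, Ex.c12, Ex.c22, fval, hb, jet_one, j1, j2, j3, j4, j5,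
    Matrix.cons_val_zero, Matrix.cons_val_one, Matrix.cons_val]
  ring

/-- A Lipschitz family of coefficient families gives a jointly continuous function. -/
lemma continuousOn_evR {t0 : ℝ} {C : ℝ≥0} {c : ℝ → Cf} (hR : ∀ t ∈ Set.Icc 0 t0, Rapid (c t))
    (hlip : ∀ t ∈ Set.Icc 0 t0, ∀ s ∈ Set.Icc 0 t0,
      N 0 (c t - c s) ≤ (C : ℝ≥0∞) * ‖((t - s : ℝ) : ℂ)‖ₑ) :
    ContinuousOn (fun p : ℝ × P2 => evR v1 v2 (c p.1) p.2) (Set.Icc 0 t0 ×ˢ Set.univ) := by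
  intro p hp
  have hs := hp.1
  have hd : ∀ q ∈ Set.Icc (0 : ℝ) t0 ×ˢ (Set.univ : Set P2),
      dist (evR v1 v2 (c q.1) q.2) (evR v1 v2 (c p.1) q.2) ≤ (C : ℝ) * |q.1 - p.1| := by
    intro q hq
    rw [Real.dist_eq, ← evR_sub (hR _ hq.1 0) (hR _ hs 0)]
    have hfin : N 0 (c q.1 - c p.1) ≠ ⊤ :=
      ne_top_of_le_ne_top (ENNReal.add_ne_top.2 ⟨hR _ hq.1 0, hR _ hs 0⟩) (N_sub_le 0 _ _)
    refine (abs_evR_le hfin q.2).trans ?_
    have h := ENNReal.toReal_mono (ENNReal.mul_ne_top ENNReal.coe_ne_top enorm_ne_top)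
      (hlip _ hq.1 _ hs)
    simpa [ENNReal.toReal_mul, ← Complex.ofReal_sub, Complex.norm_real] using h
  have hcont : Continuous fun q : ℝ × P2 => evR v1 v2 (c p.1) q.2 :=
    (contDiff_evR (hR _ hs)).continuous.comp continuous_snd
  have hzero : Filter.Tendsto
      (fun q => evR v1 v2 (c q.1) q.2 - evR v1 v2 (c p.1) q.2)
      (nhdsWithin p (Set.Icc 0 t0 ×ˢ Set.univ)) (nhds 0) := by
    refine squeeze_zero_norm' (Filter.eventually_of_mem self_mem_nhdsWithin fun q hq => ?_)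
      (a := fun q => (C : ℝ) * |q.1 - p.1|) ?_
    · simpa [Real.dist_eq] using hd q hq
    · have : Continuous fun q : ℝ × P2 => (C : ℝ) * |q.1 - p.1| := by fun_prop
      simpa using (this.tendsto p).mono_left nhdsWithin_le_nhds
  have := hzero.add (hcont.continuousAt.continuousWithinAt (s := Set.Icc 0 t0 ×ˢ Set.univ))
  simpa [ContinuousWithinAt] using this

end Fourier

/-- The linear map with given values on the two basis vectors. -/
noncomputable def clmOf (a b : ℝ) : P2 →L[ℝ] ℝ :=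
  a • ContinuousLinearMap.fst ℝ ℝ ℝ + b • ContinuousLinearMap.snd ℝ ℝ ℝ

lemma fderiv_eq_clmOf (f : P2 → ℝ) (y : P2) : fderiv ℝ f y = clmOf (dp f y) (dy f y) := by
  ext <;> simp [clmOf, dp, dy]

/-- The flatness equation has small periodic solutions, continuous in the parameter. -/
theorem solve : SolveSpec := by
  intro v1 v2 h B hB
  have hex : ∀ i : Fin 5, ∃ c : Cf, Rapid c ∧ Sym c ∧
      evR v1 v2 c = ![B.b1, B.b2, B.b11, B.b12, B.b22] i := by
    intro i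
    fin_cases i
    · exact exists_coeff h hB.s1 hB.p1
    · exact exists_coeff h hB.s2 hB.p2
    · exact exists_coeff h hB.s11 hB.p11
    · exact exists_coeff h hB.s12 hB.p12
    · exact exists_coeff h hB.s22 hB.p22
  choose b hbR hbS hbv using hex
  obtain ⟨t0, C, c, ht0, hc0, hc, hlip⟩ := exists_family h b hbR hbS
  have hR : ∀ t ∈ Set.Icc 0 t0, Rapid (qc (c t)) := fun t ht => rapid_one.add (hc t ht).1
  have hlipj : ∀ i : Fin 6, ∀ t ∈ Set.Icc 0 t0, ∀ s ∈ Set.Icc 0 t0,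
      N 0 (jet v1 v2 i (qc (c t)) - jet v1 v2 i (qc (c s)))
        ≤ ((jBound v1 v2 * C : ℝ≥0) : ℝ≥0∞) * ‖((t - s : ℝ) : ℂ)‖ₑ := by
    intro i t ht s hs
    rw [jet_sub, qc, qc, add_sub_add_left_eq_sub, ENNReal.coe_mul, mul_assoc]
    exact (N_jet_le v1 v2 i 0 _).trans (mul_le_mul' le_rfl (hlip t ht s hs))
  have hjR : ∀ i : Fin 6, ∀ t ∈ Set.Icc 0 t0, Rapid (jet v1 v2 i (qc (c t))) := fun i t ht k =>
    ne_top_of_le_ne_top (ENNReal.mul_ne_top ENNReal.coe_ne_top (hR t ht (k + 2)))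
      (N_jet_le v1 v2 i k _)
  have hcont : ∀ i : Fin 6, ContinuousOn
      (fun p : ℝ × P2 => evR v1 v2 (jet v1 v2 i (qc (c p.1))) p.2)
      (Set.Icc 0 t0 ×ˢ Set.univ) := fun i => continuousOn_evR (hjR i) (hlipj i)
  refine ⟨t0, ht0, fun t => evR v1 v2 (qc (c t)), ?_, fun t ht => ?_, ?_, ?_, ?_⟩
  · funext y
    simp [qc, hc0, evR_one]
  · exact ⟨contDiff_evR (hR t ht), evR_periodic h _,
      flatEq_const h hbR hbS hbv (hc t ht).1 (hc t ht).2.1 (hc t ht).2.2⟩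
  · simpa only [jet_one] using hcont 0
  · have hg : ∀ p ∈ Set.Icc (0 : ℝ) t0 ×ˢ (Set.univ : Set P2),
        fderiv ℝ (evR v1 v2 (qc (c p.1))) p.2
          = clmOf (evR v1 v2 (jet v1 v2 1 (qc (c p.1))) p.2)
              (evR v1 v2 (jet v1 v2 2 (qc (c p.1))) p.2) := by
      intro p hp
      obtain ⟨j1, j2, -⟩ := jet_values v1 v2 (hR _ hp.1)
      rw [fderiv_eq_clmOf, j1, j2]
    refine ContinuousOn.congr ?_ hg
    exact ((hcont 1).smul continuousOn_const).add ((hcont 2).smul continuousOn_const)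
  · have hg : ∀ p ∈ Set.Icc (0 : ℝ) t0 ×ˢ (Set.univ : Set P2),
        fderiv ℝ (fderiv ℝ (evR v1 v2 (qc (c p.1)))) p.2
          = (clmOf (evR v1 v2 (jet v1 v2 3 (qc (c p.1))) p.2)
              (evR v1 v2 (jet v1 v2 4 (qc (c p.1))) p.2)).smulRight (ContinuousLinearMap.fst ℝ ℝ ℝ)
            + (clmOf (evR v1 v2 (jet v1 v2 4 (qc (c p.1))) p.2)
              (evR v1 v2 (jet v1 v2 5 (qc (c p.1))) p.2)).smulRight
                (ContinuousLinearMap.snd ℝ ℝ ℝ) := by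
      intro p hp
      obtain ⟨-, -, j3, j4, j5⟩ := jet_values v1 v2 (hR _ hp.1)
      set f := evR v1 v2 (qc (c p.1))
      have hf : ContDiff ℝ ∞ f := contDiff_evR (hR _ hp.1)
      have hfun : fderiv ℝ f = fun y => clmOf (dp f y) (dy f y) := funext (fderiv_eq_clmOf f)
      have h1 : DifferentiableAt ℝ (dp f) p.2 :=
        ((Vale.Agent.P229.smooth_dp hf).differentiable (by simp)).differentiableAt
      have h2 : DifferentiableAt ℝ (dy f) p.2 :=
        ((Vale.Agent.P229.smooth_dy hf).differentiable (by simp)).differentiableAt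
      rw [j3, j4, j5, hfun]
      simp only [clmOf]
      have hd := (h1.hasFDerivAt.smul_const (ContinuousLinearMap.fst ℝ ℝ ℝ)).add
        (h2.hasFDerivAt.smul_const (ContinuousLinearMap.snd ℝ ℝ ℝ))
      refine (HasFDerivAt.fderiv hd).trans ?_
      rw [fderiv_eq_clmOf (dp f), fderiv_eq_clmOf (dy f),
        ← Vale.Agent.P229.dy_dp_eq (hf.of_le (by exact WithTop.coe_le_coe.2 le_top)) p.2]
      rfl
    refine ContinuousOn.congr ?_ hg
    have hcl : ∀ i j : Fin 6, ContinuousOn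
        (fun p : ℝ × P2 => clmOf (evR v1 v2 (jet v1 v2 i (qc (c p.1))) p.2)
          (evR v1 v2 (jet v1 v2 j (qc (c p.1))) p.2)) (Set.Icc 0 t0 ×ˢ Set.univ) := fun i j =>
      ((hcont i).smul continuousOn_const).add ((hcont j).smul continuousOn_const)
    exact (((ContinuousLinearMap.smulRightL ℝ P2 (P2 →L[ℝ] ℝ)).flip
        (ContinuousLinearMap.fst ℝ ℝ ℝ)).continuous.comp_continuousOn (hcl 3 4)).add
      (((ContinuousLinearMap.smulRightL ℝ P2 (P2 →L[ℝ] ℝ)).flip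
        (ContinuousLinearMap.snd ℝ ℝ ℝ)).continuous.comp_continuousOn (hcl 4 5))

end Vale.Agent.P205
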