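import Vale.Agent.P205.Defs
import Vale.Agent.P205.UniformDefs

/-
P205: from the torus specifications to the statement in terms of a metric tensor.
-/

namespace Vale.Agent.P205

open Vale.Agent.P229 (P2)
open scoped ContDiff

theorem torus_metric (hu : UniformSpec) (ht : TorusSpec) :
    ∀ g : ℝ × ℝ → Matrix (Fin 2) (Fin 2) ℝ,
      (∀ i j, ContDiff ℝ ∞ fun x => g x i j) → (∀ x, (g x).PosDef) →
      (∀ x, g (x + (1, 0)) = g x ∧ g (x + (0, 1)) = g x) →
      ∃ F : ℝ × ℝ → EuclideanSpace ℝ (Fin 4), ContDiff ℝ ∞ F ∧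
        (∀ x, F (x + (1, 0)) = F x ∧ F (x + (0, 1)) = F x) ∧
        ∀ x, ∀ i j : Fin 2, inner ℝ (fderiv ℝ F x (![((1 : ℝ), (0 : ℝ)), (0, 1)] i))
          (fderiv ℝ F x (![((1 : ℝ), (0 : ℝ)), (0, 1)] j)) = g x i j := by
  intro g hg hpos hper
  have hsym : ∀ x, g x 1 0 = g x 0 1 := fun x => by
    have := congrFun (congrFun (hpos x).1 0) 1
    simpa using this
  have hp : ∀ x, 0 < g x 0 0 ∧ g x 0 1 ^ 2 < g x 0 0 * g x 1 1 := fun x => by
    have hd := (hpos x).det_pos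
    rw [Matrix.det_fin_two, hsym] at hd
    exact ⟨(hpos x).diag_pos, by linarith⟩
  obtain ⟨v1, v2, E, Ψ, hv, sE, pE, perE, sΨ, perΨ, hΨ⟩ := hu (fun x => g x 0 0) (fun x => g x 0 1)
    (fun x => g x 1 1) (hg 0 0) (hg 0 1) (hg 1 1)
    (fun x => by simp [(hper x).1, (hper x).2]) (fun x => by simp [(hper x).1, (hper x).2])
    (fun x => by simp [(hper x).1, (hper x).2]) hp
  obtain ⟨F, sF, perF, hF⟩ := ht v1 v2 hv E sE pE perE
  refine ⟨F ∘ Ψ, sF.comp sΨ, fun x => ?_, fun x i j => ?_⟩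
  · simp only [Function.comp_apply, (perΨ x).1, (perΨ x).2, (perF _).1, (perF _).2, and_self]
  · rw [fderiv_comp x ((sF.differentiable (by simp)) _) ((sΨ.differentiable (by simp)) x),
      ContinuousLinearMap.comp_apply, ContinuousLinearMap.comp_apply, hF, ← hΨ]
    fin_cases i <;> fin_cases j <;> simp [hsym]

end Vale.Agent.P205
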