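import Vale.Agent.P205.Develop
import Vale.Agent.P205.UniformDefs

/-
P205: uniformisation of torus metrics from an integrating factor.
-/

namespace Vale.Agent.P205

open Vale.Agent.P229 (P2)
open Set
open scoped ContDiff

/-- A map with onto differential which is periodic up to rotations is periodic up to
translations. -/
lemma translations {G : P2 → ℂ} {G' : P2 → P2 →L[ℝ] ℂ} (hG : ∀ x, HasFDerivAt G (G' x) x)
    (honto : ∀ x, Function.Surjective (G' x)) {v1 v2 : P2} (hv : det2 v1 v2 ≠ 0) (R : P2 → ℂ)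
    (hR : ∀ w, (w = v1 ∨ w = v2) → ‖R w‖ = 1 ∧ ∀ x, G (x + w) = R w * G x + G w) :
    ∀ w, (w = v1 ∨ w = v2) → ∀ x, G (x + w) = G x + G w := by
  intro v hv' x
  suffices hone : R v = 1 by rw [(hR v hv').2, hone, one_mul]
  by_contra hne
  have h1 : (1 - R v) ≠ 0 := sub_ne_zero.2 (Ne.symm hne)
  set z0 := G v / (1 - R v) with hz0
  have fixv : R v * z0 + G v = z0 := by rw [hz0]; field_simp; ring
  have fixw : ∀ w, (w = v1 ∨ w = v2) → R w * z0 + G w = z0 := by
    intro w hw
    have c := (hR w hw).2 v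
    have c' := (hR v hv').2 w
    rw [add_comm w v] at c'
    have : (1 - R v) * (R w * z0 + G w - z0) = 0 := by
      linear_combination (1 - R w) * fixv + c.symm.trans c'
    exact sub_eq_zero.1 ((mul_eq_zero.1 this).resolve_left h1)
  set r : P2 → ℝ := fun u => ‖G u - z0‖ ^ 2 with hr
  have hper : ∀ w, (w = v1 ∨ w = v2) → ∀ u, r (u + w) = r u := by
    intro w hw u
    have : G (u + w) - z0 = R w * (G u - z0) := by
      rw [(hR w hw).2]; linear_combination fixw w hw
    simp only [hr, this, norm_mul, (hR w hw).1, one_mul]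
  obtain ⟨u0, hu0⟩ := exists_max_periodic2 hv r
    (continuous_iff_continuousAt.2 fun u => ((hG u).sub_const z0).norm_sq.continuousAt)
    (hper v1 (Or.inl rfl)) (hper v2 (Or.inr rfl))
  have hzero := IsLocalMax.hasFDerivAt_eq_zero (Filter.Eventually.of_forall hu0)
    ((hG u0).sub_const z0).norm_sq
  obtain ⟨e, he⟩ := honto u0 (G u0 - z0)
  have := congrArg (fun L : P2 →L[ℝ] ℝ => L e) hzero
  have hsum : (G u0 - z0).re ^ 2 + (G u0 - z0).im ^ 2 = 0 := by
    simp [he] at this ⊢
    linear_combination this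
  obtain ⟨hre, him⟩ := (add_eq_zero_iff_of_nonneg (sq_nonneg _) (sq_nonneg _)).1 hsum
  have hw : G u0 - z0 = 0 :=
    Complex.ext (pow_eq_zero_iff two_ne_zero |>.1 hre) (pow_eq_zero_iff two_ne_zero |>.1 him)
  have hall : ∀ u, G u = z0 := fun u => by
    have h2 : ‖G u - z0‖ ^ 2 ≤ ‖G u0 - z0‖ ^ 2 := hu0 u
    rw [hw, norm_zero] at h2
    exact sub_eq_zero.1 (norm_eq_zero.1 (pow_eq_zero_iff two_ne_zero |>.1
      (le_antisymm (by simpa using h2) (sq_nonneg _))))
  have hG0 : G' u0 = 0 := ((hG u0).congr_of_eventuallyEq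
    (Filter.Eventually.of_forall fun u => (hall u).symm)).unique (hasFDerivAt_const z0 u0)
  obtain ⟨e1, he1⟩ := honto u0 1
  simp [hG0] at he1

/-- The periods of a map with onto differential are independent. -/
lemma periods_indep {Ψ : P2 → P2} {Ψ' : P2 → P2 →L[ℝ] P2} (hΨ : ∀ x, HasFDerivAt Ψ (Ψ' x) x)
    (honto : ∀ x, Function.Surjective (Ψ' x)) {p1 p2 : P2}
    (h1 : ∀ x, Ψ (x + (1, 0)) = Ψ x + p1) (h2 : ∀ x, Ψ (x + (0, 1)) = Ψ x + p2) :
    det2 p1 p2 ≠ 0 := by
  intro hdet
  obtain ⟨a, ha, ha1, ha2⟩ : ∃ a : P2, a ≠ 0 ∧ det2 a p1 = 0 ∧ det2 a p2 = 0 := by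
    by_cases hp : p1 = 0
    · by_cases hq : p2 = 0
      · exact ⟨(1, 0), by simp, by simp [hp, det2], by simp [hq, det2]⟩
      · exact ⟨p2, hq, by simp [hp, det2], by simp [det2, mul_comm]⟩
    · exact ⟨p1, hp, by simp [det2, mul_comm], hdet⟩
  let L : P2 →L[ℝ] ℝ := a.1 • ContinuousLinearMap.snd ℝ ℝ ℝ - a.2 • ContinuousLinearMap.fst ℝ ℝ ℝ
  have hL : ∀ y, L y = det2 a y := fun y => by simp [L, det2]
  obtain ⟨u0, hu0⟩ := exists_max_periodic2 (v1 := (1, 0)) (v2 := (0, 1)) (by simp [det2])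
    (fun u => L (Ψ u))
    (continuous_iff_continuousAt.2 fun u => (L.hasFDerivAt.comp u (hΨ u)).continuousAt)
    (fun u => by rw [h1, map_add, hL p1, ha1, add_zero])
    (fun u => by rw [h2, map_add, hL p2, ha2, add_zero])
  have hzero := IsLocalMax.hasFDerivAt_eq_zero (Filter.Eventually.of_forall hu0)
    (L.hasFDerivAt.comp u0 (hΨ u0))
  obtain ⟨e, he⟩ := honto u0 (-a.2, a.1)
  have := congrArg (fun L : P2 →L[ℝ] ℝ => L e) hzero
  simp only [ContinuousLinearMap.comp_apply, zero_apply, he, hL, det2] at this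
  have h0 := (add_eq_zero_iff_of_nonneg (mul_self_nonneg a.1) (mul_self_nonneg a.2)).1
    (by linarith)
  exact ha (Prod.ext (mul_self_eq_zero.1 h0.1) (mul_self_eq_zero.1 h0.2))

/-- A local diffeomorphism of the plane with independent periods is a diffeomorphism. -/
lemma global_inverse {Ψ : P2 → P2} (hs : ContDiff ℝ ∞ Ψ)
    (hinj : ∀ x, Function.Injective (fderiv ℝ Ψ x)) {p1 p2 : P2} (hp : det2 p1 p2 ≠ 0)
    (h1 : ∀ x, Ψ (x + (1, 0)) = Ψ x + p1) (h2 : ∀ x, Ψ (x + (0, 1)) = Ψ x + p2) :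
    ∃ F : P2 → P2, ContDiff ℝ ∞ F ∧ (∀ x, F (Ψ x) = x) ∧ ∀ y, Ψ (F y) = y := by
  let e : P2 → P2 ≃L[ℝ] P2 := fun x =>
    (LinearEquiv.ofInjectiveEndo (fderiv ℝ Ψ x : P2 →ₗ[ℝ] P2) (hinj x)).toContinuousLinearEquiv
  have hd : ∀ x, HasFDerivAt Ψ (e x : P2 →L[ℝ] P2) x := fun x => by
    have h := ((hs.differentiable (by simp)) x).hasFDerivAt
    exact h
  have hloc : IsLocalHomeomorph Ψ := IsLocalHomeomorph.mk Ψ fun x =>
    ⟨(hs.contDiffAt.hasStrictFDerivAt' (hd x) (by simp)).toOpenPartialHomeomorph Ψ,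
      HasStrictFDerivAt.mem_toOpenPartialHomeomorph_source _, fun _ _ => rfl⟩
  obtain ⟨φ, hφ⟩ : ∃ φ : P2 → P2, φ = fun x => Ψ x - (x.1 • p1 + x.2 • p2) := ⟨_, rfl⟩
  have hφc : Continuous φ := by
    rw [hφ]
    exact hs.continuous.sub (by fun_prop)
  have hφ1 : ∀ x, φ (x + (1, 0)) = φ x := fun x => by
    simp only [hφ, h1, Prod.fst_add, Prod.snd_add, add_zero, add_smul, one_smul]; abel
  have hφ2 : ∀ x, φ (x + (0, 1)) = φ x := fun x => by
    simp only [hφ, h2, Prod.fst_add, Prod.snd_add, add_zero, add_smul, one_smul]; abel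
  obtain ⟨u0, hu0⟩ := exists_max_periodic2 (v1 := (1, 0)) (v2 := (0, 1)) (by simp [det2])
    (fun x => ‖φ x‖) hφc.norm (fun x => by rw [hφ1]) (fun x => by rw [hφ2])
  -- Preimages of compact sets are compact.
  have hcpt : ∀ K : Set P2, IsCompact K → IsCompact (Ψ ⁻¹' K) := by
    intro K hK
    let back : P2 × P2 → P2 := fun q =>
      (det2 (q.1 - q.2) p2 / det2 p1 p2, det2 p1 (q.1 - q.2) / det2 p1 p2)
    have hb : Continuous back := by
      simp only [back, det2]
      fun_prop
    refine ((hK.prod (isCompact_closedBall (0 : P2) ‖φ u0‖)).image hb).of_isClosed_subset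
      (hK.isClosed.preimage hs.continuous) fun x hx => ⟨(Ψ x, φ x), ⟨hx, ?_⟩, ?_⟩
    · simpa [Metric.mem_closedBall, dist_zero_right] using hu0 x
    · have : Ψ x - φ x = x.1 • p1 + x.2 • p2 := by simp only [hφ, sub_sub_cancel]
      simp only [back, this]
      ext <;> simp only [det2, Prod.fst_add, Prod.snd_add, Prod.smul_fst, Prod.smul_snd,
        smul_eq_mul] <;> rw [div_eq_iff (by simpa [det2] using hp)] <;> ring
  have hprop : IsProperMap Ψ := isProperMap_iff_isCompact_preimage.2 ⟨hs.continuous, fun K => hcpt K⟩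
  have hcov : IsCoveringMap Ψ := by
    rw [isCoveringMap_iff_isCoveringMapOn_univ]
    refine hprop.isClosedMap.isCoveringMapOn_of_isLocalHomeomorphOn (fun y _ => ?_)
      (hloc.isLocalHomeomorphOn.mono (subset_univ _))
    exact (hcpt {y} isCompact_singleton).finite
      (IsDiscrete.of_openPartialHomeomorph Ψ subset_rfl fun x _ =>
        ⟨(hs.contDiffAt.hasStrictFDerivAt' (hd x) (by simp)).toOpenPartialHomeomorph Ψ,
          HasStrictFDerivAt.mem_toOpenPartialHomeomorph_source _, rfl⟩)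
  obtain ⟨a, ha⟩ : ∃ a, Ψ a = Ψ 0 := ⟨0, rfl⟩
  obtain ⟨F, ⟨hF0, hF⟩, -⟩ :=
    hcov.existsUnique_continuousMap_lifts (ContinuousMap.id P2) (Ψ 0) a (by simpa using ha)
  have hr : ∀ y, Ψ (F y) = y := congrFun hF
  have hl : ∀ x, F (Ψ x) = x := congrFun <| hcov.eq_of_comp_eq (F.continuous.comp hs.continuous)
    continuous_id (funext fun x => hr (Ψ x)) a (by simp [ha, hF0])
  let h : P2 ≃ₜ P2 :=
    { toFun := Ψ
      invFun := F
      left_inv := hl
      right_inv := hr
      continuous_toFun := hs.continuous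
      continuous_invFun := F.continuous }
  exact ⟨F, h.contDiff_symm (f₀' := e) hd hs, hl, hr⟩

/-- Uniformisation of the torus. -/
theorem uniform (hb : BeltramiSpec) : UniformSpec := by
  intro g11 g12 g22 s11 s12 s22 q11 q12 q22 hpos
  have hdet : ∀ x, 0 < g11 x * g22 x - g12 x ^ 2 := fun x => sub_pos.2 (hpos x).2
  set D : P2 → ℝ := fun x => Real.sqrt (g11 x * g22 x - g12 x ^ 2) with hD
  set N : P2 → ℝ := fun x => g11 x + g22 x + 2 * D x with hN
  have h22 : ∀ x, 0 < g22 x := fun x => by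
    by_contra hc
    have := mul_nonpos_of_nonneg_of_nonpos (hpos x).1.le (not_lt.1 hc)
    nlinarith [hdet x, sq_nonneg (g12 x)]
  have hD0 : ∀ x, 0 < D x := fun x => Real.sqrt_pos.2 (hdet x)
  have hD2 : ∀ x, D x ^ 2 = g11 x * g22 x - g12 x ^ 2 := fun x => Real.sq_sqrt (hdet x).le
  have hN0 : ∀ x, 0 < N x := fun x => by
    have := (hpos x).1; have := h22 x; have := hD0 x
    simp only [hN]; positivity
  have sN : ContDiff ℝ ∞ N :=
    (s11.add s22).add (contDiff_const.mul (((s11.mul s22).sub (s12.pow 2)).sqrt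
      fun x => (hdet x).ne'))
  set μ : P2 → ℂ := fun x =>
    (((g11 x - g22 x) / N x : ℝ) : ℂ) + ((2 * g12 x / N x : ℝ) : ℂ) * Complex.I with hμ
  have sμ : ContDiff ℝ ∞ μ :=
    (Complex.ofRealCLM.contDiff.comp ((s11.sub s22).div sN fun x => (hN0 x).ne')).add
      ((Complex.ofRealCLM.contDiff.comp
        ((contDiff_const.mul s12).div sN fun x => (hN0 x).ne')).mul contDiff_const)
  have qN : Periodic2 (1, 0) (0, 1) N := fun y => by
    simp only [hN, hD, (q11 y).1, (q11 y).2, (q12 y).1, (q12 y).2, (q22 y).1, (q22 y).2, and_self]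
  have qμ : Periodic2 (1, 0) (0, 1) μ := fun y => by
    simp only [hμ, (q11 y).1, (q11 y).2, (q12 y).1, (q12 y).2, (q22 y).1, (q22 y).2, (qN y).1,
      (qN y).2, and_self]
  have bμ : ∀ x, ‖μ x‖ < 1 := fun x => by
    have e : ‖μ x‖ ^ 2 = ((g11 x - g22 x) ^ 2 + (2 * g12 x) ^ 2) / N x ^ 2 := by
      rw [← Complex.normSq_eq_norm_sq, Complex.normSq_apply]
      simp [hμ]; ring_nf
    have h' : ‖μ x‖ ^ 2 < 1 := by
      rw [e, div_lt_one (pow_pos (hN0 x) 2)]
      have := (hpos x).1; have := h22 x; have := hD0 x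
      have := hD2 x
      simp only [hN]
      nlinarith
    exact (sq_lt_one_iff₀ (norm_nonneg _)).1 h'
  obtain ⟨s, ss, qs, hcl⟩ := hb μ sμ qμ bμ
  set A : P2 → ℂ := fun u => Complex.exp (s u) * (1 + μ u) with hA
  set B : P2 → ℂ := fun u => Complex.I * Complex.exp (s u) * (1 - μ u) with hB
  have sA : ContDiff ℝ ∞ A := ss.cexp.mul (contDiff_const.add sμ)
  have sB : ContDiff ℝ ∞ B := (contDiff_const.mul ss.cexp).mul (contDiff_const.sub sμ)
  set G := prim A B with hGdef
  have hG : ∀ x, HasFDerivAt G (form A B x) x := hasFDerivAt_prim sA sB hcl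
  set c : P2 → ℝ := fun x => N x / (4 * Real.exp (2 * (s x).re)) with hc
  have hc0 : ∀ x, 0 < c x := fun x => div_pos (hN0 x) (by positivity)
  have hmet : ∀ x v w, g11 x * v.1 * w.1 + g12 x * (v.1 * w.2 + v.2 * w.1) + g22 x * v.2 * w.2
      = c x * ((form A B x v).re * (form A B x w).re + (form A B x v).im * (form A B x w).im) := by
    intro x v w
    have hexp : Real.exp (2 * (s x).re)
        = (Complex.exp (s x)).re ^ 2 + (Complex.exp (s x)).im ^ 2 := by
      rw [Complex.exp_re, Complex.exp_im, two_mul, Real.exp_add]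
      linear_combination -(Real.exp (s x).re ^ 2) * Real.sin_sq_add_cos_sq (s x).im
    have hne : (Complex.exp (s x)).re ^ 2 + (Complex.exp (s x)).im ^ 2 ≠ 0 :=
      hexp ▸ (Real.exp_pos _).ne'
    simp only [hc, hexp]
    simp [hA, hB, hμ]
    have hNe := (hN0 x).ne'
    have hd2 := hD2 x
    field_simp
    generalize (Complex.exp (s x)).re = a at hne ⊢
    generalize (Complex.exp (s x)).im = b at hne ⊢
    simp only [hN]
    linear_combination (-4 * (v.1 * w.1 + v.2 * w.2) * (a ^ 2 + b ^ 2)) * hd2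
  have hker : ∀ x v, form A B x v = 0 → v = 0 := by
    intro x v hv
    have h := hmet x v v
    simp only [hv, Complex.zero_re, Complex.zero_im, mul_zero, add_zero] at h
    have hq : (g11 x * v.1 + g12 x * v.2) ^ 2 + (g11 x * g22 x - g12 x ^ 2) * v.2 ^ 2 = 0 := by
      linear_combination g11 x * h
    obtain ⟨ha, hb'⟩ := (add_eq_zero_iff_of_nonneg (sq_nonneg _)
      (mul_nonneg (hdet x).le (sq_nonneg _))).1 hq
    have h2 : v.2 = 0 := pow_eq_zero_iff two_ne_zero |>.1
      ((mul_eq_zero.1 hb').resolve_left (hdet x).ne')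
    have ha' := pow_eq_zero_iff two_ne_zero |>.1 ha
    rw [h2, mul_zero, add_zero] at ha'
    exact Prod.ext ((mul_eq_zero.1 ha').resolve_left (hpos x).1.ne') h2
  have hinj : ∀ x, Function.Injective (form A B x) := fun x =>
    (injective_iff_map_eq_zero _).2 (hker x)
  have honto : ∀ x, Function.Surjective (form A B x) := fun x => by
    have hdim : Module.finrank ℝ P2 = Module.finrank ℝ ℂ := by simp [Complex.finrank_real_complex]
    exact (LinearMap.injective_iff_surjective_of_finrank_eq_finrank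
      (f := (form A B x : P2 →ₗ[ℝ] ℂ)) hdim).1 (hinj x)
  -- Periods act by rotations.
  have hrot : ∀ w, (w = ((1, 0) : P2) ∨ w = (0, 1)) →
      ‖Complex.exp (s w - s 0)‖ = 1 ∧ ∀ x, G (x + w) = Complex.exp (s w - s 0) * G x + G w := by
    intro w hw
    have hre : ∀ x, (s (x + w)).re = (s x).re := fun x => by
      rcases hw with rfl | rfl
      · exact (qs x).1
      · exact (qs x).2
    have hμw : ∀ x, μ (x + w) = μ x := fun x => by
      rcases hw with rfl | rfl
      · exact (qμ x).1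
      · exact (qμ x).2
    have ds := ss.differentiable (by simp)
    set τ : P2 → ℂ := fun x => s (x + w) - s x with hτ
    have dτ : Differentiable ℝ τ := (ds.comp (differentiable_id.add_const w)).sub ds
    have hτre : ∀ x e, (fderiv ℝ τ x e).re = 0 := by
      intro x e
      have h := (Complex.reCLM.hasFDerivAt.comp x (dτ x).hasFDerivAt)
      have h0 : (Complex.reCLM ∘ τ) = fun _ => (0 : ℝ) := by
        funext u; simp [hτ, hre u]
      rw [h0] at h
      simpa using congrArg (fun L : P2 →L[ℝ] ℝ => L e) (h.unique (hasFDerivAt_const 0 x))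
    have hconst : ∀ x, τ x = τ 0 := by
      refine fun x => is_const_of_fderiv_eq_zero dτ (fun y => ?_) x 0
      have eA : (fun u => A (u + w)) = fun u => Complex.exp (τ u) * A u := by
        funext u
        simp only [hA, hμw u, hτ, ← mul_assoc, ← Complex.exp_add]; ring_nf
      have eB : (fun u => B (u + w)) = fun u => Complex.exp (τ u) * B u := by
        funext u
        simp only [hB, hμw u, hτ, ← mul_assoc]
        rw [mul_right_comm (Complex.exp _) Complex.I, ← Complex.exp_add]; ring_nf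
      have dA := ((sA.differentiable (by simp)) y).hasFDerivAt
      have dB := ((sB.differentiable (by simp)) y).hasFDerivAt
      have d1 := congrArg (fun L : P2 →L[ℝ] ℂ => L (0, 1))
        (((dτ y).hasFDerivAt.cexp).mul dA).fderiv
      have d2 := congrArg (fun L : P2 →L[ℝ] ℂ => L (1, 0))
        (((dτ y).hasFDerivAt.cexp).mul dB).fderiv
      simp only [add_apply, smul_apply, smul_eq_mul, Pi.mul_def] at d1 d2
      rw [← eA, fderiv_comp_add_right] at d1
      rw [← eB, fderiv_comp_add_right] at d2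
      have h1 : fderiv ℝ B (y + w) (1, 0) = fderiv ℝ A (y + w) (0, 1) := hcl (y + w)
      have h2 : fderiv ℝ B y (1, 0) = fderiv ℝ A y (0, 1) := hcl y
      rw [d1, d2, h2] at h1
      set tx := fderiv ℝ τ y (1, 0) with htx
      set ty := fderiv ℝ τ y (0, 1) with hty
      have h3 : tx * B y = ty * A y :=
        mul_left_cancel₀ (Complex.exp_ne_zero (τ y)) (by linear_combination h1)
      have ex : tx = (tx.im : ℂ) * Complex.I := Complex.ext (by simp [htx, hτre]) (by simp)
      have ey : ty = (ty.im : ℂ) * Complex.I := Complex.ext (by simp [hty, hτre]) (by simp)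
      have hk : form A B y (-ty.im, tx.im) = 0 := by
        rw [ex, ey] at h3
        refine mul_left_cancel₀ Complex.I_ne_zero ?_
        simp only [form_apply, Complex.real_smul, Complex.ofReal_neg]
        linear_combination h3
      have h0 := hker y _ hk
      simp only [Prod.ext_iff, Prod.fst_zero, Prod.snd_zero, neg_eq_zero] at h0
      have zx : fderiv ℝ τ y (1, 0) = 0 := by rw [← htx, ex, h0.2]; simp
      have zy : fderiv ℝ τ y (0, 1) = 0 := by rw [← hty, ey, h0.1]; simp
      refine ContinuousLinearMap.ext fun e => ?_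
      rw [show e = e.1 • ((1 : ℝ), (0 : ℝ)) + e.2 • ((0 : ℝ), (1 : ℝ)) by ext <;> simp]
      rw [map_add, map_smul, map_smul, zx, zy]
      simp
    have hτ0 : τ 0 = s w - s 0 := by simp [hτ]
    set R := Complex.exp (s w - s 0) with hR
    refine ⟨?_, fun x => ?_⟩
    · rw [hR, Complex.norm_exp, Complex.sub_re]
      have := hre 0
      rw [zero_add] at this
      simp [this]
    have hform : ∀ u, form A B (u + w) = R • form A B u := fun u => by
      have := hconst u
      rw [hτ0] at this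
      refine ContinuousLinearMap.ext fun e => ?_
      have hs' : s (u + w) = (s w - s 0) + s u := by simp only [hτ] at this; linear_combination this
      simp only [smul_apply, form_apply, hA, hB, hμw u, hs', Complex.exp_add,
        Complex.real_smul, smul_eq_mul, hR]
      ring
    have d1 : ∀ u, HasFDerivAt (fun u => G (u + w) - R * G u) (0 : P2 →L[ℝ] ℂ) u := fun u => by
      have := ((hG (u + w)).comp u ((hasFDerivAt_id u).add_const w)).sub ((hG u).const_mul R)
      refine this.congr_fderiv ?_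
      refine ContinuousLinearMap.ext fun e => ?_
      simp [hform]
    have := is_const_of_fderiv_eq_zero (fun u => (d1 u).differentiableAt)
      (fun u => (d1 u).fderiv) x 0
    have hz : G 0 = 0 := prim_zero A B
    simp only [zero_add, hz, mul_zero, sub_zero] at this
    linear_combination this
  have htr := translations hG honto (by simp [det2]) (fun w => Complex.exp (s w - s 0)) hrot
  set P := Complex.equivRealProdCLM with hP
  set Ψ : P2 → P2 := fun x => P (G x) with hΨ
  have hdΨ : ∀ x, HasFDerivAt Ψ ((P : ℂ →L[ℝ] P2).comp (form A B x)) x := fun x =>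
    P.hasFDerivAt.comp x (hG x)
  have p1 : ∀ x, Ψ (x + (1, 0)) = Ψ x + P (G (1, 0)) := fun x => by
    simp only [hΨ, htr _ (Or.inl rfl) x, map_add]
  have p2 : ∀ x, Ψ (x + (0, 1)) = Ψ x + P (G (0, 1)) := fun x => by
    simp only [hΨ, htr _ (Or.inr rfl) x, map_add]
  have hv : det2 (P (G (1, 0))) (P (G (0, 1))) ≠ 0 :=
    periods_indep hdΨ (fun x => P.surjective.comp (honto x)) p1 p2
  have sΨ : ContDiff ℝ ∞ Ψ := P.contDiff.comp (smooth_prim sA sB hcl)
  obtain ⟨F, sF, hl, hr⟩ := global_inverse sΨ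
    (fun x => by rw [(hdΨ x).fderiv]; exact P.injective.comp (hinj x)) hv p1 p2
  have qc : Periodic2 (1, 0) (0, 1) c := fun y => by
    have a := (qs y).1
    have b := (qs y).2
    simp only [hc, (qN y).1, (qN y).2, a, b, and_self]
  have sc : ContDiff ℝ ∞ c := sN.div (contDiff_const.mul ((contDiff_const.mul
    (Complex.reCLM.contDiff.comp ss)).exp)) fun x => by positivity
  refine ⟨P (G (1, 0)), P (G (0, 1)), fun y => c (F y), Ψ, hv, sc.comp sF, fun y => hc0 _,
    fun y => ?_, sΨ, fun x => ⟨p1 x, p2 x⟩, fun x v w => ?_⟩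
  · have e1 : F (y + P (G (1, 0))) = F y + (1, 0) := by
      rw [← hl (F y + (1, 0)), p1, hr]
    have e2 : F (y + P (G (0, 1))) = F y + (0, 1) := by
      rw [← hl (F y + (0, 1)), p2, hr]
    exact ⟨by simp only [e1, (qc _).1], by simp only [e2, (qc _).2]⟩
  · simp only [hl, (hdΨ x).fderiv, hmet x v w, ContinuousLinearMap.comp_apply,
      ContinuousLinearEquiv.coe_coe, hP, Complex.equivRealProdCLM_apply]

end Vale.Agent.P205
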